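import Crest.Agent.R039.TriEx995
import Crest.Agent.R039.Pot599

-- ▼ part R039/Cyc282A
section

/-!
# Row 39: Euler inequality for a subcomplex
-/

set_option autoImplicit false
set_option linter.unusedSectionVars false

namespace Crest.Agent.R039.Cyc

open Matrix Crest.Agent.R039.Map
open scoped Classical

section EI

variable {D X Y F : Type*} [Fintype D] [Fintype X] [Fintype Y] [DecidableEq X] [Field F]

/-- EULER INEQUALITY for a connected subcomplex which does not contain all faces -/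
theorem euler_ineq (s t : D → X) (l r : D → Y)
    (hY : ∀ h : Y → F, (∀ d, h (l d) = h (r d)) → ∀ x y, h x = h y)
    (hzero : ∀ f : Y → F, (inc F s t) *ᵥ (fun d => f (l d) - f (r d)) = 0)
    (VD : Finset X) (ED : Finset D) (FD : Finset Y)
    (hsV : ∀ d ∈ ED, s d ∈ VD) (htV : ∀ d ∈ ED, t d ∈ VD)
    (hFl : ∀ d, l d ∈ FD → d ∈ ED) (hFr : ∀ d, r d ∈ FD → d ∈ ED)
    (hconn : ∀ h : X → F, (∀ d ∈ ED, h (s d) = h (t d)) → ∀ x ∈ VD, ∀ y ∈ VD, h x = h y)
    (hne : ∃ y, y ∉ FD) : VD.card + FD.card ≤ ED.card + 1 := by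
  let s' : ED → VD := fun d => ⟨s d.1, hsV d.1 d.2⟩
  let t' : ED → VD := fun d => ⟨t d.1, htV d.1 d.2⟩
  have r1 : Fintype.card VD ≤ (inc F s' t').rank + 1 := by
    refine card_le_rank_inc s' t' (fun h hh x y => ?_)
    let h' : X → F := fun x => if hx : x ∈ VD then h ⟨x, hx⟩ else 0
    have e : ∀ x : VD, h' x.1 = h x := fun x => by
      show (if hx : x.1 ∈ VD then h ⟨x.1, hx⟩ else 0) = _
      rw [dif_pos x.2]
    have := hconn h' (fun d hd => by
      have := hh ⟨d, hd⟩
      have e1 := e (s' ⟨d, hd⟩)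
      have e2 := e (t' ⟨d, hd⟩)
      show h' (s' ⟨d, hd⟩).1 = h' (t' ⟨d, hd⟩).1
      rw [e1, e2, this]) x.1 x.2 y.1 y.2
    rwa [e, e] at this
  have h2 := LinearMap.finrank_range_add_finrank_ker ((inc F s' t').mulVecLin)
  rw [Module.finrank_fintype_fun_eq_card] at h2
  have h3 : (inc F s' t').rank = Module.finrank F (LinearMap.range ((inc F s' t').mulVecLin)) := rfl
  -- extension by zero
  let ex : (FD → F) → Y → F := fun f y => if hy : y ∈ FD then f ⟨y, hy⟩ else 0
  have exout : ∀ f y, y ∉ FD → ex f y = 0 := fun f y hy => dif_neg hy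
  have exin : ∀ f (y : FD), ex f y.1 = f y := fun f y => dif_pos y.2
  let L : (FD → F) →ₗ[F] (ED → F) :=
    { toFun := fun f d => ex f (l d.1) - ex f (r d.1)
      map_add' := by
        intro f g
        funext d
        have : ∀ y, ex (f + g) y = ex f y + ex g y := by
          intro y
          by_cases hy : y ∈ FD
          · simp only [ex, dif_pos hy, Pi.add_apply]
          · simp only [exout _ _ hy, add_zero]
        simp only [this, Pi.add_apply]
        ring
      map_smul' := by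
        intro a f
        funext d
        have : ∀ y, ex (a • f) y = a * ex f y := by
          intro y
          by_cases hy : y ∈ FD
          · simp only [ex, dif_pos hy, Pi.smul_apply, smul_eq_mul]
          · simp only [exout _ _ hy, mul_zero]
        simp only [this, RingHom.id_apply, Pi.smul_apply, smul_eq_mul]
        ring }
  have hLinj : Function.Injective L := by
    rw [← LinearMap.ker_eq_bot, LinearMap.ker_eq_bot']
    intro f hf
    have hall : ∀ d, ex f (l d) = ex f (r d) := by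
      intro d
      by_cases hd : d ∈ ED
      · exact sub_eq_zero.1 (congrFun hf ⟨d, hd⟩)
      · rw [exout _ _ (fun h => hd (hFl d h)), exout _ _ (fun h => hd (hFr d h))]
    obtain ⟨y0, hy0⟩ := hne
    have hc := hY _ hall
    funext y
    rw [← exin f y, hc y.1 y0, exout _ _ hy0]
    rfl
  have hLker : ∀ f, (inc F s' t').mulVecLin (L f) = 0 := by
    intro f
    rw [Matrix.mulVecLin_apply]
    funext x
    rw [inc_mulVec]
    have hz := congrFun (hzero (ex f)) x.1
    rw [inc_mulVec] at hz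
    have hout : ∀ d, d ∉ ED → ex f (l d) - ex f (r d) = 0 := by
      intro d hd
      rw [exout _ _ (fun h => hd (hFl d h)), exout _ _ (fun h => hd (hFr d h)), sub_zero]
    have e1 : ∑ d : ED, ((if s' d = x then L f d else 0) - (if t' d = x then L f d else 0))
        = ∑ d ∈ ED, ((if s d = x.1 then (ex f (l d) - ex f (r d)) else 0)
          - (if t d = x.1 then (ex f (l d) - ex f (r d)) else 0)) := by
      rw [← Finset.sum_coe_sort ED]
      refine Finset.sum_congr rfl (fun d _ => ?_)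
      have a1 : (s' d = x) ↔ (s d.1 = x.1) := by
        rw [Subtype.ext_iff]
      have a2 : (t' d = x) ↔ (t d.1 = x.1) := by
        rw [Subtype.ext_iff]
      simp only [a1, a2]
      rfl
    rw [e1, Finset.sum_subset (Finset.subset_univ ED)]
    · exact hz
    · intro d _ hd
      rw [hout d hd]
      simp
  have h5 : FD.card ≤ Module.finrank F (LinearMap.ker ((inc F s' t').mulVecLin)) := by
    have hle : LinearMap.range L ≤ LinearMap.ker ((inc F s' t').mulVecLin) := by
      rintro _ ⟨f, rfl⟩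
      exact hLker f
    have := Submodule.finrank_mono hle
    rw [LinearMap.finrank_range_of_inj hLinj, Module.finrank_fintype_fun_eq_card,
      Fintype.card_coe] at this
    exact this
  rw [Fintype.card_coe] at h2 r1
  omega

end EI

end Crest.Agent.R039.Cyc
end

-- ▼ part R039/Cyc282B
section

/-!
# Row 39: everything about one cycle of a rooted cycle cover
-/

set_option autoImplicit false
set_option linter.unusedSectionVars false

namespace Crest.Agent.R039.Cyc

open Matrix Crest.Agent.R039.Map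
open scoped Classical

/-- the third colour -/
def cc (i j : ZMod 3) : ZMod 3 := -(i + j)

/-- the sign of the rotation `i → j` -/
def om (i j : ZMod 3) : ℤ := if j = i + 1 then 1 else -1

theorem om_sq (i j : ZMod 3) : om i j = 1 ∨ om i j = -1 := by
  unfold om; split_ifs <;> simp

section

variable {W B : Type*} [Fintype W] [Fintype B] [DecidableEq W] [DecidableEq B] (T : Tri W B)

/-- white faces at a vertex off the support see the same side -/
theorem face_const (FD : Finset (W ⊕ B)) (v : T.Vert)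
    (hv : ∀ k w, (T.p (k - 1) w = v ∨ T.p (k + 1) w = v) →
      (Sum.inl w ∈ FD ↔ Sum.inr (T.e k w) ∈ FD)) :
    ∀ w w', T.p v.1 w = v → T.p v.1 w' = v → (Sum.inl w ∈ FD ↔ Sum.inl w' ∈ FD) := by
  have a1 : ∀ i : ZMod 3, i + 1 - 1 = i := by decide
  have a2 : ∀ i : ZMod 3, i + 2 + 1 = i := by decide
  have step : ∀ w, T.p v.1 w = v → (Sum.inl w ∈ FD ↔ Sum.inl (T.pi v.1 w) ∈ FD) := by
    intro w hw
    have h1 := hv (v.1 + 1) w (Or.inl (by rw [a1]; exact hw))
    have h2 := hv (v.1 + 2) (T.pi v.1 w) (Or.inr (by rw [a2, T.p_pi]; exact hw))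
    rw [T.pi_apply, Equiv.apply_symm_apply] at h2
    rw [h1]
    exact h2.symm
  intro w w' hw hw'
  have hs : (T.pi v.1).SameCycle w w' := (T.p_eq_iff.1 (hw.trans hw'.symm)).2
  obtain ⟨n, hn⟩ := hs.exists_nat_pow_eq
  have key : ∀ n : ℕ, T.p v.1 (((T.pi v.1) ^ n) w) = v ∧
      (Sum.inl w ∈ FD ↔ Sum.inl (((T.pi v.1) ^ n) w) ∈ FD) := by
    intro n
    induction n with
    | zero => exact ⟨hw, Iff.rfl⟩
    | succ n ih =>
      rw [pow_succ', Equiv.Perm.mul_apply]
      exact ⟨by rw [T.p_pi]; exact ih.1, ih.2.trans (step _ ih.1)⟩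
  rw [← hn]
  exact (key n).2

variable (ms mt : W → ZMod 3) (O : Finset W)

/-- the vertices on the cycle -/
noncomputable def VS : Finset T.Vert := O.image (fun w => T.p (ms w) w)

/-- one-sided Euler inequality for the two sides of a cycle -/
theorem disc_ineq (hc : T.Conn) (hO : O.Nonempty)
    (hne : ∀ w ∈ O, ms w ≠ mt w)
    (hinj : ∀ w ∈ O, ∀ w' ∈ O, T.p (ms w) w = T.p (ms w') w' → w = w')
    (himg : ∀ w ∈ O, ∃ w' ∈ O, T.p (mt w) w = T.p (ms w') w')
    (hcyc : ∀ h : W → ℚ, (∀ w ∈ O, ∀ w' ∈ O, T.p (mt w) w = T.p (ms w') w' → h w = h w') →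
      ∀ w ∈ O, ∀ w' ∈ O, h w = h w')
    (FD : Finset (W ⊕ B)) (hC : ∀ w k, (Sum.inl w ∈ FD ↔ Sum.inr (T.e k w) ∈ FD) ↔
      ¬ (w ∈ O ∧ k = cc (ms w) (mt w))) (hout : ∃ y, y ∉ FD) :
    O.card + (Finset.univ.filter (fun v : T.Vert => v ∉ VS T ms O ∧
      ∀ w, T.p v.1 w = v → Sum.inl w ∈ FD)).card + FD.card ≤
    (Finset.univ.filter (fun d : W × ZMod 3 =>
      Sum.inl d.1 ∈ FD ∨ Sum.inr (T.e d.2 d.1) ∈ FD)).card + 1 := by
  have ends : ∀ i j : ZMod 3, i ≠ j → (cc i j - 1 = i ∧ cc i j + 1 = j) ∨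
      (cc i j - 1 = j ∧ cc i j + 1 = i) := by decide
  -- vertices on the cycle
  have hSmem : ∀ w ∈ O, T.p (ms w) w ∈ VS T ms O := fun w hw => Finset.mem_image_of_mem _ hw
  have hTmem : ∀ w ∈ O, T.p (mt w) w ∈ VS T ms O := by
    intro w hw
    obtain ⟨w', hw', e⟩ := himg w hw
    rw [e]; exact hSmem w' hw'
  have hScard : (VS T ms O).card = O.card :=
    Finset.card_image_of_injOn (fun w hw w' hw' h => hinj w hw w' hw' h)
  -- edges with an end off the cycle do not cross
  have hoff : ∀ v : T.Vert, v ∉ VS T ms O → ∀ k w, (T.p (k - 1) w = v ∨ T.p (k + 1) w = v) →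
      (Sum.inl w ∈ FD ↔ Sum.inr (T.e k w) ∈ FD) := by
    intro v hv k w hk
    rw [hC]
    rintro ⟨hw, rfl⟩
    rcases ends _ _ (hne w hw) with ⟨e1, e2⟩ | ⟨e1, e2⟩ <;> rw [e1, e2] at hk <;>
      rcases hk with hk | hk <;> apply hv <;> rw [← hk]
    · exact hSmem w hw
    · exact hTmem w hw
    · exact hTmem w hw
    · exact hSmem w hw
  set ED := Finset.univ.filter (fun d : W × ZMod 3 =>
      Sum.inl d.1 ∈ FD ∨ Sum.inr (T.e d.2 d.1) ∈ FD) with hED
  set IN := Finset.univ.filter (fun v : T.Vert => v ∉ VS T ms O ∧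
      ∀ w, T.p v.1 w = v → Sum.inl w ∈ FD) with hIN
  have hdisj : Disjoint (VS T ms O) IN := by
    rw [Finset.disjoint_left]
    intro v hv hv'
    rw [hIN, Finset.mem_filter] at hv'
    exact hv'.2.1 hv
  have hcard : (VS T ms O ∪ IN).card = O.card + IN.card := by
    rw [Finset.card_union_of_disjoint hdisj, hScard]
  rw [← hcard]
  -- a vertex at an edge of ED
  have hmem : ∀ v : T.Vert, ∀ w k, (w, k) ∈ ED → (T.p (k - 1) w = v ∨ T.p (k + 1) w = v) →
      v ∈ VS T ms O ∪ IN := by
    intro v w k hd hk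
    by_cases hv : v ∈ VS T ms O
    · exact Finset.mem_union_left _ hv
    · apply Finset.mem_union_right
      rw [hIN, Finset.mem_filter]
      refine ⟨Finset.mem_univ _, hv, ?_⟩
      rw [hED, Finset.mem_filter] at hd
      have h1 := hoff v hv k w hk
      have hin : Sum.inl w ∈ FD := by
        rcases hd.2 with h | h
        · exact h
        · exact h1.2 h
      have hpw : T.p v.1 w = v := by
        rcases hk with hk | hk <;> rw [← hk] <;> rfl
      intro w' hw'
      exact (face_const T FD v (hoff v hv) w w' hpw hw').1 hin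
  refine euler_ineq (F := ℚ) (fun d : W × ZMod 3 => T.p (d.2 - 1) d.1)
    (fun d : W × ZMod 3 => T.p (d.2 + 1) d.1)
    (fun d : W × ZMod 3 => (Sum.inl d.1 : W ⊕ B))
    (fun d : W × ZMod 3 => (Sum.inr (T.e d.2 d.1) : W ⊕ B))
    (fun h hh => T.conn_face hc h (fun k w => hh (w, k)))
    (fun f => T.inc_delta f) (VS T ms O ∪ IN) ED FD ?_ ?_ ?_ ?_ ?_ hout
  · rintro ⟨w, k⟩ hd
    exact hmem _ w k hd (Or.inl rfl)
  · rintro ⟨w, k⟩ hd
    exact hmem _ w k hd (Or.inr rfl)
  · rintro ⟨w, k⟩ hd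
    rw [hED, Finset.mem_filter]
    exact ⟨Finset.mem_univ _, Or.inl hd⟩
  · rintro ⟨w, k⟩ hd
    rw [hED, Finset.mem_filter]
    exact ⟨Finset.mem_univ _, Or.inr hd⟩
  · intro h hh
    -- constant on the cycle
    have hedge : ∀ w ∈ O, h (T.p (ms w) w) = h (T.p (mt w) w) := by
      intro w hw
      have hd : (w, cc (ms w) (mt w)) ∈ ED := by
        rw [hED, Finset.mem_filter]
        refine ⟨Finset.mem_univ _, ?_⟩
        have := hC w (cc (ms w) (mt w))
        by_contra hcon
        rw [not_or] at hcon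
        exact this.1 ⟨fun h => absurd h hcon.1, fun h => absurd h hcon.2⟩ ⟨hw, rfl⟩
      have := hh _ hd
      rcases ends _ _ (hne w hw) with ⟨e1, e2⟩ | ⟨e1, e2⟩
      · simp only [e1, e2] at this
        exact this
      · simp only [e1, e2] at this
        exact this.symm
    have hS : ∀ w ∈ O, ∀ w' ∈ O, h (T.p (ms w) w) = h (T.p (ms w') w') :=
      hcyc (fun w => h (T.p (ms w) w)) (fun w hw w' _ e => by
        show h (T.p (ms w) w) = h (T.p (ms w') w')
        rw [hedge w hw, e])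
    obtain ⟨w1, hw1⟩ := hO
    have hS' : ∀ v ∈ VS T ms O, h v = h (T.p (ms w1) w1) := by
      intro v hv
      obtain ⟨w, hw, rfl⟩ := Finset.mem_image.1 hv
      exact hS w hw w1 hw1
    let h2 : T.Vert → ℚ := fun v => if v ∈ VS T ms O ∪ IN then h v else h (T.p (ms w1) w1)
    have e_in : ∀ v, v ∈ VS T ms O ∪ IN → h2 v = h v := fun v hv => if_pos hv
    have key : ∀ k w, h2 (T.p (k - 1) w) = h2 (T.p (k + 1) w) := by
      intro k w
      by_cases hd : (w, k) ∈ ED
      · rw [e_in _ (hmem _ w k hd (Or.inl rfl)), e_in _ (hmem _ w k hd (Or.inr rfl))]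
        exact hh _ hd
      · have hd' : Sum.inl w ∉ FD ∧ Sum.inr (T.e k w) ∉ FD := by
          rw [hED, Finset.mem_filter, not_and] at hd
          exact not_or.1 (hd (Finset.mem_univ _))
        have out : ∀ v : T.Vert, (T.p (k - 1) w = v ∨ T.p (k + 1) w = v) →
            h2 v = h (T.p (ms w1) w1) := by
          intro v hk
          by_cases hv : v ∈ VS T ms O
          · rw [e_in _ (Finset.mem_union_left _ hv)]
            exact hS' v hv
          · have hpw : T.p v.1 w = v := by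
              rcases hk with hk | hk <;> rw [← hk] <;> rfl
            have : v ∉ VS T ms O ∪ IN := by
              rw [Finset.mem_union, not_or]
              refine ⟨hv, fun h => ?_⟩
              rw [hIN, Finset.mem_filter] at h
              exact hd'.1 (h.2.2 w hpw)
            exact if_neg this
        rw [out _ (Or.inl rfl), out _ (Or.inr rfl)]
    have hall := T.conn_vert hc h2 key
    intro x hx y hy
    rw [← e_in x hx, ← e_in y hy]
    exact hall x y

end

end Crest.Agent.R039.Cyc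
end

-- ▼ part R039/Cyc282C
section

/-!
# Row 39: counting for one cycle of a rooted cycle cover
-/

set_option autoImplicit false
set_option linter.unusedSectionVars false

namespace Crest.Agent.R039.Cyc

open Matrix Crest.Agent.R039.Map
open scoped Classical

section

variable {W B : Type*} [Fintype W] [Fintype B] [DecidableEq W] [DecidableEq B] (T : Tri W B)
variable (ms mt : W → ZMod 3) (O : Finset W)

/-- number of edges touching a set of faces -/
theorem edges_card (FD : Finset (W ⊕ B)) (hC : ∀ w k, (Sum.inl w ∈ FD ↔ Sum.inr (T.e k w) ∈ FD) ↔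
      ¬ (w ∈ O ∧ k = cc (ms w) (mt w))) :
    (Finset.univ.filter (fun d : W × ZMod 3 =>
      Sum.inl d.1 ∈ FD ∨ Sum.inr (T.e d.2 d.1) ∈ FD)).card =
      3 * (Finset.univ.filter (fun w : W => (Sum.inl w : W ⊕ B) ∈ FD)).card
        + (O.filter (fun w => (Sum.inl w : W ⊕ B) ∉ FD)).card ∧
    (Finset.univ.filter (fun d : W × ZMod 3 =>
      Sum.inl d.1 ∈ FD ∨ Sum.inr (T.e d.2 d.1) ∈ FD)).card =
      3 * (Finset.univ.filter (fun b : B => (Sum.inr b : W ⊕ B) ∈ FD)).card
        + (O.filter (fun w => (Sum.inl w : W ⊕ B) ∈ FD)).card := by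
  have c1 : (Finset.univ.filter (fun d : W × ZMod 3 => Sum.inl d.1 ∈ FD)).card =
      3 * (Finset.univ.filter (fun w : W => (Sum.inl w : W ⊕ B) ∈ FD)).card := by
    have : Finset.univ.filter (fun d : W × ZMod 3 => Sum.inl d.1 ∈ FD) =
        (Finset.univ.filter (fun w : W => (Sum.inl w : W ⊕ B) ∈ FD)) ×ˢ
          (Finset.univ : Finset (ZMod 3)) := by
      ext ⟨w, k⟩
      simp
    rw [this, Finset.card_product, Finset.card_univ, ZMod.card, mul_comm]
  have c4 : (Finset.univ.filter (fun d : W × ZMod 3 => Sum.inr (T.e d.2 d.1) ∈ FD)).card =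
      3 * (Finset.univ.filter (fun b : B => (Sum.inr b : W ⊕ B) ∈ FD)).card := by
    have e1 : ((Finset.univ.filter (fun b : B => (Sum.inr b : W ⊕ B) ∈ FD)) ×ˢ
          (Finset.univ : Finset (ZMod 3))).card = 3 *
          (Finset.univ.filter (fun b : B => (Sum.inr b : W ⊕ B) ∈ FD)).card := by
      rw [Finset.card_product, Finset.card_univ, ZMod.card, mul_comm]
    rw [← e1]
    refine Finset.card_nbij' (fun d => (T.e d.2 d.1, d.2)) (fun d => ((T.e d.2).symm d.1, d.2))
      ?_ ?_ ?_ ?_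
    · intro d hd
      simpa using hd
    · intro d hd
      simpa using hd
    · intro d _
      simp
    · intro d _
      simp
  have c2 : (Finset.univ.filter (fun d : W × ZMod 3 => Sum.inl d.1 ∉ FD ∧
      Sum.inr (T.e d.2 d.1) ∈ FD)).card = (O.filter (fun w => (Sum.inl w : W ⊕ B) ∉ FD)).card := by
    symm
    refine Finset.card_nbij' (fun w => (w, cc (ms w) (mt w))) (fun d => d.1) ?_ ?_ ?_ ?_
    · intro w hw
      simp only [Finset.coe_filter, Set.mem_ofPred_eq] at hw
      simp only [Finset.coe_filter, Set.mem_ofPred_eq]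
      refine ⟨Finset.mem_univ _, hw.2, ?_⟩
      by_contra hcon
      exact (hC w (cc (ms w) (mt w))).1 ⟨fun h => absurd h hw.2, fun h => absurd h hcon⟩
        ⟨hw.1, rfl⟩
    · rintro ⟨w, k⟩ hd
      simp only [Finset.coe_filter, Set.mem_ofPred_eq] at hd
      simp only [Finset.coe_filter, Set.mem_ofPred_eq]
      refine ⟨?_, hd.2.1⟩
      by_contra hcon
      exact hd.2.1 (((hC w k).2 (fun h => hcon h.1)).2 hd.2.2)
    · intro w _; rfl
    · rintro ⟨w, k⟩ hd
      simp only [Finset.coe_filter, Set.mem_ofPred_eq] at hd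
      by_contra hcon
      refine hd.2.1 (((hC w k).2 (fun h => hcon ?_)).2 hd.2.2)
      rw [h.2]
  have c3 : (Finset.univ.filter (fun d : W × ZMod 3 => Sum.inl d.1 ∈ FD ∧
      Sum.inr (T.e d.2 d.1) ∉ FD)).card = (O.filter (fun w => (Sum.inl w : W ⊕ B) ∈ FD)).card := by
    symm
    refine Finset.card_nbij' (fun w => (w, cc (ms w) (mt w))) (fun d => d.1) ?_ ?_ ?_ ?_
    · intro w hw
      simp only [Finset.coe_filter, Set.mem_ofPred_eq] at hw
      simp only [Finset.coe_filter, Set.mem_ofPred_eq]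
      refine ⟨Finset.mem_univ _, hw.2, ?_⟩
      intro hcon
      exact (hC w (cc (ms w) (mt w))).1 ⟨fun _ => hcon, fun _ => hw.2⟩
        ⟨hw.1, rfl⟩
    · rintro ⟨w, k⟩ hd
      simp only [Finset.coe_filter, Set.mem_ofPred_eq] at hd
      simp only [Finset.coe_filter, Set.mem_ofPred_eq]
      refine ⟨?_, hd.2.1⟩
      by_contra hcon
      exact hd.2.2 (((hC w k).2 (fun h => hcon h.1)).1 hd.2.1)
    · intro w _; rfl
    · rintro ⟨w, k⟩ hd
      simp only [Finset.coe_filter, Set.mem_ofPred_eq] at hd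
      by_contra hcon
      refine hd.2.2 (((hC w k).2 (fun h => hcon ?_)).1 hd.2.1)
      rw [h.2]
  constructor
  · rw [← c1, ← c2, ← Finset.card_union_of_disjoint]
    · congr 1
      ext d
      simp only [Finset.mem_filter, Finset.mem_univ, true_and, Finset.mem_union]
      tauto
    · rw [Finset.disjoint_left]
      intro d hd hd'
      simp only [Finset.mem_filter, Finset.mem_univ, true_and] at hd hd'
      exact hd'.1 hd
  · rw [← c4, ← c3, ← Finset.card_union_of_disjoint]
    · congr 1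
      ext d
      simp only [Finset.mem_filter, Finset.mem_univ, true_and, Finset.mem_union]
      tauto
    · rw [Finset.disjoint_left]
      intro d hd hd'
      simp only [Finset.mem_filter, Finset.mem_univ, true_and] at hd hd'
      exact hd'.2 hd

/-- DISC COUNT for a cover cycle -/
theorem disc_count (hc : T.Conn) (hg : T.Genus0) (hO : O.Nonempty)
    (hne : ∀ w ∈ O, ms w ≠ mt w)
    (hinj : ∀ w ∈ O, ∀ w' ∈ O, T.p (ms w) w = T.p (ms w') w' → w = w')
    (himg : ∀ w ∈ O, ∃ w' ∈ O, T.p (mt w) w = T.p (ms w') w')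
    (hcyc : ∀ h : W → ℚ, (∀ w ∈ O, ∀ w' ∈ O, T.p (mt w) w = T.p (ms w') w' → h w = h w') →
      ∀ w ∈ O, ∀ w' ∈ O, h w = h w')
    (FD : Finset (W ⊕ B)) (hC : ∀ w k, (Sum.inl w ∈ FD ↔ Sum.inr (T.e k w) ∈ FD) ↔
      ¬ (w ∈ O ∧ k = cc (ms w) (mt w))) (hout : ∃ y, y ∉ FD) (hin : ∃ y, y ∈ FD)
    (hIN : (Finset.univ.filter (fun v : T.Vert => v ∉ VS T ms O ∧
      ∀ w, T.p v.1 w = v → Sum.inl w ∈ FD)).card + (O.filter (fun w => (Sum.inl w : W ⊕ B) ∈ FD)).card
      = (Finset.univ.filter (fun w : W => (Sum.inl w : W ⊕ B) ∈ FD)).card) :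
    O.card = 2 * (O.filter (fun w => (Sum.inl w : W ⊕ B) ∈ FD)).card + 3 ∧
    (Finset.univ.filter (fun b : B => (Sum.inr b : W ⊕ B) ∈ FD)).card =
      (Finset.univ.filter (fun w : W => (Sum.inl w : W ⊕ B) ∈ FD)).card + 1 := by
  have hC' : ∀ w k, (Sum.inl w ∈ FDᶜ ↔ Sum.inr (T.e k w) ∈ FDᶜ) ↔
      ¬ (w ∈ O ∧ k = cc (ms w) (mt w)) := by
    intro w k
    rw [← hC w k, Finset.mem_compl, Finset.mem_compl, not_iff_not]
  have i1 := disc_ineq T ms mt O hc hO hne hinj himg hcyc FD hC hout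
  have i2 := disc_ineq T ms mt O hc hO hne hinj himg hcyc FDᶜ hC' (by
    obtain ⟨y, hy⟩ := hin
    exact ⟨y, by rw [Finset.mem_compl, not_not]; exact hy⟩)
  have e1 := edges_card T ms mt O FD hC
  have e2 := edges_card T ms mt O FDᶜ hC'
  -- vertices
  have ends : ∀ i j : ZMod 3, i ≠ j → (cc i j - 1 = i ∧ cc i j + 1 = j) ∨
      (cc i j - 1 = j ∧ cc i j + 1 = i) := by decide
  have hSmem : ∀ w ∈ O, T.p (ms w) w ∈ VS T ms O := fun w hw => Finset.mem_image_of_mem _ hw
  have hTmem : ∀ w ∈ O, T.p (mt w) w ∈ VS T ms O := by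
    intro w hw
    obtain ⟨w', hw', e⟩ := himg w hw
    rw [e]; exact hSmem w' hw'
  have hScard : (VS T ms O).card = O.card :=
    Finset.card_image_of_injOn (fun w hw w' hw' h => hinj w hw w' hw' h)
  have hoff : ∀ v : T.Vert, v ∉ VS T ms O → ∀ k w, (T.p (k - 1) w = v ∨ T.p (k + 1) w = v) →
      (Sum.inl w ∈ FD ↔ Sum.inr (T.e k w) ∈ FD) := by
    intro v hv k w hk
    rw [hC]
    rintro ⟨hw, rfl⟩
    rcases ends _ _ (hne w hw) with ⟨e1, e2⟩ | ⟨e1, e2⟩ <;> rw [e1, e2] at hk <;>
      rcases hk with hk | hk <;> apply hv <;> rw [← hk]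
    · exact hSmem w hw
    · exact hTmem w hw
    · exact hTmem w hw
    · exact hSmem w hw
  have hV : (Finset.univ.filter (fun v : T.Vert => v ∉ VS T ms O ∧
      ∀ w, T.p v.1 w = v → Sum.inl w ∈ FD)).card + (Finset.univ.filter (fun v : T.Vert =>
      v ∉ VS T ms O ∧ ∀ w, T.p v.1 w = v → Sum.inl w ∈ FDᶜ)).card + O.card =
      Fintype.card W + 2 := by
    rw [← T.card_vert hg, ← hScard, ← Finset.card_union_of_disjoint,
      ← Finset.card_union_of_disjoint, ← Finset.card_univ]
    · congr 1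
      ext v
      simp only [Finset.mem_union, Finset.mem_filter, Finset.mem_univ, true_and, iff_true]
      by_cases hv : v ∈ VS T ms O
      · exact Or.inr hv
      · left
        obtain ⟨w, hw⟩ := T.exists_p v
        by_cases hw2 : Sum.inl w ∈ FD
        · left
          exact ⟨hv, fun w' hw' => (face_const T FD v (hoff v hv) w w' hw hw').1 hw2⟩
        · right
          refine ⟨hv, fun w' hw' => ?_⟩
          rw [Finset.mem_compl]
          exact fun h => hw2 ((face_const T FD v (hoff v hv) w w' hw hw').2 h)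
    · rw [Finset.disjoint_left]
      intro v hv hv'
      simp only [Finset.mem_union, Finset.mem_filter, Finset.mem_univ, true_and] at hv
      rcases hv with hv | hv
      · exact hv.1 hv'
      · exact hv.1 hv'
    · rw [Finset.disjoint_left]
      intro v hv hv'
      simp only [Finset.mem_filter, Finset.mem_univ, true_and] at hv hv'
      obtain ⟨w, hw⟩ := T.exists_p v
      have := hv'.2 w hw
      rw [Finset.mem_compl] at this
      exact this (hv.2 w hw)
  -- faces
  have hF : ∀ G : Finset (W ⊕ B), G.card = (Finset.univ.filter (fun w : W => (Sum.inl w : W ⊕ B) ∈ G)).card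
      + (Finset.univ.filter (fun b : B => (Sum.inr b : W ⊕ B) ∈ G)).card := by
    intro G
    rw [← Finset.card_map (⟨Sum.inl, Sum.inl_injective⟩ : W ↪ W ⊕ B) (s := Finset.univ.filter (fun w : W => (Sum.inl w : W ⊕ B) ∈ G)),
      ← Finset.card_map (⟨Sum.inr, Sum.inr_injective⟩ : B ↪ W ⊕ B) (s := Finset.univ.filter (fun b : B => (Sum.inr b : W ⊕ B) ∈ G)),
      ← Finset.card_union_of_disjoint]
    · congr 1
      ext y
      rcases y with y | y <;> simp
    · rw [Finset.disjoint_left]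
      intro y hy hy'
      rcases y with y | y
      · simp at hy'
      · simp at hy
  have f1 := hF FD
  have f2 := hF FDᶜ
  have f3 : FD.card + FDᶜ.card = Fintype.card (W ⊕ B) := by
    rw [← Finset.card_add_card_compl FD]
  rw [Fintype.card_sum, T.card_B] at f3
  have g1 : (O.filter (fun w => (Sum.inl w : W ⊕ B) ∈ FD)).card
      + (O.filter (fun w => (Sum.inl w : W ⊕ B) ∉ FD)).card = O.card :=
    Finset.card_filter_add_card_filter_not _
  have g2 : (O.filter (fun w => (Sum.inl w : W ⊕ B) ∈ FDᶜ)) =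
      (O.filter (fun w => (Sum.inl w : W ⊕ B) ∉ FD)) := by
    apply Finset.filter_congr; intro w _; rw [Finset.mem_compl]
  have g3 : (O.filter (fun w => (Sum.inl w : W ⊕ B) ∉ FDᶜ)) =
      (O.filter (fun w => (Sum.inl w : W ⊕ B) ∈ FD)) := by
    apply Finset.filter_congr; intro w _; rw [Finset.mem_compl, not_not]
  have g4 : (Finset.univ.filter (fun w : W => (Sum.inl w : W ⊕ B) ∈ FD)).card +
      (Finset.univ.filter (fun w : W => (Sum.inl w : W ⊕ B) ∈ FDᶜ)).card = Fintype.card W := by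
    rw [← Finset.card_univ, ← Finset.card_filter_add_card_filter_not (s := Finset.univ)
      (fun w : W => (Sum.inl w : W ⊕ B) ∈ FD)]
    congr 2
    apply Finset.filter_congr; intro w _; rw [Finset.mem_compl]
  rw [g2, g3] at e2
  obtain ⟨e11, e12⟩ := e1
  obtain ⟨e21, e22⟩ := e2
  rw [e11] at i1 e12
  rw [e21] at i2 e22
  omega

end

end Crest.Agent.R039.Cyc
end

-- ▼ part R039/Cyc282D

/-!
# Row 39: the facts about one cycle of a rooted cycle cover

`cover_cycle`: for a connected genus-zero `Tri` and a root `w0` there is an integer corner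
function `phi` such that for any two corner choices `ms`, `mt` and every cycle `O` of
`s⁻¹ t` one has `|O| = 2 r + 3`, `∏ om = a (-1)^(r+1)`, `∑ (phi_t - phi_s) = a A`, `A ≥ 1`.
-/

set_option autoImplicit false
set_option linter.unusedSectionVars false

namespace Crest.Agent.R039.Cyc

open Matrix Crest.Agent.R039.Map
open scoped Classical

theorem om_local : ∀ i a b : ZMod 3, a ≠ b →
    ((if i + 1 = cc a b then om a b else 0) - (if i + 2 = cc a b then om a b else 0) : ℤ) =
      (if b = i then 1 else 0) - (if a = i then 1 else 0) := by decide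

theorem om_phi : ∀ a b : ZMod 3, a ≠ b → (om a b = 1 ∧ cc a b + 1 = a ∧ cc a b + 2 = b) ∨
    (om a b = -1 ∧ cc a b + 1 = b ∧ cc a b + 2 = a) := by decide

section

variable {W B : Type*} [Fintype W] [Fintype B] [DecidableEq W] [DecidableEq B] (T : Tri W B)
variable (ms mt : W → ZMod 3) (O : Finset W)

/-- the oriented chain of a cycle -/
noncomputable def zc (k : ZMod 3) (w : W) : ℚ :=
  if w ∈ O ∧ k = cc (ms w) (mt w) then ((om (ms w) (mt w) : ℤ) : ℚ) else 0

theorem zc_sum (hne : ∀ w ∈ O, ms w ≠ mt w) (y : W → ℚ) (v : T.Vert) :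
    ∑ w : W, (if T.p v.1 w = v then zc ms mt O (v.1 + 1) w * y w - zc ms mt O (v.1 + 2) w * y w
      else 0) =
    (∑ w ∈ O, if T.p (mt w) w = v then y w else 0) -
      (∑ w ∈ O, if T.p (ms w) w = v then y w else 0) := by
  rw [← Finset.sum_sub_distrib, ← Finset.sum_subset (Finset.subset_univ O)]
  · refine Finset.sum_congr rfl (fun w hw => ?_)
    have hv : ∀ j : ZMod 3, T.p j w = v ↔ j = v.1 ∧ T.p v.1 w = v := by
      intro j
      constructor
      · intro h
        have : j = v.1 := by rw [← h]; rfl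
        subst this
        exact ⟨rfl, h⟩
      · rintro ⟨rfl, h⟩; exact h
    have hl := om_local v.1 (ms w) (mt w) (hne w hw)
    have hl' : zc ms mt O (v.1 + 1) w - zc ms mt O (v.1 + 2) w =
        (if mt w = v.1 then 1 else 0) - (if ms w = v.1 then 1 else 0) := by
      have : ((((if v.1 + 1 = cc (ms w) (mt w) then om (ms w) (mt w) else 0) -
        (if v.1 + 2 = cc (ms w) (mt w) then om (ms w) (mt w) else 0) : ℤ)) : ℚ) =
        (((if mt w = v.1 then 1 else 0) - (if ms w = v.1 then 1 else 0) : ℤ) : ℚ) := by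
        rw [hl]
      push_cast at this
      rw [← this]
      unfold zc
      simp only [hw, true_and]
    rw [← sub_mul, hl', if_congr (hv (mt w)) rfl rfl, if_congr (hv (ms w)) rfl rfl]
    by_cases h : T.p v.1 w = v
    · simp only [h, and_true, if_true]
      by_cases h1 : mt w = v.1 <;> by_cases h2 : ms w = v.1 <;> simp [h1, h2]
    · simp only [h, and_false, if_false, sub_zero]
  · intro w _ hw
    unfold zc
    simp [hw]

theorem sum_single {X : Type*} [DecidableEq X] (f : W → X)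
    (hf : ∀ w ∈ O, ∀ w' ∈ O, f w = f w' → w = w') (y : W → ℚ) (w1 : W) (h1 : w1 ∈ O) :
    (∑ w ∈ O, if f w = f w1 then y w else 0) = y w1 := by
  rw [Finset.sum_eq_single w1]
  · rw [if_pos rfl]
  · intro w hw hne
    rw [if_neg]
    intro h
    exact hne (hf w hw w1 h1 h)
  · intro h; exact absurd h1 h

theorem cover_cycle_aux (hc : T.Conn) (hg : T.Genus0) (w0 : W)
    (phi : ZMod 3 → W → ℤ)
    (hphi : ∀ (g : ZMod 3 → W → ℚ) (hW : W → ℚ)
      (hB : B → ℚ), (∀ k w, g k w = hW w - hB (T.e k w)) → hW w0 = 0 → (∀ k, g k w0 = 0) →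
      ∑ w, ∑ k, g k w * ((phi (k + 2) w - phi (k + 1) w : ℤ) : ℚ) = ∑ b, hB b)
    (hsinj : ∀ w w', w ≠ w0 → w' ≠ w0 → T.p (ms w) w = T.p (ms w') w' → w = w')
    (hssurj : ∀ v : T.Vert, (∀ i, T.p i w0 ≠ v) → ∃ w, w ≠ w0 ∧ T.p (ms w) w = v)
    (htinj : ∀ w ∈ O, ∀ w' ∈ O, T.p (mt w) w = T.p (mt w') w' → w = w')
    (hO : O.Nonempty) (hO0 : w0 ∉ O)
    (hne : ∀ w ∈ O, ms w ≠ mt w)
    (himg : ∀ w ∈ O, ∃ w' ∈ O, T.p (mt w) w = T.p (ms w') w')
    (hcyc : ∀ h : W → ℚ, (∀ w ∈ O, ∀ w' ∈ O, T.p (mt w) w = T.p (ms w') w' → h w = h w') →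
      ∀ w ∈ O, ∀ w' ∈ O, h w = h w') :
    ∃ (a : ℤ) (r A : ℕ), (a = 1 ∨ a = -1) ∧ 1 ≤ A ∧ O.card = 2 * r + 3 ∧
      ∏ w ∈ O, om (ms w) (mt w) = a * (-1) ^ (r + 1) ∧
      ∑ w ∈ O, (phi (mt w) w - phi (ms w) w) = a * A := by
  have hO0' : ∀ w ∈ O, w ≠ w0 := fun w hw h => hO0 (h ▸ hw)
  have hinj : ∀ w ∈ O, ∀ w' ∈ O, T.p (ms w) w = T.p (ms w') w' → w = w' :=
    fun w hw w' hw' h => hsinj w w' (hO0' w hw) (hO0' w' hw') h
  have himgeq : O.image (fun w => T.p (mt w) w) = O.image (fun w => T.p (ms w) w) := by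
    apply Finset.eq_of_subset_of_card_le
    · intro v hv
      obtain ⟨w, hw, rfl⟩ := Finset.mem_image.1 hv
      obtain ⟨w', hw', e⟩ := himg w hw
      rw [e]
      exact Finset.mem_image_of_mem _ hw'
    · rw [Finset.card_image_of_injOn (fun w hw w' hw' h => hinj w hw w' hw' h),
        Finset.card_image_of_injOn (fun w hw w' hw' h => htinj w hw w' hw' h)]
  -- the chain is closed
  have hclosed : ∀ v : T.Vert, ∑ w : W, (if T.p v.1 w = v then zc ms mt O (v.1 + 1) w
      - zc ms mt O (v.1 + 2) w else 0) = 0 := by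
    intro v
    have := zc_sum T ms mt O hne (fun _ => 1) v
    simp only [mul_one] at this
    rw [this, sub_eq_zero]
    by_cases hv : v ∈ O.image (fun w => T.p (ms w) w)
    · obtain ⟨w', hw', e'⟩ := Finset.mem_image.1 hv
      rw [← himgeq] at hv
      obtain ⟨w, hw, e⟩ := Finset.mem_image.1 hv
      have h1 := sum_single O (fun w => T.p (mt w) w) htinj (fun _ => 1) w hw
      have h2 := sum_single O (fun w => T.p (ms w) w) hinj (fun _ => 1) w' hw'
      simp only [e] at h1
      simp only [e'] at h2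
      rw [h1, h2]
    · have hv' : v ∉ O.image (fun w => T.p (mt w) w) := by rw [himgeq]; exact hv
      rw [Finset.sum_eq_zero, Finset.sum_eq_zero]
      · intro w hw
        rw [if_neg]
        intro h; apply hv; rw [← h]; exact Finset.mem_image_of_mem _ hw
      · intro w hw
        rw [if_neg]
        intro h; apply hv'; rw [← h]
        exact Finset.mem_image_of_mem (fun w => T.p (mt w) w) hw
  obtain ⟨h0, hh0⟩ := T.dual_exact hc hg (zc ms mt O) hclosed
  obtain ⟨h, hh, hroot⟩ : ∃ h : W ⊕ B → ℚ, (∀ k w, h (Sum.inl w) - h (Sum.inr (T.e k w)) =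
      zc ms mt O k w) ∧ h (Sum.inl w0) = 0 :=
    ⟨fun y => h0 y - h0 (Sum.inl w0), fun k w => by
      rw [← hh0 k w]; ring, sub_self _⟩
  -- the square trick
  let y : W → ℚ := fun w => h (Sum.inl w) + h (Sum.inr (T.e (cc (ms w) (mt w)) w))
  have hsq : ∀ k w, h (Sum.inl w) ^ 2 - h (Sum.inr (T.e k w)) ^ 2 = zc ms mt O k w * y w := by
    intro k w
    have e1 : h (Sum.inl w) ^ 2 - h (Sum.inr (T.e k w)) ^ 2 =
        (h (Sum.inl w) - h (Sum.inr (T.e k w))) * (h (Sum.inl w) + h (Sum.inr (T.e k w))) := by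
      ring
    rw [e1, hh]
    by_cases hk : w ∈ O ∧ k = cc (ms w) (mt w)
    · rw [hk.2]
    · have : zc ms mt O k w = 0 := if_neg hk
      rw [this, zero_mul, zero_mul]
  have hy1 : ∀ w ∈ O, ∀ w' ∈ O, T.p (mt w) w = T.p (ms w') w' → y w = y w' := by
    intro w hw w' hw' e
    have e0 := congrFun (T.inc_delta (F := ℚ) (fun x => h x ^ 2)) (T.p (mt w) w)
    have e1 := T.inc_apply (F := ℚ) (fun k w => h (Sum.inl w) ^ 2 - h (Sum.inr (T.e k w)) ^ 2)
      (T.p (mt w) w)
    rw [e1] at e0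
    simp only [hsq] at e0
    rw [zc_sum T ms mt O hne y] at e0
    have h1 := sum_single O (fun w => T.p (mt w) w) htinj y w hw
    have h2 := sum_single O (fun w => T.p (ms w) w) hinj y w' hw'
    rw [h1, e, h2] at e0
    exact sub_eq_zero.1 e0
  have hyc := hcyc y hy1
  obtain ⟨w1, hw1⟩ := hO
  set α := y w1 with hα
  have hval : ∀ x, h x = 0 ∨ h x = α := by
    have hconst := T.conn_face hc (fun x => h x ^ 2 - α * h x) (by
      intro k w
      have e1 := hsq k w
      have e2 := hh k w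
      by_cases hk : w ∈ O ∧ k = cc (ms w) (mt w)
      · have e3 : y w = α := hyc w hk.1 w1 hw1
        rw [e3] at e1
        rw [← e2] at e1
        show h (Sum.inl w) ^ 2 - α * h (Sum.inl w) = h (Sum.inr (T.e k w)) ^ 2
          - α * h (Sum.inr (T.e k w))
        linarith
      · have e3 : zc ms mt O k w = 0 := if_neg hk
        rw [e3, sub_eq_zero] at e2
        show h (Sum.inl w) ^ 2 - α * h (Sum.inl w) = h (Sum.inr (T.e k w)) ^ 2
          - α * h (Sum.inr (T.e k w))
        rw [e2])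
    intro x
    have := hconst x (Sum.inl w0)
    simp only [hroot] at this
    have e : h x * (h x - α) = 0 := by nlinarith
    rcases mul_eq_zero.1 e with e | e
    · exact Or.inl e
    · exact Or.inr (sub_eq_zero.1 e)
  have homq : ∀ w, ((om (ms w) (mt w) : ℤ) : ℚ) = 1 ∨ ((om (ms w) (mt w) : ℤ) : ℚ) = -1 := by
    intro w
    rcases om_sq (ms w) (mt w) with e | e <;> rw [e] <;> simp
  have hedge : ∀ w ∈ O, h (Sum.inl w) - h (Sum.inr (T.e (cc (ms w) (mt w)) w)) =
      ((om (ms w) (mt w) : ℤ) : ℚ) := by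
    intro w hw
    rw [hh]
    exact if_pos ⟨hw, rfl⟩
  -- α = ±1
  obtain ⟨a, ha, haα⟩ : ∃ a : ℤ, (a = 1 ∨ a = -1) ∧ (a : ℚ) = α := by
    have e := hedge w1 hw1
    rcases hval (Sum.inl w1) with e1 | e1 <;>
      rcases hval (Sum.inr (T.e (cc (ms w1) (mt w1)) w1)) with e2 | e2 <;> rw [e1, e2] at e <;>
      rcases homq w1 with e3 | e3 <;> rw [e3] at e
    · norm_num at e
    · norm_num at e
    · exact ⟨-1, Or.inr rfl, by push_cast; linarith⟩
    · exact ⟨1, Or.inl rfl, by push_cast; linarith⟩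
    · exact ⟨1, Or.inl rfl, by push_cast; linarith⟩
    · exact ⟨-1, Or.inr rfl, by push_cast; linarith⟩
    · norm_num at e
    · norm_num at e
  have hα0 : α ≠ 0 := by
    rw [← haα]
    rcases ha with rfl | rfl <;> norm_num
  set FD : Finset (W ⊕ B) := Finset.univ.filter (fun x => h x = α) with hFD
  have hmem : ∀ x, x ∈ FD ↔ h x = α := fun x => by rw [hFD, Finset.mem_filter]; simp
  have hnmem : ∀ x, x ∉ FD ↔ h x = 0 := by
    intro x
    rw [hmem]
    rcases hval x with e | e
    · rw [e]; simp [Ne.symm hα0]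
    · rw [e]; simp [hα0]
  have hC : ∀ w k, (Sum.inl w ∈ FD ↔ Sum.inr (T.e k w) ∈ FD) ↔
      ¬ (w ∈ O ∧ k = cc (ms w) (mt w)) := by
    intro w k
    have e := hh k w
    constructor
    · intro hiff hk
      have e3 : zc ms mt O k w = ((om (ms w) (mt w) : ℤ) : ℚ) := if_pos hk
      have e4 : h (Sum.inl w) = h (Sum.inr (T.e k w)) := by
        by_cases hw : Sum.inl w ∈ FD
        · rw [(hmem _).1 hw, (hmem _).1 (hiff.1 hw)]
        · rw [(hnmem _).1 hw, (hnmem _).1 (fun h' => hw (hiff.2 h'))]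
      rw [e4, sub_self, e3] at e
      rcases homq w with e5 | e5 <;> rw [e5] at e <;> norm_num at e
    · intro hk
      have e3 : zc ms mt O k w = 0 := if_neg hk
      rw [e3, sub_eq_zero] at e
      rw [hmem, hmem, e]
  have hroot' : (Sum.inl w0 : W ⊕ B) ∉ FD := (hnmem _).2 hroot
  -- vertices off the cycle
  have ends : ∀ i j : ZMod 3, i ≠ j → (cc i j - 1 = i ∧ cc i j + 1 = j) ∨
      (cc i j - 1 = j ∧ cc i j + 1 = i) := by decide
  have hSmem : ∀ w ∈ O, T.p (ms w) w ∈ VS T ms O := fun w hw => Finset.mem_image_of_mem _ hw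
  have hTmem : ∀ w ∈ O, T.p (mt w) w ∈ VS T ms O := by
    intro w hw
    obtain ⟨w', hw', e⟩ := himg w hw
    rw [e]; exact hSmem w' hw'
  have hoff : ∀ v : T.Vert, v ∉ VS T ms O → ∀ k w, (T.p (k - 1) w = v ∨ T.p (k + 1) w = v) →
      (Sum.inl w ∈ FD ↔ Sum.inr (T.e k w) ∈ FD) := by
    intro v hv k w hk
    rw [hC]
    rintro ⟨hw, rfl⟩
    rcases ends _ _ (hne w hw) with ⟨e1, e2⟩ | ⟨e1, e2⟩ <;> rw [e1, e2] at hk <;>
      rcases hk with hk | hk <;> apply hv <;> rw [← hk]
    · exact hSmem w hw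
    · exact hTmem w hw
    · exact hTmem w hw
    · exact hSmem w hw
  have hIN : (Finset.univ.filter (fun v : T.Vert => v ∉ VS T ms O ∧
      ∀ w, T.p v.1 w = v → Sum.inl w ∈ FD)).card + (O.filter (fun w => (Sum.inl w : W ⊕ B) ∈ FD)).card
      = (Finset.univ.filter (fun w : W => (Sum.inl w : W ⊕ B) ∈ FD)).card := by
    have e1 : (Finset.univ.filter (fun v : T.Vert => v ∉ VS T ms O ∧
        ∀ w, T.p v.1 w = v → Sum.inl w ∈ FD)).card =
        (Finset.univ.filter (fun w : W => (Sum.inl w : W ⊕ B) ∈ FD ∧ w ∉ O)).card := by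
      symm
      refine Finset.card_bij (fun w _ => T.p (ms w) w) ?_ ?_ ?_
      · intro w hw
        simp only [Finset.mem_filter, Finset.mem_univ, true_and] at hw ⊢
        have hw0 : w ≠ w0 := fun h' => hroot' (h' ▸ hw.1)
        have hnot : T.p (ms w) w ∉ VS T ms O := by
          intro hcon
          obtain ⟨w', hw', e⟩ := Finset.mem_image.1 hcon
          have := hsinj w' w (hO0' w' hw') hw0 e
          exact hw.2 (this ▸ hw')
        exact ⟨hnot, fun w' hw' => (face_const T FD _ (hoff _ hnot) w w' rfl hw').1 hw.1⟩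
      · intro w hw w' hw' e
        simp only [Finset.mem_filter, Finset.mem_univ, true_and] at hw hw'
        exact hsinj w w' (fun h' => hroot' (h' ▸ hw.1)) (fun h' => hroot' (h' ▸ hw'.1)) e
      · intro v hv
        simp only [Finset.mem_filter, Finset.mem_univ, true_and] at hv
        obtain ⟨w, hw0, rfl⟩ := hssurj v (fun i hi => hroot' (hv.2 w0 (by
          rw [← hi]; rfl)))
        refine ⟨w, ?_, rfl⟩
        simp only [Finset.mem_filter, Finset.mem_univ, true_and]
        exact ⟨hv.2 w rfl, fun hw => hv.1 (hSmem w hw)⟩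
    rw [e1, ← Finset.card_union_of_disjoint]
    · congr 1
      ext w
      simp only [Finset.mem_union, Finset.mem_filter, Finset.mem_univ, true_and]
      tauto
    · rw [Finset.disjoint_left]
      intro w hw hw'
      simp only [Finset.mem_filter, Finset.mem_univ, true_and] at hw hw'
      exact hw.2 hw'.1
  have hin : ∃ x, x ∈ FD := by
    by_contra hcon
    rw [not_exists] at hcon
    exact (hC w1 (cc (ms w1) (mt w1))).1 ⟨fun h' => absurd h' (hcon _),
      fun h' => absurd h' (hcon _)⟩ ⟨hw1, rfl⟩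
  obtain ⟨hcard, hblack⟩ := disc_count T ms mt O hc hg ⟨w1, hw1⟩ hne hinj himg hcyc FD hC
    ⟨_, hroot'⟩ hin hIN
  refine ⟨a, (O.filter (fun w => (Sum.inl w : W ⊕ B) ∈ FD)).card,
    (Finset.univ.filter (fun b : B => (Sum.inr b : W ⊕ B) ∈ FD)).card, ha, ?_, hcard, ?_, ?_⟩
  · rw [hblack]; omega
  · -- product
    have hom : ∀ w ∈ O, om (ms w) (mt w) = if (Sum.inl w : W ⊕ B) ∈ FD then a else -a := by
      intro w hw
      have e := hedge w hw
      by_cases hw2 : (Sum.inl w : W ⊕ B) ∈ FD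
      · have hb : Sum.inr (T.e (cc (ms w) (mt w)) w) ∉ FD := by
          intro hb
          exact (hC w (cc (ms w) (mt w))).1 ⟨fun _ => hb, fun _ => hw2⟩ ⟨hw, rfl⟩
        rw [(hmem _).1 hw2, (hnmem _).1 hb, sub_zero, ← haα] at e
        rw [if_pos hw2]
        exact_mod_cast e.symm
      · have hb : Sum.inr (T.e (cc (ms w) (mt w)) w) ∈ FD := by
          by_contra hb
          exact (hC w (cc (ms w) (mt w))).1 ⟨fun h' => absurd h' hw2, fun h' => absurd h' hb⟩
            ⟨hw, rfl⟩
        rw [(hnmem _).1 hw2, (hmem _).1 hb, zero_sub, ← haα] at e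
        rw [if_neg hw2]
        exact_mod_cast e.symm
    rw [Finset.prod_congr rfl hom, Finset.prod_ite, Finset.prod_const, Finset.prod_const]
    have g1 : (O.filter (fun w => (Sum.inl w : W ⊕ B) ∈ FD)).card
      + (O.filter (fun w => (Sum.inl w : W ⊕ B) ∉ FD)).card = O.card :=
      Finset.card_filter_add_card_filter_not _
    generalize (O.filter (fun w => (Sum.inl w : W ⊕ B) ∈ FD)).card = r at *
    have g2 : (O.filter (fun w => (Sum.inl w : W ⊕ B) ∉ FD)).card = r + 3 := by omega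
    rw [g2]
    have ha2 : a * a = 1 := by rcases ha with rfl | rfl <;> norm_num
    have ha3 : ∀ n : ℕ, a ^ n * a ^ n = 1 := by
      intro n; rw [← mul_pow, ha2, one_pow]
    rw [neg_pow a (r + 3)]
    have e1 : a ^ r * ((-1) ^ (r + 3) * a ^ (r + 3)) = (a ^ r * a ^ r) * (a * a) * a *
      ((-1) ^ (r + 1) * ((-1) * (-1))) := by ring
    rw [e1, ha3, ha2]
    ring
  · -- potential
    have e := hphi (zc ms mt O) (fun w => h (Sum.inl w)) (fun b => h (Sum.inr b))
      (fun k w => (hh k w).symm) hroot (fun k => if_neg (fun h' => hO0 h'.1))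
    have e1 : ∑ w, ∑ k, zc ms mt O k w * ((phi (k + 2) w - phi (k + 1) w : ℤ) : ℚ) =
        ∑ w ∈ O, ((phi (mt w) w - phi (ms w) w : ℤ) : ℚ) := by
      rw [← Finset.sum_subset (Finset.subset_univ O)]
      · refine Finset.sum_congr rfl (fun w hw => ?_)
        rw [Finset.sum_eq_single (cc (ms w) (mt w))]
        · have : zc ms mt O (cc (ms w) (mt w)) w = ((om (ms w) (mt w) : ℤ) : ℚ) := if_pos ⟨hw, rfl⟩
          rw [this]
          rcases om_phi (ms w) (mt w) (hne w hw) with ⟨f1, f2, f3⟩ | ⟨f1, f2, f3⟩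
          · rw [f1, f2, f3]; push_cast; ring
          · rw [f1, f2, f3]; push_cast; ring
        · intro k _ hk
          have : zc ms mt O k w = 0 := if_neg (fun h' => hk h'.2)
          rw [this, zero_mul]
        · intro h'; exact absurd (Finset.mem_univ _) h'
      · intro w _ hw
        refine Finset.sum_eq_zero (fun k _ => ?_)
        have : zc ms mt O k w = 0 := if_neg (fun h' => hw h'.1)
        rw [this, zero_mul]
    rw [e1] at e
    have e2 : ∑ b, h (Sum.inr b) = (a : ℚ) *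
        ((Finset.univ.filter (fun b : B => (Sum.inr b : W ⊕ B) ∈ FD)).card : ℚ) := by
      have : ∀ b, h (Sum.inr b) = if (Sum.inr b : W ⊕ B) ∈ FD then (a : ℚ) else 0 := by
        intro b
        by_cases hb : (Sum.inr b : W ⊕ B) ∈ FD
        · rw [if_pos hb, haα]; exact (hmem _).1 hb
        · rw [if_neg hb]; exact (hnmem _).1 hb
      rw [Finset.sum_congr rfl (fun b _ => this b), ← Finset.sum_filter, Finset.sum_const,
        nsmul_eq_mul, mul_comm]
    rw [e2] at e
    exact_mod_cast e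

/-- THE FACTS ABOUT ONE CYCLE OF A ROOTED CYCLE COVER -/
theorem cover_cycle (hc : T.Conn) (hg : T.Genus0) (w0 : W) :
    ∃ phi : ZMod 3 → W → ℤ, ∀ (ms mt : W → ZMod 3) (O : Finset W),
      (∀ w w', w ≠ w0 → w' ≠ w0 → T.p (ms w) w = T.p (ms w') w' → w = w') →
      (∀ v : T.Vert, (∀ i, T.p i w0 ≠ v) → ∃ w, w ≠ w0 ∧ T.p (ms w) w = v) →
      (∀ w ∈ O, ∀ w' ∈ O, T.p (mt w) w = T.p (mt w') w' → w = w') →
      O.Nonempty → w0 ∉ O → (∀ w ∈ O, ms w ≠ mt w) →
      (∀ w ∈ O, ∃ w' ∈ O, T.p (mt w) w = T.p (ms w') w') →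
      (∀ h : W → ℚ, (∀ w ∈ O, ∀ w' ∈ O, T.p (mt w) w = T.p (ms w') w' → h w = h w') →
        ∀ w ∈ O, ∀ w' ∈ O, h w = h w') →
      ∃ (a : ℤ) (r A : ℕ), (a = 1 ∨ a = -1) ∧ 1 ≤ A ∧ O.card = 2 * r + 3 ∧
        ∏ w ∈ O, om (ms w) (mt w) = a * (-1) ^ (r + 1) ∧
        ∑ w ∈ O, (phi (mt w) w - phi (ms w) w) = a * A := by
  obtain ⟨phi, hphi⟩ := T.exists_phi hc w0
  exact ⟨phi, fun ms mt O h1 h2 h3 h4 h5 h6 h7 h8 =>
    cover_cycle_aux T ms mt O hc hg w0 phi (fun g hW hB => hphi ℚ g hW hB) h1 h2 h3 h4 h5 h6 h7 h8⟩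

end

end Crest.Agent.R039.Cyc
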