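import Crest.Agent.R039.Defs29
import Crest.Agent.R039.TriEx995

-- ▼ part R039/Fin29
section

/-!
# Row 39: `Ham` gives a Hamiltonian cycle
-/

set_option autoImplicit false
set_option linter.unusedSectionVars false

namespace Crest.Agent.R039

namespace Tri

variable {W B : Type*} (T : Tri W B)

/-- the relation of the 2-factor -/
def Rel (m : W → ZMod 3) (w : W) (b : B) : Prop := ∃ c, c ≠ m w ∧ T.e c w = b

/-- the 2-factor as a graph -/
def H2 (m : W → ZMod 3) : SimpleGraph (W ⊕ B) where
  Adj x y := (∃ w b, T.Rel m w b ∧ x = Sum.inl w ∧ y = Sum.inr b) ∨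
    (∃ w b, T.Rel m w b ∧ x = Sum.inr b ∧ y = Sum.inl w)
  symm := ⟨by
    rintro x y (⟨w, b, h, rfl, rfl⟩ | ⟨w, b, h, rfl, rfl⟩)
    · exact Or.inr ⟨w, b, h, rfl, rfl⟩
    · exact Or.inl ⟨w, b, h, rfl, rfl⟩⟩
  loopless := ⟨by
    rintro x (⟨w, b, h, rfl, h2⟩ | ⟨w, b, h, rfl, h2⟩)
    · exact absurd h2 (by simp)
    · exact absurd h2 (by simp)⟩

theorem H2_adj_lr (m : W → ZMod 3) (w : W) (b : B) :
    (T.H2 m).Adj (Sum.inl w) (Sum.inr b) ↔ T.Rel m w b := by
  constructor
  · rintro (⟨w', b', h, h1, h2⟩ | ⟨w', b', h, h1, h2⟩)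
    · rw [Sum.inl.inj h1, Sum.inr.inj h2]; exact h
    · exact absurd h1 (by simp)
  · intro h; exact Or.inl ⟨w, b, h, rfl, rfl⟩

theorem H2_adj_l (m : W → ZMod 3) (w : W) (x : W ⊕ B) :
    (T.H2 m).Adj (Sum.inl w) x ↔ ∃ b, x = Sum.inr b ∧ T.Rel m w b := by
  constructor
  · rintro (⟨w', b', h, h1, h2⟩ | ⟨w', b', h, h1, h2⟩)
    · exact ⟨b', h2, by rw [Sum.inl.inj h1]; exact h⟩
    · exact absurd h1 (by simp)
  · rintro ⟨b, rfl, h⟩; exact Or.inl ⟨w, b, h, rfl, rfl⟩

theorem H2_adj_r (m : W → ZMod 3) (b : B) (x : W ⊕ B) :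
    (T.H2 m).Adj (Sum.inr b) x ↔ ∃ w, x = Sum.inl w ∧ T.Rel m w b := by
  constructor
  · rintro (⟨w', b', h, h1, h2⟩ | ⟨w', b', h, h1, h2⟩)
    · exact absurd h1 (by simp)
    · exact ⟨w', h2, by rw [Sum.inr.inj h1]; exact h⟩
  · rintro ⟨w, rfl, h⟩; exact Or.inr ⟨w, b, h, rfl, rfl⟩

theorem zc (k c : ZMod 3) : c = k ∨ c = k + 1 ∨ c = k + 2 := by revert k c; decide
theorem zc1 (k : ZMod 3) : k + 1 ≠ k := by revert k; decide
theorem zc2 (k : ZMod 3) : k + 2 ≠ k := by revert k; decide

theorem e_ne (hpi : ∀ i w, T.pi i w ≠ w) (i : ZMod 3) (w : W) :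
    T.e (i + 1) w ≠ T.e (i + 2) w := by
  intro h
  apply hpi i w
  rw [T.pi_apply, h, Equiv.symm_apply_apply]

theorem neighbor_l (m : W → ZMod 3) (w : W) :
    (T.H2 m).neighborSet (Sum.inl w) =
      {Sum.inr (T.e (m w + 1) w), Sum.inr (T.e (m w + 2) w)} := by
  ext x
  rw [SimpleGraph.mem_neighborSet, H2_adj_l]
  constructor
  · rintro ⟨b, rfl, c, hc, rfl⟩
    rcases zc (m w) c with h | h | h
    · exact absurd h hc
    · rw [h]; simp
    · rw [h]; simp
  · rintro (h | h)
    · exact ⟨_, h, _, zc1 _, rfl⟩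
    · exact ⟨_, h, _, zc2 _, rfl⟩

theorem neighbor_r {m : W → ZMod 3} (hm : Function.Bijective (fun w => T.e (m w) w)) (w : W) :
    (T.H2 m).neighborSet (Sum.inr (T.e (m w) w)) =
      {Sum.inl ((T.e (m w + 1)).symm (T.e (m w) w)),
        Sum.inl ((T.e (m w + 2)).symm (T.e (m w) w))} := by
  have key : ∀ k, k ≠ m w → k ≠ m ((T.e k).symm (T.e (m w) w)) := by
    intro k hk h
    have h1 : T.e (m ((T.e k).symm (T.e (m w) w))) ((T.e k).symm (T.e (m w) w)) =
        T.e (m w) w := by
      rw [← h, Equiv.apply_symm_apply]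
    have h2 := hm.1 h1
    rw [h2] at h
    exact hk h
  ext x
  rw [SimpleGraph.mem_neighborSet, H2_adj_r]
  constructor
  · rintro ⟨w', rfl, c, hc, h'⟩
    have hw' : w' = (T.e c).symm (T.e (m w) w) := by rw [← h', Equiv.symm_apply_apply]
    rcases zc (m w) c with h | h | h
    · exfalso
      rw [h, Equiv.symm_apply_apply] at hw'
      rw [hw', h] at hc
      exact hc rfl
    · rw [hw', h]; simp
    · rw [hw', h]; simp
  · rintro (h | h)
    · exact ⟨_, h, _, key _ (zc1 _), Equiv.apply_symm_apply _ _⟩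
    · exact ⟨_, h, _, key _ (zc2 _), Equiv.apply_symm_apply _ _⟩

theorem isCycles_H2 (hpi : ∀ i w, T.pi i w ≠ w) {m : W → ZMod 3}
    (hm : Function.Bijective (fun w => T.e (m w) w)) : (T.H2 m).IsCycles := by
  intro v _
  cases v with
  | inl w =>
    rw [neighbor_l]
    exact Set.ncard_pair (fun h => T.e_ne hpi _ _ (Sum.inr.inj h))
  | inr b =>
    obtain ⟨w, rfl⟩ := hm.2 b
    show ((T.H2 m).neighborSet (Sum.inr (T.e (m w) w))).ncard = 2
    rw [T.neighbor_r hm]
    refine Set.ncard_pair (fun h => ?_)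
    have h1 := Sum.inl.inj h
    have h2 : T.e (m w + 2) ((T.e (m w + 2)).symm (T.e (m w) w)) = T.e (m w) w :=
      Equiv.apply_symm_apply _ _
    rw [← h1] at h2
    have h3 : T.e (m w + 1) ((T.e (m w + 1)).symm (T.e (m w) w)) = T.e (m w) w :=
      Equiv.apply_symm_apply _ _
    exact T.e_ne hpi (m w) _ (h3.trans h2.symm)

theorem conn_H2 {m : W → ZMod 3} (hm : T.Ham m) (w0 : W) (x : W ⊕ B) :
    (T.H2 m).Reachable (Sum.inl w0) x := by
  have h1 : ∀ w, (T.H2 m).Reachable (Sum.inl w0) (Sum.inl w) := by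
    have hS := hm.2 {w | (T.H2 m).Reachable (Sum.inl w0) (Sum.inl w)}
      ⟨w0, SimpleGraph.Reachable.refl _⟩ (by
        intro w hw w' c c' hc hc' he
        have a1 : (T.H2 m).Adj (Sum.inl w) (Sum.inr (T.e c w)) :=
          (T.H2_adj_lr m w _).2 ⟨c, hc, rfl⟩
        have a2 : (T.H2 m).Adj (Sum.inl w') (Sum.inr (T.e c w)) :=
          (T.H2_adj_lr m w' _).2 ⟨c', hc', he.symm⟩
        exact (SimpleGraph.Reachable.trans hw a1.reachable).trans a2.symm.reachable)
    intro w
    have : w ∈ (Set.univ : Set W) := trivial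
    rw [← hS] at this
    exact this
  cases x with
  | inl w => exact h1 w
  | inr b =>
    obtain ⟨w, rfl⟩ := hm.1.2 b
    show (T.H2 m).Reachable (Sum.inl w0) (Sum.inr (T.e (m w) w))
    have h2 : (Sum.inl ((T.e (m w + 1)).symm (T.e (m w) w)) : W ⊕ B) ∈
        (T.H2 m).neighborSet (Sum.inr (T.e (m w) w)) := by
      rw [T.neighbor_r hm.1]; simp
    have h3 : (T.H2 m).Adj (Sum.inr (T.e (m w) w))
      (Sum.inl ((T.e (m w + 1)).symm (T.e (m w) w))) := h2
    exact (h1 _).trans h3.symm.reachable

/-- a Hamiltonian cycle of the 2-factor graph -/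
theorem exists_ham_cycle [Finite W] [Finite B] [DecidableEq W] [DecidableEq B]
    (hpi : ∀ i w, T.pi i w ≠ w) {m : W → ZMod 3}
    (hm : T.Ham m) (w0 : W) : ∃ p : (T.H2 m).Walk (Sum.inl w0) (Sum.inl w0),
      p.IsHamiltonianCycle := by
  have hc := T.isCycles_H2 hpi hm.1
  obtain ⟨p, hp, hv⟩ := hc.exists_cycle_toSubgraph_verts_eq_connectedComponentSupp
    (v := Sum.inl w0) (c := (T.H2 m).connectedComponentMk (Sum.inl w0)) rfl (by
      rw [neighbor_l]; exact ⟨_, Or.inl rfl⟩)
  have hall : ∀ x, x ∈ p.support := by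
    intro x
    rw [← SimpleGraph.Walk.mem_verts_toSubgraph, hv, SimpleGraph.ConnectedComponent.mem_supp_iff,
      SimpleGraph.ConnectedComponent.eq]
    exact (T.conn_H2 hm w0 x).symm
  refine ⟨p, ⟨hp, ?_⟩⟩
  refine hp.isPath_tail.isHamiltonian_of_mem ?_
  intro x
  have hx := hall x
  rw [← SimpleGraph.Walk.cons_support_tail (SimpleGraph.Walk.IsCycle.not_nil hp), List.mem_cons] at hx
  rcases hx with rfl | hx
  · exact SimpleGraph.Walk.end_mem_support _
  · exact hx

/-- EXTRACTION from `Ham` -/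
theorem isHamiltonian_of_ham [Fintype W] [Fintype B] [DecidableEq W] [DecidableEq B] [Nonempty W]
    {V : Type*} [Fintype V] [DecidableEq V] {G : SimpleGraph V} (f : W ⊕ B ≃ V)
    (hG : ∀ c w, G.Adj (f (Sum.inl w)) (f (Sum.inr (T.e c w))))
    (hpi : ∀ i w, T.pi i w ≠ w) {m : W → ZMod 3} (hm : T.Ham m) : G.IsHamiltonian := by
  intro _
  obtain ⟨w0⟩ := ‹Nonempty W›
  obtain ⟨p, hp⟩ := T.exists_ham_cycle hpi hm w0
  let φ : T.H2 m →g G := ⟨f, by
    rintro x y (⟨w, b, ⟨c, _, rfl⟩, rfl, rfl⟩ | ⟨w, b, ⟨c, _, rfl⟩, rfl, rfl⟩)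
    · exact hG c w
    · exact (hG c w).symm⟩
  exact ⟨_, p.map φ, hp.map (f := φ) f.bijective⟩

end Tri

/-- REDUCTION OF S0053 TO `Star` for simple genus-zero triangulations -/
theorem isHamiltonian_of_star
    (hstar : ∀ (W B : Type) [Fintype W] [Fintype B] [DecidableEq W] [DecidableEq B] (T : Tri W B),
      T.Conn → T.Genus0 → T.Simple → Nontrivial W → T.Star) (V : Type)
    [Fintype V] [DecidableEq V] (G : SimpleGraph V) [DecidableRel G.Adj]
    (hcubic : G.IsRegularOfDegree 3) (hbip : G.Colorable 2)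
    (hplanar : Crest.CombinatoricsR.PlanarMap.IsPlanarMap G)
    (hconn : Crest.CombinatoricsR.PlanarMap.IsThreeConnected G) :
    G.IsHamiltonian := by
  classical
  obtain ⟨M⟩ := Map.exists_data G hcubic hbip hplanar
  have hnt := M.nontrivial_W hconn
  obtain ⟨w0⟩ : Nonempty M.W := inferInstance
  obtain ⟨m, hm, _⟩ := hstar M.W M.B M.tri M.tri_conn M.tri_genus0 (M.tri_simple hconn) hnt w0 0
  exact M.tri.isHamiltonian_of_ham M.vEquiv M.adj_e M.pi_ne hm

/-- S0053 from the four blocks -/
theorem isHamiltonian_of_blocks (h1 : BlockHall) (h2 : BlockSum) (h3 : BlockCrit)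
    (h4 : BlockSum3) (V : Type)
    [Fintype V] [DecidableEq V] (G : SimpleGraph V) [DecidableRel G.Adj]
    (hcubic : G.IsRegularOfDegree 3) (hbip : G.Colorable 2)
    (hplanar : Crest.CombinatoricsR.PlanarMap.IsPlanarMap G)
    (hconn : Crest.CombinatoricsR.PlanarMap.IsThreeConnected G) :
    G.IsHamiltonian := by
  refine isHamiltonian_of_star ?_ V G hcubic hbip hplanar hconn
  intro W B _ _ _ _ T hc hg hs hn
  exact star_of_blocks h1 h2 h3 h4 W B T hc hg hs hn

end Crest.Agent.R039
end

-- ▼ part R039/Hall995A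
section

/-!
# Row 39, block B1 (Hall), part A: the counting inequality

For a set `X` of at least four vertices of a cyclically 4-connected triangulation
`e(X) + 4 ≤ 2 |X| + w(X)`.
-/

set_option autoImplicit false
set_option linter.unusedSectionVars false

namespace Crest.Agent.R039

open Crest.Agent.R039.Map
open scoped Matrix

namespace Tri

variable {W B : Type*} [Fintype W] [Fintype B] [DecidableEq W] [DecidableEq B] (T : Tri W B)

/-- the edges leaving a set of faces -/
def cutH (S : Finset (W ⊕ B)) : Finset (ZMod 3 × W) :=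
  Finset.univ.filter fun x => ¬ (Sum.inl x.2 ∈ S ↔ Sum.inr (T.e x.1 x.2) ∈ S)

theorem mem_cutH {S : Finset (W ⊕ B)} {x : ZMod 3 × W} :
    x ∈ T.cutH S ↔ ¬ (Sum.inl x.2 ∈ S ↔ Sum.inr (T.e x.1 x.2) ∈ S) := by
  simp [cutH]

/-- edges with both ends in `X` -/
noncomputable def EXH (X : Finset T.Vert) : Finset (ZMod 3 × W) :=
  Finset.univ.filter fun x => T.p (x.1 + 1) x.2 ∈ X ∧ T.p (x.1 + 2) x.2 ∈ X

/-- white faces with all vertices in `X` -/
noncomputable def FWH (X : Finset T.Vert) : Finset W :=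
  Finset.univ.filter fun w => ∀ i, T.p i w ∈ X

variable {T}

theorem mem_EXH {X : Finset T.Vert} {x : ZMod 3 × W} :
    x ∈ T.EXH X ↔ T.p (x.1 + 1) x.2 ∈ X ∧ T.p (x.1 + 2) x.2 ∈ X := by
  simp [EXH]

theorem mem_FWH {X : Finset T.Vert} {w : W} : w ∈ T.FWH X ↔ ∀ i, T.p i w ∈ X := by
  simp [FWH]

/-- crossing an edge which is not inside `X` -/
def relH (X : Finset T.Vert) (x y : W ⊕ B) : Prop :=
  ∃ k w, (k, w) ∉ T.EXH X ∧ x = Sum.inl w ∧ y = Sum.inr (T.e k w)

/-- classes of faces -/
abbrev ClsH (X : Finset T.Vert) : Type _ := Quot (relH X)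

noncomputable instance (X : Finset T.Vert) : Fintype (ClsH X) := Fintype.ofFinite _
noncomputable instance (X : Finset T.Vert) : DecidableEq (ClsH X) := Classical.decEq _

theorem cls_eqH {X : Finset T.Vert} {k : ZMod 3} {w : W} (h : (k, w) ∉ T.EXH X) :
    (Quot.mk _ (Sum.inl w) : ClsH X) = Quot.mk _ (Sum.inr (T.e k w)) :=
  Quot.sound ⟨k, w, h, rfl, rfl⟩

theorem sub_one_eqH (k : ZMod 3) : k - 1 = k + 2 := by
  revert k; decide

/-- rank count: `e + 2 ≤ |X| + #classes` -/
theorem card_clsH (hT : T.Conn) (hg : T.Genus0) (X : Finset T.Vert) (hX : X.Nonempty)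
    [Nonempty W] : (T.EXH X).card + 2 ≤ X.card + Fintype.card (ClsH X) := by
  classical
  let s : T.EXH X → X := fun d => ⟨T.p (d.1.1 + 2) d.1.2, (mem_EXH.1 d.2).2⟩
  let t : T.EXH X → X := fun d => ⟨T.p (d.1.1 + 1) d.1.2, (mem_EXH.1 d.2).1⟩
  let M := inc ℚ s t
  -- the rank of `M`
  have r1 : M.rank + 1 ≤ X.card := by
    have h2 := LinearMap.finrank_range_add_finrank_ker (Mᵀ.mulVecLin)
    rw [Module.finrank_fintype_fun_eq_card, Fintype.card_coe] at h2
    have h3 : Mᵀ.rank = Module.finrank ℚ (LinearMap.range (Mᵀ.mulVecLin)) := rfl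
    have h4 : Mᵀ.rank = M.rank := Matrix.rank_transpose _
    have h5 : 1 ≤ Module.finrank ℚ (LinearMap.ker (Mᵀ.mulVecLin)) := by
      rw [Submodule.one_le_finrank_iff]
      intro hbot
      have hone : (fun _ => 1 : X → ℚ) ∈ LinearMap.ker (Mᵀ.mulVecLin) := by
        rw [LinearMap.mem_ker, Matrix.mulVecLin_apply, inc_transpose_mulVec]
        funext d
        simp
      rw [hbot, Submodule.mem_bot] at hone
      obtain ⟨x, hx⟩ := hX
      have := congrFun hone ⟨x, hx⟩
      simp at this
    omega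
  have r2 := LinearMap.finrank_range_add_finrank_ker (M.mulVecLin)
  rw [Module.finrank_fintype_fun_eq_card, Fintype.card_coe] at r2
  have r3 : M.rank = Module.finrank ℚ (LinearMap.range (M.mulVecLin)) := rfl
  -- the coboundary on classes
  let δ : (ClsH X → ℚ) →ₗ[ℚ] (T.EXH X → ℚ) :=
    { toFun := fun h d => h (Quot.mk _ (Sum.inl d.1.2)) - h (Quot.mk _ (Sum.inr (T.e d.1.1 d.1.2)))
      map_add' := by intro f g; funext d; simp only [Pi.add_apply]; ring
      map_smul' := by intro c f; funext d; simp only [Pi.smul_apply, smul_eq_mul, RingHom.id_apply]; ring }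
  have d1 := LinearMap.finrank_range_add_finrank_ker δ
  rw [Module.finrank_fintype_fun_eq_card] at d1
  have d2 : 1 ≤ Module.finrank ℚ (LinearMap.ker δ) := by
    rw [Submodule.one_le_finrank_iff]
    intro hbot
    have hone : (fun _ => 1 : ClsH X → ℚ) ∈ LinearMap.ker δ := by
      rw [LinearMap.mem_ker]
      funext d
      show (1 : ℚ) - 1 = 0
      ring
    rw [hbot, Submodule.mem_bot] at hone
    obtain ⟨w⟩ := ‹Nonempty W›
    have := congrFun hone (Quot.mk _ (Sum.inl w))
    simp at this
  have d3 : LinearMap.ker (M.mulVecLin) ≤ LinearMap.range δ := by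
    intro g hg0
    rw [LinearMap.mem_ker, Matrix.mulVecLin_apply] at hg0
    let G : ZMod 3 → W → ℚ := fun k w => if h : (k, w) ∈ T.EXH X then g ⟨(k, w), h⟩ else 0
    obtain ⟨h, hh⟩ := T.dual_exact hT hg G (by
      intro v
      rw [← T.inc_apply G v, inc_mulVec]
      by_cases hv : v ∈ X
      · have h0 := congrFun hg0 ⟨v, hv⟩
        rw [inc_mulVec] at h0
        have h1 : ∑ d : W × ZMod 3, ((if T.p (d.2 - 1) d.1 = v then G d.2 d.1 else 0) -
            (if T.p (d.2 + 1) d.1 = v then G d.2 d.1 else 0)) =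
            ∑ x ∈ T.EXH X, ((if T.p (x.1 + 2) x.2 = v then G x.1 x.2 else 0) -
            (if T.p (x.1 + 1) x.2 = v then G x.1 x.2 else 0)) := by
          rw [← Equiv.sum_comp (Equiv.prodComm (ZMod 3) W)]
          simp only [Equiv.prodComm_apply, Prod.fst_swap, Prod.snd_swap, sub_one_eqH]
          symm
          refine Finset.sum_subset (Finset.subset_univ _) (fun x _ hx => ?_)
          have : G x.1 x.2 = 0 := by
            show (if h : (x.1, x.2) ∈ T.EXH X then _ else _) = _
            rw [dif_neg hx]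
          rw [this]; simp
        rw [h1, ← Finset.sum_coe_sort]
        refine Eq.trans (Finset.sum_congr rfl (fun d _ => ?_)) h0
        have e1 : G d.1.1 d.1.2 = g d := by
          show (if h : (d.1.1, d.1.2) ∈ T.EXH X then _ else _) = _
          rw [dif_pos d.2]
        rw [e1]
        simp only [s, t, Subtype.mk.injEq]
      · refine Finset.sum_eq_zero (fun d _ => ?_)
        by_cases hd : (d.2, d.1) ∈ T.EXH X
        · have h1 := mem_EXH.1 hd
          have n1 : ¬ T.p (d.2 - 1) d.1 = v := by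
            rw [sub_one_eqH]; intro h'; exact hv (h' ▸ h1.2)
          have n2 : ¬ T.p (d.2 + 1) d.1 = v := by
            intro h'; exact hv (h' ▸ h1.1)
          rw [if_neg n1, if_neg n2, sub_zero]
        · have : G d.2 d.1 = 0 := by
            show (if h : (d.2, d.1) ∈ T.EXH X then _ else _) = _
            rw [dif_neg hd]
          rw [this]; simp)
    refine ⟨Quot.lift h ?_, ?_⟩
    · rintro _ _ ⟨k, w, hkw, rfl, rfl⟩
      have := hh k w
      have h0 : G k w = 0 := by
        show (if h : (k, w) ∈ T.EXH X then _ else _) = _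
        rw [dif_neg hkw]
      rw [h0] at this
      exact sub_eq_zero.1 this
    · funext d
      show h (Sum.inl d.1.2) - h (Sum.inr (T.e d.1.1 d.1.2)) = g d
      rw [hh]
      show (if h : (d.1.1, d.1.2) ∈ T.EXH X then _ else _) = _
      rw [dif_pos d.2]
  have d4 := Submodule.finrank_mono d3
  omega

end Tri

end Crest.Agent.R039
end

-- ▼ part R039/Hall995B
section

/-!
# Row 39, block B1 (Hall), part B: the inequality `e(X) + 4 ≤ 2 |X| + w(X)` for `|X| ≥ 4`
-/

set_option autoImplicit false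
set_option linter.unusedSectionVars false

namespace Crest.Agent.R039

namespace Tri

variable {W B : Type*} [Fintype W] [Fintype B] [DecidableEq W] [DecidableEq B] {T : Tri W B}

/-- edges inside `X` whose white face is in the class -/
noncomputable def lwH (X : Finset T.Vert) (κ : ClsH X) : Finset (ZMod 3 × W) :=
  (T.EXH X).filter fun x => (Quot.mk _ (Sum.inl x.2) : ClsH X) = κ

/-- edges inside `X` whose black face is in the class -/
noncomputable def lbH (X : Finset T.Vert) (κ : ClsH X) : Finset (ZMod 3 × W) :=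
  (T.EXH X).filter fun x => (Quot.mk _ (Sum.inr (T.e x.1 x.2)) : ClsH X) = κ

/-- full white faces in the class -/
noncomputable def fwH (X : Finset T.Vert) (κ : ClsH X) : Finset W :=
  (T.FWH X).filter fun w => (Quot.mk _ (Sum.inl w) : ClsH X) = κ

theorem card_fiber_whiteH (X : Finset T.Vert) (κ : ClsH X) :
    ((Finset.univ : Finset (ZMod 3 × W)).filter
      fun x => (Quot.mk _ (Sum.inl x.2) : ClsH X) = κ).card =
    3 * ((Finset.univ : Finset W).filter fun w => (Quot.mk _ (Sum.inl w) : ClsH X) = κ).card := by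
  have : ((Finset.univ : Finset (ZMod 3 × W)).filter
      fun x => (Quot.mk _ (Sum.inl x.2) : ClsH X) = κ) =
      (Finset.univ : Finset (ZMod 3)) ×ˢ
      ((Finset.univ : Finset W).filter fun w => (Quot.mk _ (Sum.inl w) : ClsH X) = κ) := by
    ext x; simp
  rw [this, Finset.card_product, Finset.card_univ, ZMod.card]

theorem card_fiber_blackH (X : Finset T.Vert) (κ : ClsH X) :
    ((Finset.univ : Finset (ZMod 3 × W)).filter
      fun x => (Quot.mk _ (Sum.inr (T.e x.1 x.2)) : ClsH X) = κ).card =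
    3 * ((Finset.univ : Finset B).filter fun b => (Quot.mk _ (Sum.inr b) : ClsH X) = κ).card := by
  have h1 : ((Finset.univ : Finset (ZMod 3 × B)).filter
      fun x => (Quot.mk _ (Sum.inr x.2) : ClsH X) = κ) =
      (Finset.univ : Finset (ZMod 3)) ×ˢ
      ((Finset.univ : Finset B).filter fun b => (Quot.mk _ (Sum.inr b) : ClsH X) = κ) := by
    ext x; simp
  have h2 : ((Finset.univ : Finset (ZMod 3 × W)).filter
      fun x => (Quot.mk _ (Sum.inr (T.e x.1 x.2)) : ClsH X) = κ).card =
      ((Finset.univ : Finset (ZMod 3 × B)).filter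
      fun x => (Quot.mk _ (Sum.inr x.2) : ClsH X) = κ).card := by
    refine Finset.card_bij (fun x _ => (x.1, T.e x.1 x.2)) ?_ ?_ ?_
    · intro x hx
      simpa using hx
    · rintro ⟨k, w⟩ _ ⟨k', w'⟩ _ h
      simp only [Prod.mk.injEq] at h
      obtain ⟨rfl, h⟩ := h
      rw [(T.e k).injective h]
    · rintro ⟨k, b⟩ hx
      refine ⟨(k, (T.e k).symm b), ?_, ?_⟩
      · simpa using hx
      · simp
  rw [h2, h1, Finset.card_product, Finset.card_univ, ZMod.card]

/-- `lwH ≡ lbH` mod 3 -/
theorem exists_modH (X : Finset T.Vert) (κ : ClsH X) :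
    ∃ a b c : ℕ, (lwH X κ).card + c = 3 * a ∧ (lbH X κ).card + c = 3 * b := by
  refine ⟨_, _, (((T.EXH X)ᶜ).filter fun x => (Quot.mk _ (Sum.inl x.2) : ClsH X) = κ).card,
    Eq.trans ?_ (card_fiber_whiteH X κ), Eq.trans ?_ (card_fiber_blackH X κ)⟩
  · rw [← Finset.card_union_of_disjoint]
    · congr 1
      ext x
      simp only [lwH, Finset.mem_union, Finset.mem_filter, Finset.mem_compl, Finset.mem_univ,
        true_and]
      tauto
    · rw [Finset.disjoint_left]
      intro x hx hx'
      simp only [lwH, Finset.mem_filter, Finset.mem_compl] at hx hx'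
      exact hx'.1 hx.1
  · have : (((T.EXH X)ᶜ).filter fun x => (Quot.mk _ (Sum.inl x.2) : ClsH X) = κ) =
        (((T.EXH X)ᶜ).filter fun x => (Quot.mk _ (Sum.inr (T.e x.1 x.2)) : ClsH X) = κ) := by
      refine Finset.filter_congr (fun x hx => ?_)
      rw [Finset.mem_compl] at hx
      rw [cls_eqH (k := x.1) (w := x.2) hx]
    rw [this, ← Finset.card_union_of_disjoint]
    · congr 1
      ext x
      simp only [lbH, Finset.mem_union, Finset.mem_filter, Finset.mem_compl, Finset.mem_univ,
        true_and]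
      tauto
    · rw [Finset.disjoint_left]
      intro x hx hx'
      simp only [lbH, Finset.mem_filter, Finset.mem_compl] at hx hx'
      exact hx'.1 hx.1

theorem card_zmod3_image_leH {A : Type*} (S : Finset A) (f : ZMod 3 → A)
    (hf : Function.Injective f) (h : ∀ k, f k ∈ S) : 3 ≤ S.card := by
  classical
  have h1 : (Finset.univ.image f).card = 3 := by
    rw [Finset.card_image_of_injective _ hf, Finset.card_univ, ZMod.card]
  rw [← h1]
  refine Finset.card_le_card (fun x hx => ?_)
  rw [Finset.mem_image] at hx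
  obtain ⟨k, _, rfl⟩ := hx
  exact h k

/-- LOCAL CLAIM -/
theorem six_leH (hc : T.Cyc) (X : Finset T.Vert) (he : 5 ≤ (T.EXH X).card) (κ : ClsH X) :
    6 ≤ (lwH X κ).card + 2 * (lbH X κ).card + 3 * (fwH X κ).card := by
  classical
  by_contra hlt
  push Not at hlt
  obtain ⟨a, b, c, ha, hb⟩ := exists_modH X κ
  have hle : (lwH X κ).card + (lbH X κ).card ≤ 3 := by omega
  have hlw : (lwH X κ).card ≤ 3 := by omega
  have hlb : (lbH X κ).card ≤ 1 := by omega
  set S : Finset (W ⊕ B) := Finset.univ.filter fun f => (Quot.mk _ f : ClsH X) = κ with hS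
  have memS : ∀ f, f ∈ S ↔ (Quot.mk _ f : ClsH X) = κ := by
    intro f; rw [hS]; simp
  have hcut : (T.cutH S).card ≤ 3 := by
    refine le_trans (Finset.card_le_card (t := lwH X κ ∪ lbH X κ) ?_)
      (le_trans (Finset.card_union_le _ _) hle)
    intro x hx
    rw [mem_cutH, memS, memS] at hx
    have hx1 : x ∈ T.EXH X := by
      by_contra hx1
      apply hx
      rw [cls_eqH (k := x.1) (w := x.2) hx1]
    simp only [lwH, lbH, Finset.mem_union, Finset.mem_filter]
    tauto
  rcases hc S hcut with h1 | h1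
  · -- the class is one face
    obtain ⟨f, hf⟩ := Quot.exists_rep κ
    have hfS : f ∈ S := (memS f).2 hf
    have huniq : ∀ g, g ∈ S → g = f := fun g hg =>
      (Finset.card_le_one.1 h1) g hg f hfS
    rcases f with w | b'
    · have hall : ∀ k, (k, w) ∈ T.EXH X := by
        intro k
        by_contra hk
        have h2 := cls_eqH hk
        rw [hf] at h2
        have h3 := huniq _ ((memS _).2 h2.symm)
        simp at h3
      have h3 : 3 ≤ (lwH X κ).card := by
        refine card_zmod3_image_leH _ (fun k => (k, w)) (fun k k' h => (Prod.mk.inj h).1) ?_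
        intro k
        rw [lwH, Finset.mem_filter]
        exact ⟨hall k, hf⟩
      have h4 : w ∈ fwH X κ := by
        rw [fwH, Finset.mem_filter, mem_FWH]
        refine ⟨fun i => ?_, hf⟩
        have := (mem_EXH.1 (hall (i + 2))).1
        have e3 : i + 2 + 1 = i := by
          have : ∀ i : ZMod 3, i + 2 + 1 = i := by decide
          exact this i
        simpa only [e3] using this
      have h5 : 1 ≤ (fwH X κ).card := Finset.card_pos.2 ⟨w, h4⟩
      omega
    · have hall : ∀ k, (k, (T.e k).symm b') ∈ T.EXH X := by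
        intro k
        by_contra hk
        have h2 := cls_eqH hk
        rw [Equiv.apply_symm_apply, hf] at h2
        have h3 := huniq _ ((memS _).2 h2)
        simp at h3
      have h3 : 3 ≤ (lbH X κ).card := by
        refine card_zmod3_image_leH _ (fun k => (k, (T.e k).symm b'))
          (fun k k' h => (Prod.mk.inj h).1) ?_
        intro k
        rw [lbH, Finset.mem_filter]
        refine ⟨hall k, ?_⟩
        rw [Equiv.apply_symm_apply]
        exact hf
      omega
  · -- the complement has at most one face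
    have e1 := Finset.card_filter_add_card_filter_not (s := T.EXH X)
      (fun x => (Quot.mk _ (Sum.inl x.2) : ClsH X) = κ)
    have e2 := Finset.card_filter_add_card_filter_not (s := T.EXH X)
      (fun x => (Quot.mk _ (Sum.inr (T.e x.1 x.2)) : ClsH X) = κ)
    have e3 : ((T.EXH X).filter fun x => (Quot.mk _ (Sum.inl x.2) : ClsH X) = κ) = lwH X κ := rfl
    have e4 : ((T.EXH X).filter fun x => (Quot.mk _ (Sum.inr (T.e x.1 x.2)) : ClsH X) = κ)
      = lbH X κ := rfl
    rw [e3] at e1
    rw [e4] at e2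
    have p1 : 0 < ((T.EXH X).filter fun x => ¬ (Quot.mk _ (Sum.inl x.2) : ClsH X) = κ).card := by
      omega
    have p2 : 0 < ((T.EXH X).filter
        fun x => ¬ (Quot.mk _ (Sum.inr (T.e x.1 x.2)) : ClsH X) = κ).card := by
      omega
    obtain ⟨x, hx⟩ := Finset.card_pos.1 p1
    obtain ⟨y, hy⟩ := Finset.card_pos.1 p2
    rw [Finset.mem_filter] at hx hy
    have m1 : (Sum.inl x.2 : W ⊕ B) ∈ Sᶜ := by
      rw [Finset.mem_compl, memS]; exact hx.2
    have m2 : (Sum.inr (T.e y.1 y.2) : W ⊕ B) ∈ Sᶜ := by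
      rw [Finset.mem_compl, memS]; exact hy.2
    have := (Finset.card_le_one.1 h1) _ m1 _ m2
    simp at this

/-- MAIN INEQUALITY -/
theorem main_ineqH (hT : T.Conn) (hg : T.Genus0) (hc : T.Cyc) (X : Finset T.Vert)
    (hX : 4 ≤ X.card) : (T.EXH X).card + 4 ≤ 2 * X.card + (T.FWH X).card := by
  classical
  by_cases he : (T.EXH X).card ≤ 4
  · omega
  push Not at he
  have hne : X.Nonempty := Finset.card_pos.1 (by omega)
  have hW : Nonempty W := by
    obtain ⟨x, _⟩ := Finset.card_pos.1 (lt_of_le_of_lt (Nat.zero_le _) he)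
    exact ⟨x.2⟩
  have h1 := card_clsH hT hg X hne
  have s1 : ∑ κ : ClsH X, (lwH X κ).card = (T.EXH X).card :=
    (Finset.card_eq_sum_card_fiberwise (f := fun x : ZMod 3 × W =>
      (Quot.mk _ (Sum.inl x.2) : ClsH X)) (fun x _ => Finset.mem_coe.2 (Finset.mem_univ _))).symm
  have s2 : ∑ κ : ClsH X, (lbH X κ).card = (T.EXH X).card :=
    (Finset.card_eq_sum_card_fiberwise (f := fun x : ZMod 3 × W =>
      (Quot.mk _ (Sum.inr (T.e x.1 x.2)) : ClsH X))
      (fun x _ => Finset.mem_coe.2 (Finset.mem_univ _))).symm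
  have s3 : ∑ κ : ClsH X, (fwH X κ).card = (T.FWH X).card :=
    (Finset.card_eq_sum_card_fiberwise (f := fun w : W =>
      (Quot.mk _ (Sum.inl w) : ClsH X)) (fun x _ => Finset.mem_coe.2 (Finset.mem_univ _))).symm
  have h2 : ∑ _κ : ClsH X, 6 ≤ ∑ κ : ClsH X,
      ((lwH X κ).card + 2 * (lbH X κ).card + 3 * (fwH X κ).card) :=
    Finset.sum_le_sum (fun κ _ => six_leH hc X he κ)
  rw [Finset.sum_const, Finset.card_univ, smul_eq_mul, Finset.sum_add_distrib,
    Finset.sum_add_distrib, ← Finset.mul_sum, ← Finset.mul_sum, s1, s2, s3] at h2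
  omega

/-! ### small sets -/

theorem card_EX_leH (hs : T.Simple) (X : Finset T.Vert) :
    (T.EXH X).card ≤ X.card.choose 2 := by
  classical
  rw [← Finset.card_powersetCard]
  refine Finset.card_le_card_of_injOn
    (fun x => ({T.p (x.1 + 1) x.2, T.p (x.1 + 2) x.2} : Finset T.Vert)) ?_ ?_
  · intro x hx
    rw [Finset.mem_coe, mem_EXH] at hx
    simp only [Finset.mem_coe, Finset.mem_powersetCard]
    constructor
    · intro y hy
      rw [Finset.mem_insert, Finset.mem_singleton] at hy
      rcases hy with rfl | rfl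
      · exact hx.1
      · exact hx.2
    · rw [Finset.card_pair]
      intro h
      have := congrArg Sigma.fst h
      simp only [p_fst] at this
      have h3 : ∀ k : ZMod 3, k + 1 ≠ k + 2 := by decide
      exact h3 _ this
  · rintro ⟨k, w⟩ _ ⟨k', w'⟩ _ h
    simp only at h
    have m1 : T.p (k + 1) w ∈ ({T.p (k' + 1) w', T.p (k' + 2) w'} : Finset T.Vert) := by
      rw [← h]; simp
    have m2 : T.p (k + 2) w ∈ ({T.p (k' + 1) w', T.p (k' + 2) w'} : Finset T.Vert) := by
      rw [← h]; simp
    rw [Finset.mem_insert, Finset.mem_singleton] at m1 m2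
    have q0 : ∀ k k' : ZMod 3, k + 1 = k' + 1 → k = k' := by decide
    have q1 : ∀ k k' : ZMod 3, k + 1 = k' + 2 → k + 2 = k' + 1 → False := by decide
    have q2 : ∀ k k' : ZMod 3, k + 1 = k' + 1 → k + 2 = k' + 1 → False := by decide
    have q3 : ∀ k k' : ZMod 3, k + 1 = k' + 2 → k + 2 = k' + 2 → False := by decide
    have q4 : ∀ k : ZMod 3, k + 1 ≠ k + 2 := by decide
    rcases m1 with m1 | m1 <;> rcases m2 with m2 | m2
    · exact (q2 k k' (by simpa using congrArg Sigma.fst m1)
        (by simpa using congrArg Sigma.fst m2)).elim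
    · have hk : k = k' := q0 k k' (by simpa using congrArg Sigma.fst m1)
      subst hk
      rw [hs _ _ (q4 k) w w' m1 m2]
    · exact (q1 k k' (by simpa using congrArg Sigma.fst m1)
        (by simpa using congrArg Sigma.fst m2)).elim
    · exact (q3 k k' (by simpa using congrArg Sigma.fst m1)
        (by simpa using congrArg Sigma.fst m2)).elim

/-- root vertices in `X` -/
noncomputable def rtH (X : Finset T.Vert) (w0 : W) : Finset (ZMod 3) :=
  Finset.univ.filter fun i => T.p i w0 ∈ X

theorem card_rt_leH (X : Finset T.Vert) (w0 : W) : (rtH X w0).card ≤ X.card := by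
  refine Finset.card_le_card_of_injOn (fun i => T.p i w0) ?_ ?_
  · intro i hi
    simp only [rtH, Finset.coe_filter, Finset.mem_univ, true_and, Set.mem_ofPred_eq] at hi
    exact hi
  · intro i _ j _ h
    have := congrArg Sigma.fst h
    simpa using this

theorem card_rt_le_threeH (X : Finset T.Vert) (w0 : W) : (rtH X w0).card ≤ 3 := by
  refine le_trans (Finset.card_le_univ _) ?_
  rw [ZMod.card]

/-- HALL INEQUALITY in the form of edge counts -/
theorem hall_ineqH (hT : T.Conn) (hg : T.Genus0) (hs : T.Simple) (hc : T.Cyc)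
    (X : Finset T.Vert) (w0 : W) :
    (T.EXH X).card + (rtH X w0).card + (if (rtH X w0).Nonempty then 1 else 0)
      ≤ 2 * X.card + (T.FWH X).card := by
  classical
  have h3 := card_rt_le_threeH X w0
  have hX := card_rt_leH X w0
  by_cases h4 : 4 ≤ X.card
  · have := main_ineqH hT hg hc X h4
    split_ifs <;> omega
  push Not at h4
  have he := card_EX_leH hs X
  by_cases hr : (rtH X w0).Nonempty
  · rw [if_pos hr]
    have hpos := Finset.card_pos.2 hr
    interval_cases hXc : X.card
    · omega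
    · simp [Nat.choose] at he; rw [he, Finset.card_empty]; omega
    · have : Nat.choose 2 2 = 1 := rfl
      omega
    · have e0 : Nat.choose 3 2 = 3 := rfl
      by_cases h5 : (rtH X w0).card ≤ 2
      · omega
      · have h6 : (rtH X w0).card = 3 := by omega
        have h7 : rtH X w0 = Finset.univ := by
          rw [← Finset.card_eq_iff_eq_univ, h6, ZMod.card]
        have h8 : w0 ∈ T.FWH X := by
          rw [mem_FWH]
          intro i
          have : i ∈ rtH X w0 := by rw [h7]; exact Finset.mem_univ _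
          simpa [rtH] using this
        have h9 := Finset.card_pos.2 ⟨w0, h8⟩
        omega
  · rw [if_neg hr]
    have h0 : (rtH X w0).card = 0 := by
      rw [Finset.card_eq_zero]; exact Finset.not_nonempty_iff_eq_empty.1 hr
    interval_cases hXc : X.card
    · simp [Nat.choose] at he; rw [he, Finset.card_empty]; omega
    · simp [Nat.choose] at he; rw [he, Finset.card_empty]; omega
    · have : Nat.choose 2 2 = 1 := rfl
      omega
    · have e0 : Nat.choose 3 2 = 3 := rfl
      omega

end Tri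

end Crest.Agent.R039
end

-- ▼ part R039/Hall995C
section

/-!
# Row 39, block B1 (Hall), part C: the rooted cover
-/

set_option autoImplicit false
set_option linter.unusedSectionVars false

namespace Crest.Agent.R039

namespace Tri

variable {W B : Type*} [Fintype W] [Fintype B] [DecidableEq W] [DecidableEq B] {T : Tri W B}

/-- the white faces at a vertex -/
noncomputable def starH (v : T.Vert) : Finset W :=
  Finset.univ.filter fun w => T.p v.1 w = v

theorem mem_starH {v : T.Vert} {w : W} : w ∈ starH v ↔ T.p v.1 w = v := by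
  simp [starH]

/-- demand of a vertex -/
noncomputable def demH (w0 : W) (v : T.Vert) : ℕ :=
  (starH v).card + (if T.p v.1 w0 = v then 1 else 0) - 2

theorem two_le_starH (hpi : ∀ i w, T.pi i w ≠ w) (v : T.Vert) : 2 ≤ (starH v).card := by
  obtain ⟨w, hw⟩ := T.exists_p v
  have h1 : w ∈ starH v := mem_starH.2 hw
  have h2 : T.pi v.1 w ∈ starH v := by
    rw [mem_starH, T.p_pi]; exact hw
  have : ({w, T.pi v.1 w} : Finset W).card = 2 := Finset.card_pair (hpi _ _).symm
  rw [← this]
  refine Finset.card_le_card (fun x hx => ?_)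
  rw [Finset.mem_insert, Finset.mem_singleton] at hx
  rcases hx with rfl | rfl
  · exact h1
  · exact h2

/-- white faces meeting `X` -/
noncomputable def meetH (X : Finset T.Vert) : Finset W :=
  Finset.univ.filter fun w => ∃ i, T.p i w ∈ X

theorem sum_starH (X : Finset T.Vert) :
    ∑ v ∈ X, (starH v).card = ∑ w : W, ((Finset.univ : Finset (ZMod 3)).filter
      fun i => T.p i w ∈ X).card := by
  classical
  have h1 : ∑ v ∈ X, (starH v).card = ((Finset.univ : Finset (ZMod 3 × W)).filter
      fun x => T.p x.1 x.2 ∈ X).card := by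
    rw [Finset.card_eq_sum_card_fiberwise (f := fun x : ZMod 3 × W => T.p x.1 x.2) (t := X)
      (fun x hx => by simpa using hx)]
    refine Finset.sum_congr rfl (fun v hv => ?_)
    refine Finset.card_bij (fun w _ => (v.1, w)) ?_ ?_ ?_
    · intro w hw
      rw [mem_starH] at hw
      simp only [Finset.mem_filter, Finset.mem_univ, true_and]
      rw [hw]
      exact ⟨hv, rfl⟩
    · intro w _ w' _ h
      exact (Prod.mk.inj h).2
    · rintro ⟨i, w⟩ hx
      simp only [Finset.mem_filter, Finset.mem_univ, true_and] at hx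
      have hi : v.1 = i := by rw [← hx.2]; rfl
      subst hi
      exact ⟨w, mem_starH.2 hx.2, rfl⟩
  have h2 : ∑ w : W, ((Finset.univ : Finset (ZMod 3)).filter fun i => T.p i w ∈ X).card =
      ((Finset.univ : Finset (ZMod 3 × W)).filter fun x => T.p x.1 x.2 ∈ X).card := by
    rw [Finset.card_eq_sum_card_fiberwise (f := fun x : ZMod 3 × W => x.2) (t := Finset.univ)
      (fun x _ => Finset.mem_coe.2 (Finset.mem_univ _))]
    refine Finset.sum_congr rfl (fun w _ => ?_)
    refine Finset.card_bij (fun i _ => (i, w)) ?_ ?_ ?_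
    · intro i hi
      simpa using hi
    · intro i _ j _ h
      exact (Prod.mk.inj h).1
    · rintro ⟨i, w'⟩ hx
      simp only [Finset.mem_filter, Finset.mem_univ, true_and] at hx
      obtain ⟨hx, rfl⟩ := hx
      exact ⟨i, by simpa using hx, rfl⟩
  rw [h1, h2]

/-- pointwise count at a white face -/
theorem count_auxH (P : ZMod 3 → Prop) [DecidablePred P] :
    ((Finset.univ : Finset (ZMod 3)).filter P).card + (if ∀ i, P i then 1 else 0) =
    (if ∃ i, P i then 1 else 0) +
      ((Finset.univ : Finset (ZMod 3)).filter fun k => P (k + 1) ∧ P (k + 2)).card := by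
  have hu : (Finset.univ : Finset (ZMod 3)) = {0, 1, 2} := by decide
  have e1 : (0 : ZMod 3) + 1 = 1 := by decide
  have e2 : (0 : ZMod 3) + 2 = 2 := by decide
  have e3 : (1 : ZMod 3) + 1 = 2 := by decide
  have e4 : (1 : ZMod 3) + 2 = 0 := by decide
  have e5 : (2 : ZMod 3) + 1 = 0 := by decide
  have e6 : (2 : ZMod 3) + 2 = 1 := by decide
  have hall : (∀ i, P i) ↔ P 0 ∧ P 1 ∧ P 2 := by
    constructor
    · intro h; exact ⟨h 0, h 1, h 2⟩
    · rintro ⟨h0, h1, h2⟩ i
      have : ∀ i : ZMod 3, i = 0 ∨ i = 1 ∨ i = 2 := by decide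
      rcases this i with rfl | rfl | rfl <;> assumption
  have hex : (∃ i, P i) ↔ P 0 ∨ P 1 ∨ P 2 := by
    constructor
    · rintro ⟨i, hi⟩
      have : ∀ i : ZMod 3, i = 0 ∨ i = 1 ∨ i = 2 := by decide
      rcases this i with rfl | rfl | rfl
      · exact Or.inl hi
      · exact Or.inr (Or.inl hi)
      · exact Or.inr (Or.inr hi)
    · rintro (h | h | h)
      exacts [⟨_, h⟩, ⟨_, h⟩, ⟨_, h⟩]
  have n1 : (0 : ZMod 3) ∉ ({1, 2} : Finset (ZMod 3)) := by decide
  have n2 : (1 : ZMod 3) ∉ ({2} : Finset (ZMod 3)) := by decide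
  simp only [hall, hex, Finset.card_filter, hu, Finset.sum_insert n1, Finset.sum_insert n2,
    Finset.sum_singleton, e1, e2, e3, e4, e5, e6]
  by_cases h0 : P 0 <;> by_cases h1 : P 1 <;> by_cases h2 : P 2 <;> simp [h0, h1, h2]

theorem sum_star_eqH (X : Finset T.Vert) :
    ∑ v ∈ X, (starH v).card + (T.FWH X).card = (meetH X).card + (T.EXH X).card := by
  classical
  rw [sum_starH]
  have h1 : (T.FWH X).card = ∑ w : W, (if ∀ i, T.p i w ∈ X then 1 else 0) := by
    rw [FWH, Finset.card_filter]
  have h2 : (meetH X).card = ∑ w : W, (if ∃ i, T.p i w ∈ X then 1 else 0) := by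
    rw [meetH, Finset.card_filter]
  have h3 : (T.EXH X).card = ∑ w : W, ((Finset.univ : Finset (ZMod 3)).filter
      fun k => T.p (k + 1) w ∈ X ∧ T.p (k + 2) w ∈ X).card := by
    rw [Finset.card_eq_sum_card_fiberwise (f := fun x : ZMod 3 × W => x.2) (t := Finset.univ)
      (fun x _ => Finset.mem_coe.2 (Finset.mem_univ _))]
    refine Finset.sum_congr rfl (fun w _ => ?_)
    symm
    refine Finset.card_bij (fun i _ => (i, w)) ?_ ?_ ?_
    · intro i hi
      rw [Finset.mem_filter] at hi
      rw [Finset.mem_filter, mem_EXH]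
      exact ⟨hi.2, rfl⟩
    · intro i _ j _ h
      exact (Prod.mk.inj h).1
    · rintro ⟨i, w'⟩ hx
      rw [Finset.mem_filter, mem_EXH] at hx
      obtain ⟨hx, rfl⟩ := hx
      exact ⟨i, by rw [Finset.mem_filter]; exact ⟨Finset.mem_univ _, hx⟩, rfl⟩
  rw [h1, h2, h3, ← Finset.sum_add_distrib, ← Finset.sum_add_distrib]
  exact Finset.sum_congr rfl (fun w _ => count_auxH (fun i => T.p i w ∈ X))

theorem sum_demH (hpi : ∀ i w, T.pi i w ≠ w) (w0 : W) (X : Finset T.Vert) :
    ∑ v ∈ X, demH w0 v + 2 * X.card = ∑ v ∈ X, (starH v).card + (rtH X w0).card := by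
  classical
  have h1 : (rtH X w0).card = ∑ v ∈ X, (if T.p v.1 w0 = v then 1 else 0) := by
    rw [← Finset.card_filter]
    refine Finset.card_bij (fun i _ => T.p i w0) ?_ ?_ ?_
    · intro i hi
      simp only [rtH, Finset.mem_filter, Finset.mem_univ, true_and] at hi
      rw [Finset.mem_filter]
      exact ⟨hi, rfl⟩
    · intro i _ j _ h
      have := congrArg Sigma.fst h
      simpa using this
    · intro v hv
      rw [Finset.mem_filter] at hv
      refine ⟨v.1, ?_, hv.2⟩
      simp only [rtH, Finset.mem_filter, Finset.mem_univ, true_and]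
      rw [hv.2]; exact hv.1
  have h2 : 2 * X.card = ∑ v ∈ X, 2 := by rw [Finset.sum_const, smul_eq_mul, mul_comm]
  rw [h1, h2, ← Finset.sum_add_distrib, ← Finset.sum_add_distrib]
  refine Finset.sum_congr rfl (fun v _ => ?_)
  have := two_le_starH hpi v
  rw [demH]
  omega

/-- Hall's condition -/
theorem hall_condH (hT : T.Conn) (hg : T.Genus0) (hs : T.Simple) (hc : T.Cyc)
    (hpi : ∀ i w, T.pi i w ≠ w) (w0 : W) (X : Finset T.Vert) :
    ∑ v ∈ X, demH w0 v ≤ ((meetH X).erase w0).card := by
  classical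
  have h1 := hall_ineqH hT hg hs hc X w0
  have h2 := sum_star_eqH X
  have h3 := sum_demH hpi w0 X
  have h4 : w0 ∈ meetH X ↔ (rtH X w0).Nonempty := by
    constructor
    · intro h
      rw [meetH, Finset.mem_filter] at h
      obtain ⟨i, hi⟩ := h.2
      exact ⟨i, by rw [rtH, Finset.mem_filter]; exact ⟨Finset.mem_univ _, hi⟩⟩
    · rintro ⟨i, hi⟩
      rw [rtH, Finset.mem_filter] at hi
      rw [meetH, Finset.mem_filter]
      exact ⟨Finset.mem_univ _, i, hi.2⟩
  by_cases hr : (rtH X w0).Nonempty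
  · rw [if_pos hr] at h1
    rw [Finset.card_erase_of_mem (h4.2 hr)]
    omega
  · rw [if_neg hr] at h1
    rw [Finset.erase_eq_of_notMem (fun h => hr (h4.1 h))]
    omega

theorem sum_dem_univH (hg : T.Genus0) (hpi : ∀ i w, T.pi i w ≠ w) (w0 : W) :
    ∑ v : T.Vert, demH w0 v + 1 = Fintype.card W := by
  classical
  have h1 := sum_star_eqH (Finset.univ : Finset T.Vert)
  have h2 := sum_demH hpi w0 (Finset.univ : Finset T.Vert)
  have h3 : (rtH (Finset.univ : Finset T.Vert) w0).card = 3 := by
    rw [rtH]; simp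
  have h4 : (T.FWH Finset.univ).card = Fintype.card W := by
    rw [FWH]; simp
  have h5 : (meetH (Finset.univ : Finset T.Vert)).card = Fintype.card W := by
    rw [meetH]; simp
  have h6 : (T.EXH Finset.univ).card = 3 * Fintype.card W := by
    rw [EXH]; simp
  have h7 := T.card_vert hg
  rw [Finset.card_univ] at h2
  omega

/-- THE ROOTED COVER, parent form: every white face `w ≠ w0` has a parent vertex `p (c w) w`,
root vertices are parents of all their faces, a vertex off the root is a non-parent in exactly two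
of its faces -/
theorem exists_parentH (hT : T.Conn) (hg : T.Genus0) (hs : T.Simple) (hc : T.Cyc)
    (hpi : ∀ i w, T.pi i w ≠ w) (w0 : W) :
    ∃ c : W → ZMod 3, (∀ w, w ≠ w0 → ∀ i, T.p i w = T.p i w0 → c w = i) ∧
      ∀ v : T.Vert, T.p v.1 w0 ≠ v →
        ((starH v).filter fun w => c w ≠ v.1).card = 2 := by
  classical
  let t : (Σ v : T.Vert, Fin (demH w0 v)) → Finset W := fun x => (starH x.1).erase w0
  have hall : ∀ s : Finset (Σ v : T.Vert, Fin (demH w0 v)), s.card ≤ (s.biUnion t).card := by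
    intro s
    let X : Finset T.Vert := s.image Sigma.fst
    have h1 : s.card ≤ ∑ v ∈ X, demH w0 v := by
      have h2 : s ⊆ X.sigma (fun v => (Finset.univ : Finset (Fin (demH w0 v)))) := by
        intro x hx
        rw [Finset.mem_sigma]
        exact ⟨Finset.mem_image_of_mem _ hx, Finset.mem_univ _⟩
      refine le_trans (Finset.card_le_card h2) ?_
      rw [Finset.card_sigma]
      simp
    refine le_trans h1 (le_trans (hall_condH hT hg hs hc hpi w0 X) (Finset.card_le_card ?_))
    intro w hw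
    rw [Finset.mem_erase, meetH, Finset.mem_filter] at hw
    obtain ⟨hw0, _, i, hi⟩ := hw
    rw [Finset.mem_image] at hi
    obtain ⟨x, hx, hxi⟩ := hi
    rw [Finset.mem_biUnion]
    refine ⟨x, hx, ?_⟩
    rw [Finset.mem_erase, mem_starH, hxi]
    exact ⟨hw0, rfl⟩
  obtain ⟨f, hf, hft⟩ := (Finset.all_card_le_biUnion_card_iff_exists_injective t).1 hall
  have hne : ∀ x, f x ≠ w0 := fun x => (Finset.mem_erase.1 (hft x)).1
  have hst : ∀ x, T.p x.1.1 (f x) = x.1 := fun x => mem_starH.1 (Finset.mem_erase.1 (hft x)).2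
  have hsurj : ∀ w, w ≠ w0 → ∃ x, f x = w := by
    have h1 : (Finset.univ.image f) = Finset.univ.erase w0 := by
      refine Finset.eq_of_subset_of_card_le ?_ ?_
      · intro w hw
        rw [Finset.mem_image] at hw
        obtain ⟨x, _, rfl⟩ := hw
        rw [Finset.mem_erase]
        exact ⟨hne x, Finset.mem_univ _⟩
      · rw [Finset.card_image_of_injective _ hf, Finset.card_erase_of_mem (Finset.mem_univ _),
          Finset.card_univ, Finset.card_univ, Fintype.card_sigma]
        simp only [Fintype.card_fin]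
        have := sum_dem_univH hg hpi w0
        omega
    intro w hw
    have : w ∈ Finset.univ.image f := by
      rw [h1, Finset.mem_erase]; exact ⟨hw, Finset.mem_univ _⟩
    rw [Finset.mem_image] at this
    obtain ⟨x, _, hx⟩ := this
    exact ⟨x, hx⟩
  have hN : Nonempty (Σ v : T.Vert, Fin (demH w0 v)) := by
    obtain ⟨x, _⟩ := hsurj (T.pi 0 w0) (hpi 0 w0)
    exact ⟨x⟩
  choose! g hgf using hsurj
  have hgfx : ∀ x, g (f x) = x := fun x => hf (hgf _ (hne x))
  -- number of faces with parent `v`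
  have hcount : ∀ v : T.Vert, (((starH v).erase w0).filter fun w => (g w).1.1 = v.1).card =
      demH w0 v := by
    intro v
    rw [← Fintype.card_fin (demH w0 v), ← Finset.card_univ]
    symm
    refine Finset.card_bij (fun j _ => f ⟨v, j⟩) ?_ ?_ ?_
    · intro j _
      rw [Finset.mem_filter, hgfx]
      exact ⟨hft ⟨v, j⟩, rfl⟩
    · intro j _ j' _ h
      have := hf h
      rw [Sigma.mk.injEq] at this
      exact eq_of_heq this.2
    · intro w hw
      rw [Finset.mem_filter, Finset.mem_erase, mem_starH] at hw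
      obtain ⟨⟨hw0, hwv⟩, hcol⟩ := hw
      have h1 := hst (g w)
      rw [hgf w hw0, hcol, hwv] at h1
      obtain ⟨⟨v', j⟩, hx⟩ : ∃ x, g w = x := ⟨_, rfl⟩
      rw [hx] at h1
      simp only at h1
      subst h1
      refine ⟨j, Finset.mem_univ _, ?_⟩
      rw [← hx, hgf w hw0]
  refine ⟨fun w => (g w).1.1, ?_, ?_⟩
  · intro w hw i hi
    have h1 := hcount (T.p i w0)
    have h2 : demH w0 (T.p i w0) + 1 = (starH (T.p i w0)).card := by
      rw [demH, if_pos (by rfl)]
      have := two_le_starH hpi (T.p i w0)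
      omega
    have h3 : ((starH (T.p i w0)).erase w0).card + 1 = (starH (T.p i w0)).card :=
      Finset.card_erase_add_one (mem_starH.2 rfl)
    have h4 : (((starH (T.p i w0)).erase w0).filter fun w => (g w).1.1 = (T.p i w0).1) =
        (starH (T.p i w0)).erase w0 :=
      Finset.eq_of_subset_of_card_le (Finset.filter_subset _ _) (by omega)
    have h5 : w ∈ (starH (T.p i w0)).erase w0 := by
      rw [Finset.mem_erase, mem_starH]
      exact ⟨hw, hi⟩
    rw [← h4, Finset.mem_filter] at h5
    exact h5.2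
  · intro v hv
    have h1 := hcount v
    have h0 : w0 ∉ starH v := fun h => hv (mem_starH.1 h)
    rw [Finset.erase_eq_of_notMem h0] at h1
    have h2 := Finset.card_filter_add_card_filter_not (s := starH v) (fun w => (g w).1.1 = v.1)
    have h3 := two_le_starH hpi v
    rw [h1, demH, if_neg hv] at h2
    show ((starH v).filter fun w => ¬ (g w).1.1 = v.1).card = 2
    omega

end Tri

end Crest.Agent.R039
end

-- ▼ part R039/Hall995

/-!
# Row 39, block B1 (Hall): `blockHall : BlockHall`
-/

set_option autoImplicit false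
set_option linter.unusedSectionVars false

namespace Crest.Agent.R039

namespace Tri

variable {W B : Type*} [Fintype W] [Fintype B] [DecidableEq W] [DecidableEq B] {T : Tri W B}

/-- no vertex has a single white face -/
theorem pi_ne_of_cyc (hn : Nontrivial W) (hc : T.Cyc) (i : ZMod 3) (w : W) : T.pi i w ≠ w := by
  classical
  intro h
  have hb : T.e (i + 1) w = T.e (i + 2) w := by
    rw [T.pi_apply] at h
    rw [← h, Equiv.apply_symm_apply, h]
  have key : ∀ k i : ZMod 3, k = i ∨ k = i + 1 ∨ k = i + 2 := by decide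
  have hW : 2 ≤ Fintype.card W := Fintype.one_lt_card
  have hB : Fintype.card B = Fintype.card W := T.card_B
  let S : Finset (W ⊕ B) := {Sum.inl w, Sum.inr (T.e (i + 1) w)}
  have m1 : ∀ v : W, (Sum.inl v : W ⊕ B) ∈ S ↔ v = w := by
    intro v; simp [S]
  have m2 : ∀ b : B, (Sum.inr b : W ⊕ B) ∈ S ↔ b = T.e (i + 1) w := by
    intro b; simp [S]
  have hS : S.card = 2 := Finset.card_pair (by simp)
  have hcut : (T.cutH S).card ≤ 3 := by
    have hsub : T.cutH S ⊆ {(i, w), (i, (T.e i).symm (T.e (i + 1) w))} := by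
      rintro ⟨k, v⟩ hx
      rw [mem_cutH, m1, m2] at hx
      simp only at hx
      rw [Finset.mem_insert, Finset.mem_singleton]
      by_cases hv : v = w
      · subst hv
        left
        have hne : ¬ T.e k v = T.e (i + 1) v := fun h' => hx ⟨fun _ => h', fun _ => rfl⟩
        rcases key k i with rfl | rfl | rfl
        · rfl
        · exact (hne rfl).elim
        · exact (hne hb.symm).elim
      · right
        have heq : T.e k v = T.e (i + 1) w := by
          by_contra h'
          exact hx ⟨fun h'' => (hv h'').elim, fun h'' => (h' h'').elim⟩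
        rcases key k i with rfl | rfl | rfl
        · rw [← heq, Equiv.symm_apply_apply]
        · exact (hv ((T.e _).injective heq)).elim
        · rw [hb] at heq
          exact (hv ((T.e _).injective heq)).elim
    exact le_trans (Finset.card_le_card hsub) (le_trans Finset.card_le_two (by norm_num))
  rcases hc S hcut with h1 | h1
  · omega
  · rw [Finset.card_compl, hS, Fintype.card_sum, hB] at h1
    omega

/-- THE ROOTED COVER in the form of `Defs29` -/
theorem exists_cover (hT : T.Conn) (hg : T.Genus0) (hs : T.Simple) (hn : Nontrivial W)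
    (hc : T.Cyc) (w0 : W) : ∃ m, T.Cover w0 m := by
  classical
  obtain ⟨c, h1, h2⟩ := exists_parentH hT hg hs hc (pi_ne_of_cyc hn hc) w0
  refine ⟨c, ?_, ?_⟩
  · intro w hw i hi h
    exact hi (h1 w hw i h).symm
  · intro v hv
    have hv' : T.p v.1 w0 ≠ v := fun h => hv v.1 h.symm
    have h3 := h2 v hv'
    have h4 : {x : ZMod 3 × W | x.2 ≠ w0 ∧ x.1 ≠ c x.2 ∧ T.p x.1 x.2 = v} =
        (((starH v).filter fun w => c w ≠ v.1).image (fun w => (v.1, w)) :
          Finset (ZMod 3 × W)) := by
      ext x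
      rw [Set.mem_ofPred_eq, Finset.mem_coe, Finset.mem_image]
      constructor
      · rintro ⟨_, hx2, hx3⟩
        have hi : v.1 = x.1 := by rw [← hx3]; rfl
        refine ⟨x.2, ?_, ?_⟩
        · rw [Finset.mem_filter, mem_starH, hi]
          exact ⟨hx3, fun h => hx2 h.symm⟩
        · rw [hi]
      · rintro ⟨w, hw, rfl⟩
        rw [Finset.mem_filter, mem_starH] at hw
        refine ⟨?_, fun h => hw.2 h.symm, hw.1⟩
        rintro rfl
        exact hv' hw.1
    rw [h4, Set.ncard_coe_finset, Finset.card_image_of_injective _ (fun a b h => (Prod.mk.inj h).2)]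
    exact h3


end Tri

theorem blockHall : BlockHall := by
  intro W B _ _ _ _ T hT hg hs hn hc w0
  exact Tri.exists_cover hT hg hs hn hc w0

end Crest.Agent.R039
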