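import Mathlib

-- ▼ part R039/Alt123
section

/-!
# Alternating sums over subsets (finite differences)

For a polynomial `P` of degree at most `|K|`,
`∑_{S ⊆ K} (-1)^{|S|} P(c + ∑_{i∈S} a_i) = (-1)^{|K|} |K|! coeff_{|K|}(P) ∏ a_i`.
-/

set_option autoImplicit false
open Finset Polynomial

namespace Crest.Agent.R039.Alt

variable {ι R : Type*} [CommRing R]

/-- coefficient of a Taylor shift, one below the degree bound -/
lemma coeff_taylor_of_natDegree_le (a : R) (P : R[X]) (n : ℕ) (hP : P.natDegree ≤ n + 1) :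
    (taylor a P).coeff n = P.coeff n + ((n : R) + 1) * a * P.coeff (n + 1) := by
  have h2 : (hasseDeriv n P).natDegree < 2 := by
    refine lt_of_le_of_lt (natDegree_hasseDeriv_le P n) ?_
    omega
  rw [taylor_coeff, eval_eq_sum_range' h2, Finset.sum_range_succ, Finset.sum_range_one,
    hasseDeriv_coeff, hasseDeriv_coeff]
  have h3 : (1 + n).choose n = n + 1 := by
    rw [add_comm 1 n]; exact Nat.choose_succ_self_right n
  rw [h3]
  simp only [zero_add, Nat.choose_self, pow_zero, pow_one, Nat.cast_one, add_comm 1 n]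
  push_cast
  ring

/-- The finite difference has smaller degree. -/
lemma natDegree_sub_taylor_le (a : R) (P : R[X]) (n : ℕ) (hP : P.natDegree ≤ n + 1) :
    (P - taylor a P).natDegree ≤ n := by
  rw [natDegree_le_iff_coeff_eq_zero]
  intro N hN
  rw [coeff_sub]
  by_cases h : N = n + 1
  · subst h
    rw [coeff_taylor_of_natDegree_le a P (n + 1) (by omega)]
    rw [coeff_eq_zero_of_natDegree_lt (lt_of_le_of_lt hP (Nat.lt_succ_self _))]
    ring
  · have h1 : P.natDegree < N := by omega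
    rw [coeff_eq_zero_of_natDegree_lt h1, coeff_eq_zero_of_natDegree_lt (by rwa [natDegree_taylor])]
    ring

/-- **Alternating sums of a polynomial over the subset sums of `K`.** -/
theorem sum_powerset_eval [DecidableEq ι] (a : ι → R) (K : Finset ι) (P : R[X])
    (hP : P.natDegree ≤ K.card) (c : R) :
    ∑ S ∈ K.powerset, (-1 : R) ^ S.card * P.eval (c + ∑ i ∈ S, a i) =
      (-1) ^ K.card * (K.card.factorial : R) * P.coeff K.card * ∏ i ∈ K, a i := by
  induction K using Finset.induction_on generalizing P c with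
  | empty =>
    have h0 : P = C (P.coeff 0) := eq_C_of_natDegree_le_zero (by simpa using hP)
    rw [h0]
    simp
  | insert i K hi ih =>
    rw [Finset.sum_powerset_insert hi]
    have hstep : ∀ S ∈ K.powerset, (-1 : R) ^ (insert i S).card * P.eval (c + ∑ j ∈ insert i S, a j)
        = - ((-1 : R) ^ S.card * (taylor (a i) P).eval (c + ∑ j ∈ S, a j)) := by
      intro S hS
      have hiS : i ∉ S := fun h => hi (Finset.mem_powerset.1 hS h)
      rw [Finset.card_insert_of_notMem hiS, Finset.sum_insert hiS, taylor_apply, eval_comp]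
      simp only [eval_add, eval_X, eval_C]
      rw [pow_succ]
      have : c + (a i + ∑ j ∈ S, a j) = c + ∑ j ∈ S, a j + a i := by ring
      rw [this]; ring
    rw [Finset.sum_congr rfl hstep, Finset.sum_neg_distrib, ← sub_eq_add_neg,
      ← Finset.sum_sub_distrib]
    have hcard : (insert i K).card = K.card + 1 := Finset.card_insert_of_notMem hi
    have hQ : (P - taylor (a i) P).natDegree ≤ K.card :=
      natDegree_sub_taylor_le (a i) P K.card (by omega)
    have h := ih (P - taylor (a i) P) hQ c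
    have e1 : ∑ S ∈ K.powerset, ((-1 : R) ^ S.card * P.eval (c + ∑ j ∈ S, a j)
        - (-1 : R) ^ S.card * (taylor (a i) P).eval (c + ∑ j ∈ S, a j))
        = ∑ S ∈ K.powerset, (-1 : R) ^ S.card * (P - taylor (a i) P).eval (c + ∑ j ∈ S, a j) := by
      refine Finset.sum_congr rfl fun S _ => ?_
      rw [eval_sub]; ring
    rw [e1, h, coeff_sub, coeff_taylor_of_natDegree_le (a i) P K.card (by omega), hcard,
      Finset.prod_insert hi, Nat.factorial_succ, pow_succ]
    push_cast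
    ring

/-- Powers below `|K|` are killed. -/
theorem sum_powerset_pow_lt [DecidableEq ι] (a : ι → R) (K : Finset ι) (j : ℕ)
    (hj : j < K.card) (c : R) :
    ∑ S ∈ K.powerset, (-1 : R) ^ S.card * (c + ∑ i ∈ S, a i) ^ j = 0 := by
  have h := sum_powerset_eval a K (X ^ j : R[X]) ((natDegree_X_pow_le j).trans hj.le) c
  simp only [eval_pow, eval_X] at h
  rw [h, coeff_X_pow, if_neg (by omega)]
  ring

/-- The power `|K|`. -/
theorem sum_powerset_pow_card [DecidableEq ι] (a : ι → R) (K : Finset ι) (c : R) :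
    ∑ S ∈ K.powerset, (-1 : R) ^ S.card * (c + ∑ i ∈ S, a i) ^ K.card =
      (-1) ^ K.card * (K.card.factorial : R) * ∏ i ∈ K, a i := by
  have h := sum_powerset_eval a K (X ^ K.card : R[X]) (natDegree_X_pow_le _) c
  simp only [eval_pow, eval_X] at h
  rw [h, coeff_X_pow, if_pos rfl]
  ring

end Crest.Agent.R039.Alt
end

-- ▼ part R039/Key123

/-!
# The signed sum (block B2 of Barnette)

Abstract form of §3 of helper563's proof (#9142): `W` = white faces `≠ w*`, `V` = vertices not on `w*`,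
`ω w x y = 1` if `y` follows `x` anticlockwise in `w`, `-1` if it precedes, `0` otherwise,
`φ w x` an integer potential on the corners.
If for all pairs of bijections `s, t = s ∘ π` with `ω w (s w) (s (π w)) ≠ 0` every orbit `O` of `π`
has odd size and `(-1)^((|O|-1)/2) * ∏_O ω * ∑_O (φ_t - φ_s) > 0`, and if there is one such pair,
then `det (ω w (s w) (s w')) ≠ 0` for some bijection `s`.
-/

set_option autoImplicit false
set_option linter.unusedSectionVars false
open Finset Equiv Equiv.Perm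

namespace Crest.Agent.R039.Key

variable {W V : Type*} [Fintype W] [DecidableEq W] [Fintype V] [DecidableEq V]

/-- invariant sets -/
def Inv (π : Perm W) (Z : Finset W) : Prop := ∀ w, π w ∈ Z ↔ w ∈ Z

instance (π : Perm W) (Z : Finset W) : Decidable (Inv π Z) := by unfold Inv; infer_instance

/-- `π` on `Z`, identity off `Z` -/
def rot (π : Perm W) (Z : Finset W) : Perm W :=
  if h : ∀ w, π w ∈ Z ↔ w ∈ Z then ofSubtype (π.subtypePerm (p := (· ∈ Z)) h) else 1

lemma rot_apply {π : Perm W} {Z : Finset W} (h : Inv π Z) (w : W) :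
    rot π Z w = if w ∈ Z then π w else w := by
  have h' : ∀ w, π w ∈ Z ↔ w ∈ Z := h
  unfold rot
  rw [dif_pos h']
  by_cases hw : w ∈ Z
  · rw [if_pos hw, ofSubtype_apply_of_mem _ hw]; rfl
  · rw [if_neg hw, ofSubtype_apply_of_not_mem _ hw]

/-- the permutation with the cycles in `Z` inverted -/
def fl (π : Perm W) (Z : Finset W) : Perm W := (rot π Z)⁻¹ * (rot π Z)⁻¹ * π

lemma rot_inv_apply {π : Perm W} {Z : Finset W} (h : Inv π Z) (w : W) :
    (rot π Z)⁻¹ w = if w ∈ Z then π⁻¹ w else w := by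
  rw [Perm.inv_eq_iff_eq, rot_apply h]
  by_cases hw : w ∈ Z
  · have h2 : π⁻¹ w ∈ Z := by
      rw [← h (π⁻¹ w)]; simpa using hw
    rw [if_pos hw, if_pos h2]; simp
  · rw [if_neg hw, if_neg hw]

lemma fl_apply {π : Perm W} {Z : Finset W} (h : Inv π Z) (w : W) :
    fl π Z w = if w ∈ Z then π⁻¹ w else π w := by
  unfold fl
  rw [Perm.mul_apply, Perm.mul_apply, rot_inv_apply h, rot_inv_apply h]
  by_cases hw : w ∈ Z
  · have h1 : π w ∈ Z := (h w).2 hw
    rw [if_pos h1, if_pos hw]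
    have h3 : π⁻¹ (π w) = w := by simp
    rw [h3, if_pos hw]
  · have h1 : π w ∉ Z := fun h' => hw ((h w).1 h')
    rw [if_neg h1, if_neg hw, if_neg h1]

lemma sign_fl (π : Perm W) (Z : Finset W) : sign (fl π Z) = sign π := by
  unfold fl
  rw [Perm.sign_mul, Perm.sign_mul, Perm.sign_inv]
  rcases Int.units_eq_one_or (sign (rot π Z)) with h | h <;> rw [h] <;> simp

lemma inv_fl {π : Perm W} {Z : Finset W} (h : Inv π Z) : Inv (fl π Z) Z := by
  intro w
  rw [fl_apply h]
  by_cases hw : w ∈ Z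
  · rw [if_pos hw]
    have h2 : π⁻¹ w ∈ Z := by
      rw [← h (π⁻¹ w)]; simpa using hw
    exact ⟨fun _ => hw, fun _ => h2⟩
  · rw [if_neg hw]; exact h w

lemma fl_inv_apply {π : Perm W} {Z : Finset W} (h : Inv π Z) (w : W) :
    (fl π Z)⁻¹ w = if w ∈ Z then π w else π⁻¹ w := by
  rw [Perm.inv_eq_iff_eq, fl_apply h]
  by_cases hw : w ∈ Z
  · have h1 : π w ∈ Z := (h w).2 hw
    rw [if_pos hw, if_pos h1]; simp
  · have h2 : π⁻¹ w ∉ Z := by
      rw [← h (π⁻¹ w)]; simpa using hw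
    rw [if_neg hw, if_neg h2]; simp

lemma rot_fl {π : Perm W} {Z : Finset W} (h : Inv π Z) : rot (fl π Z) Z = (rot π Z)⁻¹ := by
  ext w
  rw [rot_apply (inv_fl h), rot_inv_apply h, fl_apply h]
  by_cases hw : w ∈ Z <;> simp [hw]

lemma fl_fl {π : Perm W} {Z : Finset W} (h : Inv π Z) : fl (fl π Z) Z = π := by
  ext w
  rw [fl_apply (inv_fl h), fl_inv_apply h, fl_apply h]
  by_cases hw : w ∈ Z <;> simp [hw]

lemma sameCycle_of_fl {π : Perm W} {Z : Finset W} (h : Inv π Z) {x y : W}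
    (hxy : (fl π Z).SameCycle x y) : π.SameCycle x y := by
  obtain ⟨n, rfl⟩ := hxy.exists_nat_pow_eq
  clear hxy
  induction n with
  | zero => exact SameCycle.refl _ _
  | succ n ih =>
    refine ih.trans ?_
    rw [pow_succ', Perm.mul_apply, fl_apply h]
    split_ifs
    · exact (Perm.sameCycle_symm_apply_right.2 (SameCycle.refl _ _))
    · exact (Perm.sameCycle_apply_right.2 (SameCycle.refl _ _))

lemma sameCycle_fl {π : Perm W} {Z : Finset W} (h : Inv π Z) {x y : W} :
    (fl π Z).SameCycle x y ↔ π.SameCycle x y := by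
  refine ⟨sameCycle_of_fl h, fun hxy => ?_⟩
  have := fl_fl h
  rw [← this] at hxy
  exact sameCycle_of_fl (inv_fl h) hxy

/-- the orbit of `w` -/
def orb (π : Perm W) (w : W) : Finset W := univ.filter fun x => π.SameCycle w x

/-- all orbits -/
def orbs (π : Perm W) : Finset (Finset W) := univ.image (orb π)

lemma orbs_fl {π : Perm W} {Z : Finset W} (h : Inv π Z) : orbs (fl π Z) = orbs π := by
  unfold orbs
  congr 1
  funext w
  unfold orb
  ext x
  simp [sameCycle_fl h]

lemma mem_orb {π : Perm W} {w x : W} : x ∈ orb π w ↔ π.SameCycle w x := by simp [orb]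

lemma orb_eq_of_mem {π : Perm W} {w x : W} (h : x ∈ orb π w) : orb π x = orb π w := by
  rw [mem_orb] at h
  ext y
  rw [mem_orb, mem_orb]
  exact ⟨fun hy => h.trans hy, fun hy => h.symm.trans hy⟩

lemma mem_of_mem_orbs {π : Perm W} {O : Finset W} (hO : O ∈ orbs π) {x : W} (hx : x ∈ O) :
    O = orb π x := by
  obtain ⟨w, -, rfl⟩ := Finset.mem_image.1 hO
  exact (orb_eq_of_mem hx).symm

lemma orb_mem_orbs (π : Perm W) (w : W) : orb π w ∈ orbs π := Finset.mem_image_of_mem _ (mem_univ _)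

lemma self_mem_orb (π : Perm W) (w : W) : w ∈ orb π w := by rw [mem_orb]

lemma orbs_disjoint {π : Perm W} : (orbs π : Set (Finset W)).PairwiseDisjoint id := by
  intro A hA B hB hne
  rw [Function.onFun, Finset.disjoint_left]
  intro x hxA hxB
  exact hne ((mem_of_mem_orbs hA hxA).trans (mem_of_mem_orbs hB hxB).symm)

lemma inv_biUnion {π : Perm W} {A : Finset (Finset W)} (hA : A ⊆ orbs π) :
    Inv π (A.biUnion id) := by
  intro w
  simp only [Finset.mem_biUnion, id]
  constructor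
  · rintro ⟨O, hO, hw⟩
    refine ⟨O, hO, ?_⟩
    rw [mem_of_mem_orbs (hA hO) hw, mem_orb]
    exact Perm.sameCycle_apply_left.2 (SameCycle.refl _ _)
  · rintro ⟨O, hO, hw⟩
    refine ⟨O, hO, ?_⟩
    rw [mem_of_mem_orbs (hA hO) hw, mem_orb]
    exact Perm.sameCycle_apply_right.2 (SameCycle.refl _ _)

lemma inv_sameCycle {π : Perm W} {Z : Finset W} (h : Inv π Z) {x y : W} (hxy : π.SameCycle x y)
    (hx : x ∈ Z) : y ∈ Z := by
  obtain ⟨n, rfl⟩ := hxy.exists_nat_pow_eq
  clear hxy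
  induction n with
  | zero => simpa
  | succ n ih => rw [pow_succ', Perm.mul_apply]; exact (h _).2 ih

/-- Summation over invariant sets = summation over sets of orbits. -/
lemma sum_inv {M : Type*} [AddCommMonoid M] (π : Perm W) (f : Finset W → M) :
    ∑ Z ∈ univ.filter (Inv π), f Z = ∑ A ∈ (orbs π).powerset, f (A.biUnion id) := by
  symm
  refine Finset.sum_bij' (fun A _ => A.biUnion id) (fun Z _ => (orbs π).filter (· ⊆ Z))
    ?_ ?_ ?_ ?_ ?_
  · intro A hA
    exact Finset.mem_filter.2 ⟨mem_univ _, inv_biUnion (Finset.mem_powerset.1 hA)⟩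
  · intro Z _
    exact Finset.mem_powerset.2 (Finset.filter_subset _ _)
  · intro A hA
    have hA := Finset.mem_powerset.1 hA
    ext O
    simp only [Finset.mem_filter]
    constructor
    · rintro ⟨hO, hsub⟩
      obtain ⟨w, -, rfl⟩ := Finset.mem_image.1 hO
      have hw := hsub (self_mem_orb π w)
      obtain ⟨O', hO', hw'⟩ := Finset.mem_biUnion.1 hw
      have := mem_of_mem_orbs (hA hO') hw'
      rw [← this]; exact hO'
    · intro hO
      exact ⟨hA hO, Finset.subset_biUnion_of_mem id hO⟩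
  · intro Z hZ
    have hZ := (Finset.mem_filter.1 hZ).2
    ext w
    simp only [Finset.mem_biUnion, Finset.mem_filter, id]
    constructor
    · rintro ⟨O, ⟨_, h2⟩, hw⟩
      exact h2 hw
    · intro hw
      refine ⟨orb π w, ⟨orb_mem_orbs π w, ?_⟩, self_mem_orb π w⟩
      intro x hx
      exact inv_sameCycle hZ (mem_orb.1 hx) hw
  · intro A _
    rfl

lemma card_inv (π : Perm W) : (univ.filter (Inv π)).card = 2 ^ (orbs π).card := by
  have := sum_inv π (fun _ => (1 : ℕ))
  simpa using this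


section weights

variable (ω : W → V → V → ℤ) (φ : W → V → ℤ)

/-- weight of the pair `(s, s ∘ π)` -/
def wt (s : W ≃ V) (π : Perm W) : ℤ := (sign π : ℤ) * ∏ w, ω w (s w) (s (π w))

/-- total potential -/
def Ph (s : W ≃ V) : ℤ := ∑ w, φ w (s w)

/-- change of the potential on `O` -/
def dl (s : W ≃ V) (π : Perm W) (O : Finset W) : ℤ := ∑ w ∈ O, (φ w (s (π w)) - φ w (s w))

/-- the square incidence matrix of `Γ_s` -/
def M (s : W ≃ V) : Matrix W W ℤ := Matrix.of fun w' w => ω w (s w) (s w')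

omit [Fintype V] [DecidableEq V] in
lemma det_M (s : W ≃ V) : (M ω s).det = ∑ π : Perm W, wt ω s π := by
  rw [Matrix.det_apply]
  refine Finset.sum_congr rfl fun π _ => ?_
  unfold wt M
  rw [Units.smul_def, smul_eq_mul]
  rfl

/-- the flip -/
def flX (x : (W ≃ V) × Perm W) (Z : Finset W) : (W ≃ V) × Perm W :=
  ((rot x.2 Z).trans x.1, fl x.2 Z)

omit [Fintype V] [DecidableEq V] in
lemma flX_flX {x : (W ≃ V) × Perm W} {Z : Finset W} (h : Inv x.2 Z) : flX (flX x Z) Z = x := by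
  obtain ⟨s, π⟩ := x
  unfold flX
  simp only at h ⊢
  rw [rot_fl h, fl_fl h]
  congr 1
  ext w
  simp

omit [Fintype V] [DecidableEq V] in
lemma wt_flX {x : (W ≃ V) × Perm W} {Z : Finset W} (h : Inv x.2 Z)
    (hω : ∀ w a b, ω w b a = - ω w a b) :
    wt ω (flX x Z).1 (flX x Z).2 = (-1) ^ Z.card * wt ω x.1 x.2 := by
  obtain ⟨s, π⟩ := x
  simp only [flX, wt] at h ⊢
  rw [sign_fl]
  have key : ∀ w, ω w ((rot π Z).trans s w) ((rot π Z).trans s (fl π Z w))
      = (if w ∈ Z then -1 else 1) * ω w (s w) (s (π w)) := by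
    intro w
    simp only [Equiv.trans_apply]
    rw [rot_apply h w, rot_apply h (fl π Z w), fl_apply h]
    by_cases hw : w ∈ Z
    · have h2 : π⁻¹ w ∈ Z := by
        rw [← h (π⁻¹ w)]; simpa using hw
      have h3 : π (π⁻¹ w) = w := by simp
      simp only [if_pos hw, if_pos h2, h3]
      rw [hω]; ring
    · have h1 : π w ∉ Z := fun h' => hw ((h w).1 h')
      simp only [if_neg hw, if_neg h1]; ring
  rw [Finset.prod_congr rfl (fun w _ => key w), Finset.prod_mul_distrib]
  have : (∏ w : W, (if w ∈ Z then (-1 : ℤ) else 1)) = (-1) ^ Z.card := by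
    rw [Finset.prod_ite_mem, Finset.univ_inter, Finset.prod_const]
  rw [this]; ring

omit [Fintype V] [DecidableEq V] in
lemma Ph_flX {x : (W ≃ V) × Perm W} {Z : Finset W} (h : Inv x.2 Z) :
    Ph φ (flX x Z).1 = Ph φ x.1 + dl φ x.1 x.2 Z := by
  obtain ⟨s, π⟩ := x
  simp only [flX, Ph, dl] at h ⊢
  have key : ∀ w, φ w ((rot π Z).trans s w)
      = φ w (s w) + (if w ∈ Z then (φ w (s (π w)) - φ w (s w)) else 0) := by
    intro w
    simp only [Equiv.trans_apply]
    rw [rot_apply h w]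
    by_cases hw : w ∈ Z
    · simp only [if_pos hw]; ring
    · simp only [if_neg hw]; ring
  rw [Finset.sum_congr rfl (fun w _ => key w), Finset.sum_add_distrib, Finset.sum_ite_mem,
    Finset.univ_inter]

/-- The averaging identity. -/
lemma sum_average (h : (W ≃ V) × Perm W → ℚ) :
    ∑ x : (W ≃ V) × Perm W, h x =
      ∑ x : (W ≃ V) × Perm W, (1 / 2 ^ (orbs x.2).card : ℚ) *
        ∑ Z ∈ univ.filter (Inv x.2), h (flX x Z) := by
  have e1 : ∀ x : (W ≃ V) × Perm W, (1 / 2 ^ (orbs x.2).card : ℚ) *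
        ∑ Z ∈ univ.filter (Inv x.2), h (flX x Z)
      = ∑ Z ∈ univ.filter (Inv x.2), (1 / 2 ^ (orbs (flX x Z).2).card : ℚ) * h (flX x Z) := by
    intro x
    rw [Finset.mul_sum]
    refine Finset.sum_congr rfl fun Z hZ => ?_
    have hZ := (Finset.mem_filter.1 hZ).2
    have : orbs (flX x Z).2 = orbs x.2 := orbs_fl hZ
    rw [this]
  rw [Finset.sum_congr rfl (fun x _ => e1 x), Finset.sum_sigma']
  have e2 : ∑ y ∈ (univ : Finset ((W ≃ V) × Perm W)).sigma (fun x => univ.filter (Inv x.2)),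
        (1 / 2 ^ (orbs (flX y.1 y.2).2).card : ℚ) * h (flX y.1 y.2)
      = ∑ y ∈ (univ : Finset ((W ≃ V) × Perm W)).sigma (fun x => univ.filter (Inv x.2)),
        (1 / 2 ^ (orbs y.1.2).card : ℚ) * h y.1 := by
    refine Finset.sum_bij' (fun y _ => ⟨flX y.1 y.2, y.2⟩) (fun y _ => ⟨flX y.1 y.2, y.2⟩)
      ?_ ?_ ?_ ?_ ?_
    · intro y hy
      have hy := (Finset.mem_filter.1 (Finset.mem_sigma.1 hy).2).2
      exact Finset.mem_sigma.2 ⟨mem_univ _, Finset.mem_filter.2 ⟨mem_univ _, inv_fl hy⟩⟩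
    · intro y hy
      have hy := (Finset.mem_filter.1 (Finset.mem_sigma.1 hy).2).2
      exact Finset.mem_sigma.2 ⟨mem_univ _, Finset.mem_filter.2 ⟨mem_univ _, inv_fl hy⟩⟩
    · intro y hy
      have hy := (Finset.mem_filter.1 (Finset.mem_sigma.1 hy).2).2
      obtain ⟨x, Z⟩ := y
      simp only at hy ⊢
      rw [flX_flX hy]
    · intro y hy
      have hy := (Finset.mem_filter.1 (Finset.mem_sigma.1 hy).2).2
      obtain ⟨x, Z⟩ := y
      simp only at hy ⊢
      rw [flX_flX hy]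
    · intro y hy
      rfl
  rw [e2, Finset.sum_sigma]
  refine Finset.sum_congr rfl fun x _ => ?_
  simp only [Finset.sum_const, nsmul_eq_mul]
  rw [card_inv]
  push_cast
  field_simp

lemma dl_biUnion (s : W ≃ V) (π : Perm W) {A : Finset (Finset W)} (hA : A ⊆ orbs π) :
    dl φ s π (A.biUnion id) = ∑ O ∈ A, dl φ s π O := by
  unfold dl
  rw [Finset.sum_biUnion]
  · rfl
  · exact orbs_disjoint.subset (by exact_mod_cast hA)

lemma neg_one_pow_card_biUnion (π : Perm W) {A : Finset (Finset W)} (hA : A ⊆ orbs π)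
    (hodd : ∀ O ∈ orbs π, Odd O.card) : (-1 : ℤ) ^ (A.biUnion id).card = (-1) ^ A.card := by
  rw [Finset.card_biUnion]
  · rw [← Finset.prod_pow_eq_pow_sum, Finset.prod_congr rfl (g := fun _ => (-1 : ℤ)),
      Finset.prod_const]
    intro O hO
    exact Odd.neg_one_pow (hodd O (hA hO))
  · exact orbs_disjoint.subset (by exact_mod_cast hA)

lemma biUnion_orbs (π : Perm W) : (orbs π).biUnion id = univ := by
  ext w
  simp only [Finset.mem_biUnion, id, mem_univ, iff_true]
  exact ⟨orb π w, orb_mem_orbs π w, self_mem_orb π w⟩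

/-- A permutation without fixed points all of whose orbits are odd is even. -/
lemma sign_eq_one {π : Perm W} (hfix : ∀ w, π w ≠ w) (hodd : ∀ O ∈ orbs π, Odd O.card) :
    sign π = 1 := by
  rw [sign_of_cycleType']
  refine Multiset.prod_eq_one ?_
  intro u hu
  obtain ⟨n, hn, rfl⟩ := Multiset.mem_map.1 hu
  rw [cycleType_def, Multiset.mem_map] at hn
  obtain ⟨c, hc, rfl⟩ := hn
  have hc' : c ∈ π.cycleFactorsFinset := hc
  obtain ⟨x, hx⟩ := (mem_cycleFactorsFinset_iff.1 hc').1.nonempty_support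
  have hcx := cycle_is_cycleOf hx hc'
  have : c.support = orb π x := by
    ext y
    rw [hcx, mem_support_cycleOf_iff, mem_orb]
    exact ⟨fun h => h.1, fun h => ⟨h, mem_support.2 (hfix x)⟩⟩
  simp only [Function.comp]
  rw [this, (hodd _ (orb_mem_orbs π x)).neg_one_pow]
  simp


/-- evaluation of the inner sum -/
lemma inner_eq (hω : ∀ w a b, ω w b a = - ω w a b) (s : W ≃ V) (π : Perm W)
    (hodd : ∀ O ∈ orbs π, Odd O.card) (k : ℕ) :
    ∑ Z ∈ univ.filter (Inv π), ((wt ω (flX (s, π) Z).1 (flX (s, π) Z).2 : ℤ) : ℚ) *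
        ((Ph φ (flX (s, π) Z).1 : ℤ) : ℚ) ^ k
      = (wt ω s π : ℚ) * ∑ A ∈ (orbs π).powerset,
          (-1 : ℚ) ^ A.card * ((Ph φ s : ℚ) + ∑ O ∈ A, (dl φ s π O : ℚ)) ^ k := by
  have e1 : ∀ Z ∈ univ.filter (Inv π),
      ((wt ω (flX (s, π) Z).1 (flX (s, π) Z).2 : ℤ) : ℚ) * ((Ph φ (flX (s, π) Z).1 : ℤ) : ℚ) ^ k
      = (wt ω s π : ℚ) * ((-1 : ℚ) ^ Z.card * ((Ph φ s : ℚ) + (dl φ s π Z : ℚ)) ^ k) := by
    intro Z hZ
    have hZ := (Finset.mem_filter.1 hZ).2
    rw [wt_flX ω (x := (s, π)) hZ hω, Ph_flX φ (x := (s, π)) hZ]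
    push_cast
    ring
  rw [Finset.sum_congr rfl e1, sum_inv π (fun Z => (wt ω s π : ℚ) * ((-1 : ℚ) ^ Z.card *
    ((Ph φ s : ℚ) + (dl φ s π Z : ℚ)) ^ k)), Finset.mul_sum]
  refine Finset.sum_congr rfl fun A hA => ?_
  have hA := Finset.mem_powerset.1 hA
  rw [dl_biUnion φ s π hA]
  have h1 : (-1 : ℚ) ^ (A.biUnion id).card = (-1) ^ A.card := by
    exact_mod_cast neg_one_pow_card_biUnion π hA hodd
  rw [h1]
  push_cast
  rfl

/-- validity of a pair -/
def Val (s : W ≃ V) (π : Perm W) : Prop := ∀ w, ω w (s w) (s (π w)) ≠ 0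

lemma wt_eq_zero {s : W ≃ V} {π : Perm W} (h : ¬ Val ω s π) : wt ω s π = 0 := by
  unfold Val at h
  push Not at h
  obtain ⟨w, hw⟩ := h
  unfold wt
  rw [Finset.prod_eq_zero (mem_univ w) hw, mul_zero]

/-- the sign of the top coefficient -/
lemma top_pos (s : W ≃ V) (π : Perm W) (hfix : ∀ w, π w ≠ w)
    (hodd : ∀ O ∈ orbs π, Odd O.card)
    (hpos : ∀ O ∈ orbs π, 0 < (-1 : ℤ) ^ ((O.card - 1) / 2) *
      (∏ w ∈ O, ω w (s w) (s (π w))) * dl φ s π O) :
    0 < (-1 : ℤ) ^ ((Fintype.card W + (orbs π).card) / 2) *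
      (wt ω s π * (-1) ^ (orbs π).card * ∏ O ∈ orbs π, dl φ s π O) := by
  have h1 : wt ω s π = ∏ O ∈ orbs π, ∏ w ∈ O, ω w (s w) (s (π w)) := by
    unfold wt
    rw [sign_eq_one hfix hodd]
    have := Finset.prod_biUnion (s := orbs π) (t := id) (f := fun w => ω w (s w) (s (π w)))
      orbs_disjoint
    rw [biUnion_orbs] at this
    simpa using this
  have h2 : wt ω s π * (-1) ^ (orbs π).card * ∏ O ∈ orbs π, dl φ s π O
      = ∏ O ∈ orbs π, (- ((∏ w ∈ O, ω w (s w) (s (π w))) * dl φ s π O)) := by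
    rw [h1, ← Finset.prod_const, ← Finset.prod_mul_distrib, ← Finset.prod_mul_distrib]
    refine Finset.prod_congr rfl fun O _ => ?_
    ring
  have h3 : ∑ O ∈ orbs π, ((O.card + 1) / 2) = (Fintype.card W + (orbs π).card) / 2 := by
    have h4 : ∑ O ∈ orbs π, O.card = Fintype.card W := by
      rw [← Finset.card_univ, ← biUnion_orbs π, Finset.card_biUnion orbs_disjoint]
      rfl
    have h5 : 2 * ∑ O ∈ orbs π, ((O.card + 1) / 2) = Fintype.card W + (orbs π).card := by
      rw [Finset.mul_sum, ← h4, Finset.card_eq_sum_ones, ← Finset.sum_add_distrib]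
      refine Finset.sum_congr rfl fun O hO => ?_
      obtain ⟨m, hm⟩ := hodd O hO
      omega
    omega
  rw [h2, ← h3, ← Finset.prod_pow_eq_pow_sum, ← Finset.prod_mul_distrib]
  refine Finset.prod_pos fun O hO => ?_
  have h6 := hpos O hO
  obtain ⟨m, hm⟩ := hodd O hO
  have e1 : (O.card - 1) / 2 = m := by omega
  have e2 : (O.card + 1) / 2 = m + 1 := by omega
  rw [e1] at h6
  rw [e2, pow_succ]
  nlinarith [h6]

/-- **The key lemma of Barnette's theorem, abstract form.** -/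
theorem exists_det_ne_zero (hω : ∀ w a b, ω w b a = - ω w a b)
    (H : ∀ (s : W ≃ V) (π : Perm W), (∀ w, ω w (s w) (s (π w)) ≠ 0) → ∀ O ∈ orbs π,
      Odd O.card ∧ 0 < (-1 : ℤ) ^ ((O.card - 1) / 2) *
        (∏ w ∈ O, ω w (s w) (s (π w))) * ∑ w ∈ O, (φ w (s (π w)) - φ w (s w)))
    (s₀ : W ≃ V) (π₀ : Perm W) (h₀ : ∀ w, ω w (s₀ w) (s₀ (π₀ w)) ≠ 0) :
    ∃ s : W ≃ V, (Matrix.of fun w' w => ω w (s w) (s w') : Matrix W W ℤ).det ≠ 0 := by
  classical
  have hfix : ∀ (s : W ≃ V) (π : Perm W), Val ω s π → ∀ w, π w ≠ w := by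
    intro s π hv w hw
    have h1 := hv w
    rw [hw] at h1
    have h2 := hω w (s w) (s w)
    exact h1 (by omega)
  -- minimal number of orbits
  have hex : ∃ k, ∃ x : (W ≃ V) × Perm W, Val ω x.1 x.2 ∧ (orbs x.2).card = k :=
    ⟨_, (s₀, π₀), h₀, rfl⟩
  obtain ⟨x₁, hv₁, hk₁⟩ := Nat.find_spec hex
  set k := Nat.find hex with hk
  have hmin : ∀ x : (W ≃ V) × Perm W, Val ω x.1 x.2 → k ≤ (orbs x.2).card := by
    intro x hx
    exact Nat.find_min' hex ⟨x, hx, rfl⟩
  by_contra hcon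
  push Not at hcon
  -- the total sum vanishes
  have hS : ∑ x : (W ≃ V) × Perm W, (wt ω x.1 x.2 : ℚ) * (Ph φ x.1 : ℚ) ^ k = 0 := by
    rw [Fintype.sum_prod_type]
    refine Finset.sum_eq_zero fun s _ => ?_
    have h1 : (M ω s).det = 0 := hcon s
    rw [det_M] at h1
    have h2 : ∑ π : Perm W, (wt ω s π : ℚ) = 0 := by exact_mod_cast h1
    simp only
    rw [← Finset.sum_mul, h2, zero_mul]
  rw [sum_average (fun x => (wt ω x.1 x.2 : ℚ) * (Ph φ x.1 : ℚ) ^ k)] at hS
  set ε : ℚ := (-1) ^ ((Fintype.card W + k) / 2) with hε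
  have hterm : ∀ x : (W ≃ V) × Perm W, 0 ≤ ε * ((1 / 2 ^ (orbs x.2).card : ℚ) *
      ∑ Z ∈ univ.filter (Inv x.2), (wt ω (flX x Z).1 (flX x Z).2 : ℚ) *
        (Ph φ (flX x Z).1 : ℚ) ^ k) ∧
      (Val ω x.1 x.2 → (orbs x.2).card = k → 0 < ε * ((1 / 2 ^ (orbs x.2).card : ℚ) *
      ∑ Z ∈ univ.filter (Inv x.2), (wt ω (flX x Z).1 (flX x Z).2 : ℚ) *
        (Ph φ (flX x Z).1 : ℚ) ^ k)) := by
    rintro ⟨s, π⟩
    by_cases hv : Val ω s π
    · have hodd : ∀ O ∈ orbs π, Odd O.card := fun O hO => (H s π hv O hO).1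
      rw [inner_eq ω φ hω s π hodd k]
      have hle := hmin (s, π) hv
      simp only at hle ⊢
      rcases hle.lt_or_eq with hlt | heq
      · rw [Alt.sum_powerset_pow_lt _ _ _ hlt]
        refine ⟨by simp, fun _ h => absurd h (by omega)⟩
      · have htop := top_pos ω φ s π (hfix s π hv) hodd (fun O hO => (H s π hv O hO).2)
        have hP := Alt.sum_powerset_pow_card (fun O => (dl φ s π O : ℚ)) (orbs π) (Ph φ s : ℚ)
        rw [← heq] at hP htop
        rw [hP]
        have hpos : 0 < ε * ((1 / 2 ^ (orbs π).card : ℚ) * ((wt ω s π : ℚ) *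
            ((-1) ^ k * (k.factorial : ℚ) * ∏ O ∈ orbs π, (dl φ s π O : ℚ)))) := by
          have h7 : (0 : ℚ) < (-1 : ℚ) ^ ((Fintype.card W + k) / 2) *
            ((wt ω s π : ℚ) * (-1) ^ k * ∏ O ∈ orbs π, (dl φ s π O : ℚ)) := by
            exact_mod_cast htop
          have h8 : (0 : ℚ) < (1 / 2 ^ (orbs π).card : ℚ) * (k.factorial : ℚ) := by positivity
          have h9 := mul_pos h7 h8
          rw [hε]
          calc (0 : ℚ) < _ := h9
            _ = _ := by ring
        exact ⟨hpos.le, fun _ _ => hpos⟩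
    · refine ⟨?_, fun h => absurd h hv⟩
      have h0 : wt ω s π = 0 := wt_eq_zero ω hv
      have : ∑ Z ∈ univ.filter (Inv π), (wt ω (flX (s, π) Z).1 (flX (s, π) Z).2 : ℚ) *
        (Ph φ (flX (s, π) Z).1 : ℚ) ^ k = 0 := by
        refine Finset.sum_eq_zero fun Z hZ => ?_
        have hZ := (Finset.mem_filter.1 hZ).2
        rw [wt_flX ω (x := (s, π)) hZ hω]
        simp only
        rw [h0]; simp
      simp only
      rw [this]; simp
  have hSε : ∑ x : (W ≃ V) × Perm W, ε * ((1 / 2 ^ (orbs x.2).card : ℚ) *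
      ∑ Z ∈ univ.filter (Inv x.2), (wt ω (flX x Z).1 (flX x Z).2 : ℚ) *
        (Ph φ (flX x Z).1 : ℚ) ^ k) = 0 := by
    rw [← Finset.mul_sum, hS, mul_zero]
  have := (Finset.sum_eq_zero_iff_of_nonneg (fun x _ => (hterm x).1)).1 hSε x₁ (mem_univ _)
  have h10 := (hterm x₁).2 hv₁ hk₁
  exact absurd this h10.ne'

end weights

end Crest.Agent.R039.Key
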