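import Mathlib
import Crest.Prelude.Def_PlanarMap

-- ▼ part R039/Map834A
section

/-!
# Row 39: exactness of the cellular complex of a connected genus-zero map (pure rank count)
-/

set_option autoImplicit false

namespace Crest.Agent.R039.Map

open Matrix

section exact

variable {D X Y F : Type*} [Fintype D] [Fintype X] [Fintype Y] [DecidableEq X] [DecidableEq Y]
  [Field F]

/-- the signed incidence matrix of two maps -/
def inc (F : Type*) [Field F] (s t : D → X) : Matrix X D F := fun x d =>
  (if s d = x then 1 else 0) - (if t d = x then 1 else 0)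

omit [Fintype D] in
theorem inc_transpose_mulVec (s t : D → X) (h : X → F) :
    (inc F s t)ᵀ *ᵥ h = fun d => h (s d) - h (t d) := by
  funext d
  show ∑ x, ((if s d = x then (1 : F) else 0) - (if t d = x then 1 else 0)) * h x = _
  simp only [sub_mul, ite_mul, one_mul, zero_mul, Finset.sum_sub_distrib, Finset.sum_ite_eq,
    Finset.mem_univ, if_true]

omit [Fintype X] in
theorem inc_mulVec (s t : D → X) (g : D → F) (x : X) :
    ((inc F s t) *ᵥ g) x = ∑ d, ((if s d = x then g d else 0) - (if t d = x then g d else 0)) := by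
  show ∑ d, ((if s d = x then (1 : F) else 0) - (if t d = x then 1 else 0)) * g d = _
  refine Finset.sum_congr rfl (fun d _ => ?_)
  simp only [sub_mul, ite_mul, one_mul, zero_mul]

/-- connectedness gives rank at least `|X| - 1` -/
theorem card_le_rank_inc (s t : D → X)
    (hconn : ∀ h : X → F, (∀ d, h (s d) = h (t d)) → ∀ x y, h x = h y) :
    Fintype.card X ≤ (inc F s t).rank + 1 := by
  have h1 : (inc F s t)ᵀ.rank = (inc F s t).rank := Matrix.rank_transpose _
  have h2 := LinearMap.finrank_range_add_finrank_ker ((inc F s t)ᵀ.mulVecLin)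
  rw [Module.finrank_fintype_fun_eq_card] at h2
  have h3 : Module.finrank F (LinearMap.ker ((inc F s t)ᵀ.mulVecLin)) ≤ 1 := by
    have hle : LinearMap.ker ((inc F s t)ᵀ.mulVecLin) ≤ Submodule.span F {fun _ : X => (1 : F)} := by
      intro h hh
      rw [LinearMap.mem_ker, Matrix.mulVecLin_apply, inc_transpose_mulVec] at hh
      have hc := hconn h (fun d => sub_eq_zero.1 (congrFun hh d))
      rw [Submodule.mem_span_singleton]
      rcases isEmpty_or_nonempty X with hX | ⟨⟨x0⟩⟩
      · exact ⟨0, by funext x; exact hX.elim x⟩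
      · refine ⟨h x0, ?_⟩
        funext x
        simp [hc x x0]
    refine (Submodule.finrank_mono hle).trans ((finrank_span_le_card _).trans ?_)
    rw [Set.toFinset_card, Set.card_singleton]
  have h4 : (inc F s t)ᵀ.rank = Module.finrank F (LinearMap.range ((inc F s t)ᵀ.mulVecLin)) := rfl
  omega

/-- EXACTNESS: if the composition vanishes and Euler's inequality holds, every cocycle is a
coboundary -/
theorem exists_primitive (s t : D → X) (l r : D → Y)
    (hX : ∀ h : X → F, (∀ d, h (s d) = h (t d)) → ∀ x y, h x = h y)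
    (hY : ∀ h : Y → F, (∀ d, h (l d) = h (r d)) → ∀ x y, h x = h y)
    (hzero : ∀ f : Y → F, (inc F s t) *ᵥ (fun d => f (l d) - f (r d)) = 0)
    (hE : Fintype.card D + 2 ≤ Fintype.card X + Fintype.card Y)
    (g : D → F) (hg : (inc F s t) *ᵥ g = 0) : ∃ f : Y → F, ∀ d, f (l d) - f (r d) = g d := by
  have r1 := card_le_rank_inc (F := F) s t hX
  have r2 := card_le_rank_inc (F := F) l r hY
  have h2 := LinearMap.finrank_range_add_finrank_ker ((inc F s t).mulVecLin)
  rw [Module.finrank_fintype_fun_eq_card] at h2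
  have h3 : (inc F s t).rank = Module.finrank F (LinearMap.range ((inc F s t).mulVecLin)) := rfl
  have h4 : (inc F l r)ᵀ.rank = (inc F l r).rank := Matrix.rank_transpose _
  have h5 : (inc F l r)ᵀ.rank = Module.finrank F (LinearMap.range ((inc F l r)ᵀ.mulVecLin)) := rfl
  have hle : LinearMap.range ((inc F l r)ᵀ.mulVecLin) ≤ LinearMap.ker ((inc F s t).mulVecLin) := by
    rintro _ ⟨f, rfl⟩
    rw [LinearMap.mem_ker, Matrix.mulVecLin_apply, Matrix.mulVecLin_apply, inc_transpose_mulVec]
    exact hzero f
  have heq : LinearMap.range ((inc F l r)ᵀ.mulVecLin) = LinearMap.ker ((inc F s t).mulVecLin) := by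
    refine Submodule.eq_of_le_of_finrank_le hle ?_
    omega
  have hmem : g ∈ LinearMap.ker ((inc F s t).mulVecLin) := by
    rw [LinearMap.mem_ker, Matrix.mulVecLin_apply]; exact hg
  rw [← heq] at hmem
  obtain ⟨f, hf⟩ := hmem
  rw [Matrix.mulVecLin_apply, inc_transpose_mulVec] at hf
  exact ⟨f, fun d => congrFun hf d⟩

end exact

end Crest.Agent.R039.Map
end

-- ▼ part R039/Map834B
section

/-!
# Row 39: the face 3-colouring of a cubic bipartite graph with a genus-zero rotation system
-/

set_option autoImplicit false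

namespace Crest.Agent.R039.Map

open Crest.CombinatoricsR.PlanarMap SimpleGraph
open scoped Matrix

section faces

variable {V : Type*} {G : SimpleGraph V}

/-- the face permutation "reverse, then rotate" -/
def phi (R : RotationSystem G) : Equiv.Perm G.Dart := (dartSwap G).trans R.rot

/-- the faces -/
abbrev Face (R : RotationSystem G) : Type _ := Quotient (Equiv.Perm.SameCycle.setoid (phi R))

/-- the face at the left of a dart -/
def face (R : RotationSystem G) (d : G.Dart) : Face R := Quotient.mk _ d

variable (R : RotationSystem G)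

theorem phi_apply (d : G.Dart) : phi R d = R.rot d.symm := rfl

theorem face_eq_iff {d d' : G.Dart} : face R d = face R d' ↔ (phi R).SameCycle d d' := by
  unfold face
  rw [Quotient.eq]
  rfl

theorem face_phi (d : G.Dart) : face R (phi R d) = face R d := by
  rw [face_eq_iff]
  exact Equiv.Perm.sameCycle_apply_left.2 (Equiv.Perm.SameCycle.refl _ _)

theorem face_rot (d : G.Dart) : face R (R.rot d) = face R d.symm := by
  have h := face_phi R d.symm
  rwa [phi_apply, Dart.symm_symm] at h

theorem face_surj (q : Face R) : ∃ d, face R d = q := Quotient.exists_rep q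

/-- a function on darts that is invariant under `rot` is constant on the darts at a vertex -/
theorem rot_invariant {A : Type*} (g : G.Dart → A) (hg : ∀ d, g (R.rot d) = g d) {d d' : G.Dart}
    (h : d.fst = d'.fst) : g d = g d' := by
  obtain ⟨i, hi⟩ := R.rot_sameCycle d d' h
  have key : ∀ n : ℤ, ∀ d, g ((R.rot ^ n) d) = g d := by
    intro n
    induction n with
    | zero => intro d; rfl
    | succ n ih =>
      intro d
      have : (R.rot ^ ((n : ℤ) + 1)) d = (R.rot ^ (n : ℤ)) (R.rot d) := by
        rw [zpow_add, zpow_one, Equiv.Perm.mul_apply]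
      rw [this, ih, hg]
    | pred n ih =>
      intro d
      have : (R.rot ^ (-(n : ℤ) - 1)) d = (R.rot ^ (-(n : ℤ))) (R.rot⁻¹ d) := by
        rw [sub_eq_add_neg, zpow_add, zpow_neg_one, Equiv.Perm.mul_apply]
      rw [this, ih, ← hg (R.rot⁻¹ d)]
      show g (R.rot (R.rot.symm d)) = g d
      rw [Equiv.apply_symm_apply]
  rw [← hi, key]

/-- dual connectedness -/
theorem face_connected {A : Type*} (hc : G.Connected) (h : Face R → A)
    (hh : ∀ d, h (face R d) = h (face R d.symm)) (x y : Face R) : h x = h y := by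
  have h1 : ∀ d, h (face R (R.rot d)) = h (face R d) := by
    intro d; rw [face_rot, ← hh]
  have h2 : ∀ u v, G.Walk u v → ∀ d d' : G.Dart, d.fst = u → d'.fst = v →
      h (face R d) = h (face R d') := by
    intro u v p
    induction p with
    | nil =>
      intro d d' e1 e2
      exact rot_invariant R (fun d => h (face R d)) h1 (e1.trans e2.symm)
    | @cons a b c hab q ih =>
      intro d d' e1 e2
      let e : G.Dart := ⟨(a, b), hab⟩
      have e3 : h (face R d) = h (face R e) :=
        rot_invariant R (fun d => h (face R d)) h1 e1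
      rw [e3, hh e]
      exact ih e.symm d' rfl e2
  obtain ⟨d, rfl⟩ := face_surj R x
  obtain ⟨d', rfl⟩ := face_surj R y
  obtain ⟨p⟩ := hc.preconnected d.fst d'.fst
  exact h2 _ _ p d d' rfl rfl

end faces

section height

variable {V : Type*} [Fintype V] [DecidableEq V] {G : SimpleGraph V} [DecidableRel G.Adj]

/-- the white darts -/
abbrev WD (c : G.Coloring (Fin 2)) : Type _ := {d : G.Dart // c d.fst = 0}

omit [Fintype V] [DecidableEq V] [DecidableRel G.Adj] in
theorem col_snd (c : G.Coloring (Fin 2)) (d : G.Dart) : c d.fst = 0 ↔ ¬ c d.snd = 0 := by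
  have h := c.valid d.adj
  constructor
  · intro h1 h2; exact h (h1.trans h2.symm)
  · intro h1; omega

omit [DecidableEq V] in
theorem sum_WD {A : Type*} [AddCommMonoid A] (c : G.Coloring (Fin 2)) (g : G.Dart → A) :
    ∑ d : WD c, g d.1 = ∑ d : G.Dart, if c d.fst = 0 then g d else 0 := by
  classical
  rw [← Finset.sum_filter]
  exact (Finset.sum_subtype _ (by simp) g).symm

omit [DecidableEq V] in
theorem sum_symm {A : Type*} [AddCommMonoid A] (g : G.Dart → A) :
    ∑ d : G.Dart, g d.symm = ∑ d : G.Dart, g d :=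
  Equiv.sum_comp (dartSwap G) g

omit [DecidableEq V] in
theorem sum_BD (c : G.Coloring (Fin 2)) (g : G.Dart → ℕ) :
    ∑ d : G.Dart, (if c d.fst = 0 then g d else 0) + ∑ d : G.Dart, (if c d.fst = 0 then 0 else g d)
      = ∑ d : G.Dart, g d := by
  rw [← Finset.sum_add_distrib]
  refine Finset.sum_congr rfl (fun d _ => ?_)
  split_ifs <;> simp

omit [DecidableEq V] in
theorem card_WD (c : G.Coloring (Fin 2)) : Fintype.card (WD c) = Nat.card G.edgeSet := by
  have h1 : Fintype.card (WD c) = ∑ d : G.Dart, if c d.fst = 0 then 1 else 0 := by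
    rw [← sum_WD c (fun _ => 1)]
    simp
  have h2 : Fintype.card (WD c) = ∑ d : G.Dart, if c d.fst = 0 then 0 else 1 := by
    rw [h1, ← sum_symm]
    refine Finset.sum_congr rfl (fun d _ => ?_)
    have h5 : (c d.symm.fst = 0) ↔ ¬ (c d.fst = 0) := by
      show (c d.snd = 0) ↔ ¬ (c d.fst = 0)
      have := col_snd c d
      tauto
    by_cases h6 : c d.fst = 0
    · rw [if_pos h6, if_neg (fun h7 => h5.1 h7 h6)]
    · rw [if_neg h6, if_pos (h5.2 h6)]
  have h3 := sum_BD c (fun _ => 1)
  rw [← h1, ← h2, Finset.sum_const, Finset.card_univ, smul_eq_mul, mul_one] at h3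
  have h4 := G.dart_card_eq_twice_card_edges
  rw [Nat.card_eq_fintype_card, ← SimpleGraph.edgeFinset_card]
  omega

/-- vertices have degree `3`, as a sum over darts -/
theorem sum_deg (h3 : G.IsRegularOfDegree 3) (x : V) :
    ∑ d : G.Dart, (if d.fst = x then (1 : ℕ) else 0) = 3 := by
  rw [← Finset.sum_filter, Finset.sum_const, smul_eq_mul, mul_one,
    G.dart_fst_fiber_card_eq_degree x, h3 x]

open Matrix in
/-- the incidence matrix of the graph applied to a function on white darts that extends to an
antisymmetric function -/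
theorem inc_WD {F : Type*} [Field F] (c : G.Coloring (Fin 2)) (a : G.Dart → F)
    (ha : ∀ d, a d.symm = - a d) (x : V) :
    ((inc F (fun d : WD c => d.1.fst) (fun d : WD c => d.1.snd)) *ᵥ (fun d => a d.1)) x
      = ∑ d : G.Dart, if d.fst = x then a d else 0 := by
  rw [inc_mulVec]
  rw [sum_WD c (fun d => ((if d.fst = x then a d else 0) - (if d.snd = x then a d else 0)))]
  have e1 : ∀ d : G.Dart, (if c d.fst = 0 then ((if d.fst = x then a d else 0)
      - (if d.snd = x then a d else 0)) else 0)
      = (if c d.fst = 0 then (if d.fst = x then a d else 0) else 0)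
        - (if c d.fst = 0 then (if d.snd = x then a d else 0) else 0) := by
    intro d; split_ifs <;> simp
  rw [Finset.sum_congr rfl (fun d _ => e1 d), Finset.sum_sub_distrib]
  rw [← sum_symm (fun d => if c d.fst = 0 then (if d.snd = x then a d else 0) else 0),
    ← Finset.sum_sub_distrib]
  refine Finset.sum_congr rfl (fun d _ => ?_)
  have e2 : (if c d.symm.fst = 0 then (if d.symm.snd = x then a d.symm else 0) else 0)
      = (if c d.fst = 0 then 0 else (if d.fst = x then - a d else 0)) := by
    rw [ha]
    show (if c d.snd = 0 then (if d.fst = x then - a d else 0) else 0) = _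
    have := col_snd c d
    by_cases h6 : c d.fst = 0
    · rw [if_pos h6, if_neg (this.1 h6)]
    · have h7 : c d.snd = 0 := by tauto
      rw [if_neg h6, if_pos h7]
  rw [e2]
  split_ifs <;> simp

variable (R : RotationSystem G)

noncomputable instance : Fintype (Face R) := by
  classical
  exact Fintype.ofFinite _

/-- THE FACE COLOURING -/
theorem exists_height (hcubic : G.IsRegularOfDegree 3) (hc : G.Connected)
    (hE : (Fintype.card V : ℤ) - (Nat.card G.edgeSet : ℤ) + (R.numFaces : ℤ) = 2)
    (c : G.Coloring (Fin 2)) :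
    ∃ f : Face R → ZMod 3, ∀ d : G.Dart, c d.fst = 0 → f (face R d) - f (face R d.symm) = 1 := by
  classical
  have hcard : R.numFaces = Fintype.card (Face R) := by
    rw [RotationSystem.numFaces, ← Nat.card_eq_fintype_card]; rfl
  have hE' : Fintype.card (WD c) + 2 ≤ Fintype.card V + Fintype.card (Face R) := by
    have := card_WD c
    rw [hcard] at hE
    omega
  have hX : ∀ h : V → ZMod 3, (∀ d : WD c, h d.1.fst = h d.1.snd) → ∀ x y, h x = h y := by
    intro h hh
    have h1 : ∀ u v, G.Walk u v → h u = h v := by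
      intro u v p
      induction p with
      | nil => rfl
      | @cons a b c' hab q ih =>
        rw [← ih]
        by_cases hca : c a = 0
        · exact hh ⟨⟨(a, b), hab⟩, hca⟩
        · have := col_snd c ⟨(a, b), hab⟩
          have hcb : c b = 0 := by
            by_contra hcb
            exact hca (this.2 hcb)
          exact (hh ⟨⟨(b, a), hab.symm⟩, hcb⟩).symm
    intro x y
    obtain ⟨p⟩ := hc.preconnected x y
    exact h1 x y p
  have hY : ∀ h : Face R → ZMod 3, (∀ d : WD c, h (face R d.1) = h (face R d.1.symm)) →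
      ∀ x y, h x = h y := by
    intro h hh
    refine face_connected R hc h (fun d => ?_)
    by_cases hd : c d.fst = 0
    · exact hh ⟨d, hd⟩
    · have hd' : c d.symm.fst = 0 := by
        by_contra h'
        exact hd ((col_snd c d).2 h')
      have := hh ⟨d.symm, hd'⟩
      simp only [Dart.symm_symm] at this
      exact this.symm
  have hZ : ∀ g : Face R → ZMod 3, (inc (ZMod 3) (fun d : WD c => d.1.fst)
      (fun d : WD c => d.1.snd)) *ᵥ (fun d => g (face R d.1) - g (face R d.1.symm)) = 0 := by
    intro g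
    funext x
    rw [inc_WD c (fun d => g (face R d) - g (face R d.symm)) (fun d => by
      rw [Dart.symm_symm]; ring)]
    have e1 : ∀ d : G.Dart, (if d.fst = x then g (face R d) - g (face R d.symm) else 0)
        = (if d.fst = x then g (face R d) else 0)
          - (if (R.rot d).fst = x then g (face R (R.rot d)) else 0) := by
      intro d
      rw [R.rot_fst, face_rot]
      split_ifs <;> simp
    rw [Finset.sum_congr rfl (fun d _ => e1 d), Finset.sum_sub_distrib,
      Equiv.sum_comp R.rot (fun d => if d.fst = x then g (face R d) else 0), sub_self]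
    rfl
  have hO : (inc (ZMod 3) (fun d : WD c => d.1.fst) (fun d : WD c => d.1.snd)) *ᵥ
      (fun _ => 1) = 0 := by
    funext x
    have h1 := inc_WD (F := ZMod 3) c (fun d => if c d.fst = 0 then 1 else -1) (fun d => by
      show (if c d.snd = 0 then (1 : ZMod 3) else -1) = _
      have := col_snd c d
      by_cases h6 : c d.fst = 0
      · rw [if_pos h6, if_neg (this.1 h6)]
      · have h7 : c d.snd = 0 := by tauto
        rw [if_neg h6, if_pos h7, neg_neg]) x
    have h2 : (fun d : WD c => (if c d.1.fst = 0 then (1 : ZMod 3) else -1)) = fun _ => 1 := by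
      funext d; rw [if_pos d.2]
    rw [h2] at h1
    rw [h1]
    have h3 : ∀ d : G.Dart, (if d.fst = x then (if c d.fst = 0 then (1 : ZMod 3) else -1) else 0)
        = (if c x = 0 then (1 : ZMod 3) else -1) * ((if d.fst = x then (1 : ℕ) else 0 : ℕ) : ZMod 3) := by
      intro d
      by_cases h : d.fst = x
      · rw [if_pos h, if_pos h, h, Nat.cast_one, mul_one]
      · rw [if_neg h, if_neg h, Nat.cast_zero, mul_zero]
    rw [Finset.sum_congr rfl (fun d _ => h3 d), ← Finset.mul_sum, ← Nat.cast_sum, sum_deg hcubic]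
    have : ((3 : ℕ) : ZMod 3) = 0 := by decide
    rw [this, mul_zero]
    rfl
  obtain ⟨f, hf⟩ := exists_primitive (F := ZMod 3) (fun d : WD c => d.1.fst)
    (fun d : WD c => d.1.snd) (fun d : WD c => face R d.1) (fun d : WD c => face R d.1.symm)
    hX hY hZ hE' (fun _ => 1) hO
  exact ⟨f, fun d hd => hf ⟨d, hd⟩⟩

end height

end Crest.Agent.R039.Map
end

-- ▼ part R039/Ext282
section

/-!
# Row 39 (Barnette): extraction of a Hamiltonian cycle from a non-zero cofactor

`Bic W B V` : bicubic coloured map: three bijections `e c : W ≃ B` (the edge of colour `c` at a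
white face), the three vertices `p c w`, `q c b` of the dual triangulation at a face.
`K s w b = ∑ c, [e c w = b] (s (p (c+1) w) - s (p (c+2) w))` : zero row and column sums.
`isHamiltonian_of_adjugate` : if `s` is `0/1`-valued and one cofactor of `K s` is non-zero, then
the graph has a Hamiltonian cycle.
`isHamiltonian_of_coeff` : if a squarefree monomial of degree `N - 1` has non-zero coefficient in
the generic cofactor, then the graph has a Hamiltonian cycle.
-/

set_option autoImplicit false

namespace Crest.Agent.R039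

open Equiv Matrix

/-! ### one alternating cycle from a one-dimensional kernel -/

section kernel

variable {W B : Type*} [Fintype W] [Fintype B] [DecidableEq W] [DecidableEq B]




end kernel

/-! ### the matrix of a bicubic coloured map -/

/-- bicubic coloured map with labelled dual vertices -/
structure Bic (W B V : Type*) where
  /-- the edge of colour `c` at a white face -/
  e : ZMod 3 → W ≃ B
  /-- the dual vertex of colour `c` at a white face -/
  p : ZMod 3 → W → V
  /-- the dual vertex of colour `c` at a black face -/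
  q : ZMod 3 → B → V
  /-- the edge of colour `c'` separates the dual vertices of the other two colours -/
  hpq : ∀ c c' w, c' ≠ c → q c (e c' w) = p c w

namespace Bic

variable {W B V : Type*} [DecidableEq B]

/-- the matrix `K(s)` -/
def K (M : Bic W B V) {R : Type*} [CommRing R] (s : V → R) : Matrix W B R := fun w b =>
  ∑ c : ZMod 3, if M.e c w = b then s (M.p (c + 1) w) - s (M.p (c + 2) w) else 0


theorem sum_zmod3 {A : Type*} [AddCommMonoid A] (f : ZMod 3 → A) :
    ∑ c, f c = f 0 + f 1 + f 2 := Fin.sum_univ_three f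

variable (M : Bic W B V)







/-! ### coefficient version -/







end Bic

end Crest.Agent.R039
end

-- ▼ part R039/Map834C
section

/-!
# Row 39: S0053 data => coloured bicubic map

From a cubic graph with a proper 2-colouring `c`, a rotation system `R` and a face colouring `f`
with `f (left) - f (right) = 1` along white darts (`Map.exists_height`):
* `col d` : colour of an edge, `nb k v` : the neighbour of `v` along the edge of colour `k`;
* `e k : W ≃ B`, `bic : Bic W B (Face R)`, `p_eq_iff`, `card_face`.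
-/

set_option autoImplicit false

namespace Crest.Agent.R039.Map

open Crest.CombinatoricsR.PlanarMap SimpleGraph

/-- the data: colouring, rotation system, face colouring -/
structure Data (V : Type*) [Fintype V] [DecidableEq V] (G : SimpleGraph V) [DecidableRel G.Adj] where
  hcubic : G.IsRegularOfDegree 3
  hconn : G.Connected
  c : G.Coloring (Fin 2)
  R : RotationSystem G
  f : Face R → ZMod 3
  hf : ∀ d : G.Dart, c d.fst = 0 → f (face R d) - f (face R d.symm) = 1
  hE : (Fintype.card V : ℤ) - (Nat.card G.edgeSet : ℤ) + (R.numFaces : ℤ) = 2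

theorem exists_data {V : Type*} [Fintype V] [DecidableEq V] (G : SimpleGraph V)
    [DecidableRel G.Adj] (hcubic : G.IsRegularOfDegree 3) (hbip : G.Colorable 2)
    (hpl : IsPlanarMap G) : Nonempty (Data V G) := by
  obtain ⟨hconn, R, hE⟩ := hpl
  obtain ⟨c⟩ := hbip
  obtain ⟨f, hf⟩ := exists_height R hcubic hconn hE c
  exact ⟨⟨hcubic, hconn, c, R, f, hf, hE⟩⟩

namespace Data

variable {V : Type*} [Fintype V] [DecidableEq V] {G : SimpleGraph V} [DecidableRel G.Adj]
  (M : Data V G)

theorem c_snd (d : G.Dart) : M.c d.fst = 0 ↔ ¬ M.c d.snd = 0 := col_snd M.c d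

theorem c_symm (d : G.Dart) (h : ¬ M.c d.fst = 0) : M.c d.symm.fst = 0 := by
  show M.c d.snd = 0
  by_contra h'
  exact h ((M.c_snd d).2 h')

/-- colour of the edge of a dart -/
def col (d : G.Dart) : ZMod 3 := - (M.f (face M.R d) + M.f (face M.R d.symm))

theorem col_symm (d : G.Dart) : M.col d.symm = M.col d := by
  unfold col; rw [Dart.symm_symm, add_comm]

theorem f_symm_white {d : G.Dart} (h : M.c d.fst = 0) :
    M.f (face M.R d.symm) = M.f (face M.R d) - 1 := by
  rw [← M.hf d h]; ring

theorem f_symm_black {d : G.Dart} (h : ¬ M.c d.fst = 0) :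
    M.f (face M.R d.symm) = M.f (face M.R d) + 1 := by
  have := M.hf d.symm (M.c_symm d h)
  rw [Dart.symm_symm] at this
  rw [← this]; ring

theorem z3 (x : ZMod 3) : -(x + (x - 1)) = x + 1 := by revert x; decide
theorem z3' (x : ZMod 3) : -(x + (x + 1)) = x - 1 := by revert x; decide

theorem col_white {d : G.Dart} (h : M.c d.fst = 0) : M.col d = M.f (face M.R d) + 1 := by
  unfold col; rw [M.f_symm_white h, z3]

theorem col_black {d : G.Dart} (h : ¬ M.c d.fst = 0) : M.col d = M.f (face M.R d) - 1 := by
  unfold col; rw [M.f_symm_black h, z3']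

theorem col_rot_white {d : G.Dart} (h : M.c d.fst = 0) : M.col (M.R.rot d) = M.col d - 1 := by
  have h' : M.c (M.R.rot d).fst = 0 := by rw [M.R.rot_fst]; exact h
  rw [M.col_white h', face_rot, M.f_symm_white h, M.col_white h]; ring

theorem col_rot_black {d : G.Dart} (h : ¬ M.c d.fst = 0) : M.col (M.R.rot d) = M.col d + 1 := by
  have h' : ¬ M.c (M.R.rot d).fst = 0 := by rw [M.R.rot_fst]; exact h
  rw [M.col_black h', face_rot, M.f_symm_black h, M.col_black h]; ring

theorem exists_dart (k : ZMod 3) (v : V) : ∃ d : G.Dart, d.fst = v ∧ M.col d = k := by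
  have h0 : ∃ d : G.Dart, d.fst = v := by
    have h := G.dart_fst_fiber_card_eq_degree v
    rw [M.hcubic v] at h
    obtain ⟨d, hd⟩ := Finset.card_pos.1 (by rw [h]; norm_num : 0 < (Finset.univ.filter
      (fun d : G.Dart => d.fst = v)).card)
    exact ⟨d, (Finset.mem_filter.1 hd).2⟩
  obtain ⟨d, hd⟩ := h0
  have key : ∀ x k : ZMod 3, k = x ∨ k = x - 1 ∨ k = x - 1 - 1 := by decide
  have key' : ∀ x k : ZMod 3, k = x ∨ k = x + 1 ∨ k = x + 1 + 1 := by decide
  have e1 : (M.R.rot d).fst = v := by rw [M.R.rot_fst, hd]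
  have e2 : (M.R.rot (M.R.rot d)).fst = v := by rw [M.R.rot_fst, e1]
  by_cases hc : M.c d.fst = 0
  · have hc1 : M.c (M.R.rot d).fst = 0 := by rw [M.R.rot_fst]; exact hc
    rcases key (M.col d) k with h | h | h
    · exact ⟨d, hd, h.symm⟩
    · exact ⟨_, e1, by rw [M.col_rot_white hc, h]⟩
    · exact ⟨_, e2, by rw [M.col_rot_white hc1, M.col_rot_white hc, h]⟩
  · have hc1 : ¬ M.c (M.R.rot d).fst = 0 := by rw [M.R.rot_fst]; exact hc
    rcases key' (M.col d) k with h | h | h
    · exact ⟨d, hd, h.symm⟩
    · exact ⟨_, e1, by rw [M.col_rot_black hc, h]⟩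
    · exact ⟨_, e2, by rw [M.col_rot_black hc1, M.col_rot_black hc, h]⟩

theorem dart_unique {d d' : G.Dart} (h : d.fst = d'.fst) (hc : M.col d = M.col d') : d = d' := by
  classical
  let F : {x : G.Dart // x.fst = d'.fst} → ZMod 3 := fun x => M.col x.1
  have hs : Function.Surjective F := by
    intro k
    obtain ⟨x, hx, hk⟩ := M.exists_dart k d'.fst
    exact ⟨⟨x, hx⟩, hk⟩
  have hcard : Fintype.card {x : G.Dart // x.fst = d'.fst} = Fintype.card (ZMod 3) := by
    rw [Fintype.card_subtype, G.dart_fst_fiber_card_eq_degree, M.hcubic, ZMod.card]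
  have hb := (Fintype.bijective_iff_surjective_and_card F).2 ⟨hs, hcard⟩
  have := hb.1 (a₁ := ⟨d, h⟩) (a₂ := ⟨d', rfl⟩) hc
  exact congrArg Subtype.val this

/-- the dart of colour `k` at `v` -/
noncomputable def dt (k : ZMod 3) (v : V) : G.Dart := (M.exists_dart k v).choose

theorem dt_fst (k : ZMod 3) (v : V) : (M.dt k v).fst = v := (M.exists_dart k v).choose_spec.1
theorem dt_col (k : ZMod 3) (v : V) : M.col (M.dt k v) = k := (M.exists_dart k v).choose_spec.2

theorem eq_dt {d : G.Dart} {k : ZMod 3} {v : V} (h1 : d.fst = v) (h2 : M.col d = k) :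
    d = M.dt k v :=
  M.dart_unique (h1.trans (M.dt_fst k v).symm) (h2.trans (M.dt_col k v).symm)

/-- the neighbour along the edge of colour `k` -/
noncomputable def nb (k : ZMod 3) (v : V) : V := (M.dt k v).snd

theorem dt_symm (k : ZMod 3) (v : V) : (M.dt k v).symm = M.dt k (M.nb k v) :=
  M.eq_dt rfl (by rw [M.col_symm, M.dt_col])

theorem nb_nb (k : ZMod 3) (v : V) : M.nb k (M.nb k v) = v := by
  show (M.dt k (M.nb k v)).snd = v
  rw [← M.dt_symm]
  exact M.dt_fst k v

theorem adj_nb (k : ZMod 3) (v : V) : G.Adj v (M.nb k v) := by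
  have := (M.dt k v).adj
  rwa [M.dt_fst] at this

theorem adj_iff (u v : V) : G.Adj u v ↔ ∃ k, M.nb k u = v := by
  constructor
  · intro h
    let d : G.Dart := ⟨(u, v), h⟩
    have : d = M.dt (M.col d) u := M.eq_dt rfl rfl
    exact ⟨M.col d, by show (M.dt (M.col d) u).snd = v; rw [← this]⟩
  · rintro ⟨k, rfl⟩
    exact M.adj_nb k u

theorem nb_ne {k k' : ZMod 3} (h : k ≠ k') (v : V) : M.nb k v ≠ M.nb k' v := by
  intro h'
  apply h
  have h1 : M.dt k v = M.dt k' v := by
    apply Dart.ext
    exact Prod.ext ((M.dt_fst k v).trans (M.dt_fst k' v).symm) h'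
  rw [← M.dt_col k v, h1, M.dt_col]

theorem c_nb (k : ZMod 3) (v : V) : M.c v = 0 ↔ ¬ M.c (M.nb k v) = 0 := by
  have := M.c_snd (M.dt k v)
  rw [M.dt_fst] at this
  exact this

/-- white vertices -/
abbrev W : Type _ := {v : V // M.c v = 0}
/-- black vertices -/
abbrev B : Type _ := {v : V // M.c v = 1}

theorem fin2 (x : Fin 2) : ¬ x = 0 ↔ x = 1 := by revert x; decide

/-- the perfect matching of colour `k` -/
noncomputable def e (k : ZMod 3) : M.W ≃ M.B where
  toFun w := ⟨M.nb k w.1, (fin2 _).1 ((M.c_nb k w.1).1 w.2)⟩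
  invFun b := ⟨M.nb k b.1, by
    by_contra h
    have h1 : ¬ M.c b.1 = 0 := (fin2 _).2 b.2
    exact h1 ((M.c_nb k b.1).2 h)⟩
  left_inv w := Subtype.ext (M.nb_nb k w.1)
  right_inv b := Subtype.ext (M.nb_nb k b.1)

@[simp] theorem e_val (k : ZMod 3) (w : M.W) : (M.e k w).1 = M.nb k w.1 := rfl
@[simp] theorem e_symm_val (k : ZMod 3) (b : M.B) : ((M.e k).symm b).1 = M.nb k b.1 := rfl

theorem rot_dt_white (k : ZMod 3) (w : M.W) : M.R.rot (M.dt k w.1) = M.dt (k - 1) w.1 := by
  have h : M.c (M.dt k w.1).fst = 0 := by rw [M.dt_fst]; exact w.2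
  refine M.eq_dt ?_ ?_
  · rw [M.R.rot_fst, M.dt_fst]
  · rw [M.col_rot_white h, M.dt_col]

theorem rot_dt_black (k : ZMod 3) (b : M.B) : M.R.rot (M.dt k b.1) = M.dt (k + 1) b.1 := by
  have h : ¬ M.c (M.dt k b.1).fst = 0 := by rw [M.dt_fst]; exact (fin2 _).2 b.2
  refine M.eq_dt ?_ ?_
  · rw [M.R.rot_fst, M.dt_fst]
  · rw [M.col_rot_black h, M.dt_col]

/-- the face of colour `i` at a white vertex -/
noncomputable def p (i : ZMod 3) (w : M.W) : Face M.R := face M.R (M.dt (i + 1) w.1)
/-- the face of colour `i` at a black vertex -/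
noncomputable def q (i : ZMod 3) (b : M.B) : Face M.R := face M.R (M.dt (i + 2) b.1)

theorem f_p (i : ZMod 3) (w : M.W) : M.f (M.p i w) = i := by
  have h : M.c (M.dt (i + 1) w.1).fst = 0 := by rw [M.dt_fst]; exact w.2
  have := M.col_white h
  rw [M.dt_col] at this
  exact (add_right_cancel this).symm

theorem q_e1 (i : ZMod 3) (w : M.W) : M.q i (M.e (i + 1) w) = M.p i w := by
  unfold p q
  have h1 : M.dt (i + 2) (M.e (i + 1) w).1 = M.R.rot (M.dt (i + 1) (M.e (i + 1) w).1) := by
    rw [M.rot_dt_black]; congr 1; ring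
  rw [h1, face_rot, e_val, ← M.dt_symm, Dart.symm_symm]

theorem q_e2 (i : ZMod 3) (w : M.W) : M.q i (M.e (i + 2) w) = M.p i w := by
  unfold p q
  rw [e_val, ← M.dt_symm, ← face_rot, M.rot_dt_white]
  congr 2; ring

/-- THE BICUBIC MAP -/
noncomputable def bic : Bic M.W M.B (Face M.R) where
  e := M.e
  p := M.p
  q := M.q
  hpq := by
    intro c c' w h
    have key : ∀ c c' : ZMod 3, c' ≠ c → c' = c + 1 ∨ c' = c + 2 := by decide
    rcases key c c' h with rfl | rfl
    · exact M.q_e1 c w
    · exact M.q_e2 c w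

/-- going around a face of colour `i`, on white vertices -/
noncomputable def pi (i : ZMod 3) : Equiv.Perm M.W := (M.e (i + 1)).trans (M.e (i + 2)).symm

theorem phi_dt_white (i : ZMod 3) (w : M.W) :
    phi M.R (M.dt (i + 1) w.1) = M.dt (i + 2) (M.e (i + 1) w).1 := by
  rw [phi_apply, M.dt_symm, ← e_val, M.rot_dt_black]
  congr 1; ring

theorem phi_dt_black (i : ZMod 3) (b : M.B) :
    phi M.R (M.dt (i + 2) b.1) = M.dt (i + 1) ((M.e (i + 2)).symm b).1 := by
  rw [phi_apply, M.dt_symm, ← e_symm_val, M.rot_dt_white]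
  congr 1; ring

theorem phi_sq (i : ZMod 3) (w : M.W) :
    phi M.R (phi M.R (M.dt (i + 1) w.1)) = M.dt (i + 1) (M.pi i w).1 := by
  rw [M.phi_dt_white, M.phi_dt_black]; rfl

theorem phi_pow (i : ZMod 3) (w : M.W) (m : ℕ) :
    ((phi M.R) ^ (2 * m)) (M.dt (i + 1) w.1) = M.dt (i + 1) (((M.pi i) ^ m) w).1 := by
  induction m with
  | zero => rfl
  | succ m ih =>
    have : 2 * (m + 1) = (2 * m + 1) + 1 := by ring
    rw [this, pow_succ', Equiv.Perm.mul_apply, pow_succ', Equiv.Perm.mul_apply, ih, M.phi_sq,
      pow_succ', Equiv.Perm.mul_apply]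

theorem p_eq_of_sameCycle {i : ZMod 3} {w w' : M.W} (h : (M.pi i).SameCycle w w') :
    M.p i w = M.p i w' := by
  obtain ⟨m, hm⟩ := h.exists_nat_pow_eq
  show face M.R _ = face M.R _
  rw [face_eq_iff]
  exact ⟨((2 * m : ℕ) : ℤ), by rw [zpow_natCast, M.phi_pow, hm]⟩

theorem p_eq_iff {i j : ZMod 3} {w w' : M.W} :
    M.p i w = M.p j w' ↔ i = j ∧ (M.pi i).SameCycle w w' := by
  constructor
  · intro h
    have h1 : i = j := by rw [← M.f_p i w, h, M.f_p]
    refine ⟨h1, ?_⟩
    subst h1
    have h2 : (phi M.R).SameCycle (M.dt (i + 1) w.1) (M.dt (i + 1) w'.1) := (face_eq_iff M.R).1 h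
    obtain ⟨n, hn⟩ := h2.exists_nat_pow_eq
    rcases Nat.even_or_odd' n with ⟨m, rfl | rfl⟩
    · rw [M.phi_pow] at hn
      have h3 : (((M.pi i) ^ m) w).1 = w'.1 := by
        have := congrArg (fun d : G.Dart => d.fst) hn
        simpa only [M.dt_fst] using this
      exact ⟨(m : ℤ), by rw [zpow_natCast]; exact Subtype.ext h3⟩
    · exfalso
      rw [pow_succ', Equiv.Perm.mul_apply, M.phi_pow, M.phi_dt_white] at hn
      have h3 : (M.e (i + 1) (((M.pi i) ^ m) w)).1 = w'.1 := by
        have := congrArg (fun d : G.Dart => d.fst) hn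
        simpa only [M.dt_fst] using this
      have h4 := (M.e (i + 1) (((M.pi i) ^ m) w)).2
      rw [h3, w'.2] at h4
      exact absurd h4 (by decide)
  · rintro ⟨rfl, h⟩
    exact M.p_eq_of_sameCycle h

theorem exists_p (x : Face M.R) : ∃ w, M.p (M.f x) w = x := by
  have h : ∃ i w, M.p i w = x := by
    obtain ⟨d, rfl⟩ := face_surj M.R x
    by_cases hc : M.c d.fst = 0
    · refine ⟨M.col d - 1, ⟨d.fst, hc⟩, ?_⟩
      show face M.R (M.dt (M.col d - 1 + 1) d.fst) = _
      rw [sub_add_cancel, ← M.eq_dt rfl rfl]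
    · have hc' : ¬ M.c (phi M.R d).fst ≠ 0 := by
        rw [phi_apply, M.R.rot_fst]
        intro h; exact h (M.c_symm d hc)
      have hc'' : M.c (phi M.R d).fst = 0 := by
        by_contra h; exact hc' h
      refine ⟨M.col (phi M.R d) - 1, ⟨(phi M.R d).fst, hc''⟩, ?_⟩
      show face M.R (M.dt (M.col (phi M.R d) - 1 + 1) (phi M.R d).fst) = _
      rw [sub_add_cancel, ← M.eq_dt rfl rfl, face_phi]
  obtain ⟨i, w, h⟩ := h
  have : i = M.f x := by rw [← h, M.f_p]
  exact ⟨w, this ▸ h⟩

/-- number of white vertices, darts, faces -/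
theorem card_W_B : Fintype.card M.W = Fintype.card M.B := Fintype.card_congr (M.e 0)

theorem card_V : Fintype.card V = 2 * Fintype.card M.W := by
  classical
  have h1 := Fintype.card_subtype_compl (fun v : V => M.c v = 0)
  have h2 : Fintype.card {v : V // ¬ M.c v = 0} = Fintype.card M.B :=
    Fintype.card_congr (Equiv.subtypeEquivRight (fun v => fin2 _))
  have h3 := Fintype.card_subtype_le (fun v : V => M.c v = 0)
  have h4 := M.card_W_B
  have h5 : Fintype.card M.W = Fintype.card {v : V // M.c v = 0} := rfl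
  omega

theorem card_edges : Nat.card G.edgeSet = 3 * Fintype.card M.W := by
  classical
  have h1 := G.sum_degrees_eq_twice_card_edges
  have h2 : ∑ v, G.degree v = 3 * Fintype.card V := by
    rw [Finset.sum_congr rfl (fun v _ => M.hcubic v), Finset.sum_const, Finset.card_univ,
      smul_eq_mul, mul_comm]
  have h3 := M.card_V
  rw [Nat.card_eq_fintype_card, ← SimpleGraph.edgeFinset_card]
  omega

theorem card_face : Fintype.card (Face M.R) = Fintype.card M.W + 2 := by
  have h1 : M.R.numFaces = Fintype.card (Face M.R) := by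
    rw [RotationSystem.numFaces, ← Nat.card_eq_fintype_card]; rfl
  have h2 := M.hE
  have h3 := M.card_V
  have h4 := M.card_edges
  omega

/-- the vertex set is `W ⊕ B` -/
noncomputable def vEquiv : M.W ⊕ M.B ≃ V :=
  (Equiv.sumCongr (Equiv.refl _) (Equiv.subtypeEquivRight (fun v => (fin2 (M.c v)).symm))).trans
    (Equiv.sumCompl (fun v => M.c v = 0))

theorem vEquiv_inl (w : M.W) : M.vEquiv (Sum.inl w) = w.1 := rfl
theorem vEquiv_inr (b : M.B) : M.vEquiv (Sum.inr b) = b.1 := rfl

theorem adj_e (k : ZMod 3) (w : M.W) :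
    G.Adj (M.vEquiv (Sum.inl w)) (M.vEquiv (Sum.inr (M.bic.e k w))) := by
  rw [vEquiv_inl, vEquiv_inr]
  exact M.adj_nb k w.1

end Data

end Crest.Agent.R039.Map
end

-- ▼ part R039/Map834D
section

/-!
# Row 39: exactness in both directions in coloured coordinates; 3-connected => simple

* `Data.primal_exact` : a function `g k w` on edges with zero sum at every white and every black
  vertex is a difference of a function on faces.
* `Data.dual_exact` : a function `g k w` on edges whose alternating sum around every face is zero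
  is a difference of a function on vertices.
* `Data.simple` : if `G` is 3-connected, two different faces share at most one edge.
-/

set_option autoImplicit false

namespace Crest.Agent.R039.Map

open Crest.CombinatoricsR.PlanarMap SimpleGraph
open scoped Matrix

section dual

variable {D X Y F : Type*} [Fintype D] [Fintype X] [Fintype Y] [DecidableEq X] [DecidableEq Y]
  [Field F]

theorem zero_transpose (s t : D → X) (l r : D → Y)
    (hzero : ∀ f : Y → F, (inc F s t) *ᵥ (fun d => f (l d) - f (r d)) = 0) (f : X → F) :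
    (inc F l r) *ᵥ (fun d => f (s d) - f (t d)) = 0 := by
  have h1 : inc F s t * (inc F l r)ᵀ = 0 := by
    apply Matrix.ext_of_mulVec_single
    intro y
    rw [← Matrix.mulVec_mulVec, inc_transpose_mulVec, hzero, Matrix.zero_mulVec]
  have h2 : inc F l r * (inc F s t)ᵀ = 0 := by
    rw [← Matrix.transpose_eq_zero, Matrix.transpose_mul, Matrix.transpose_transpose, h1]
  rw [← inc_transpose_mulVec, Matrix.mulVec_mulVec, h2, Matrix.zero_mulVec]

end dual

noncomputable instance {V : Type*} {G : SimpleGraph V} (R : RotationSystem G) :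
    DecidableEq (Face R) := Classical.decEq _

namespace Data

variable {V : Type*} [Fintype V] [DecidableEq V] {G : SimpleGraph V} [DecidableRel G.Adj]
  (M : Data V G)

theorem conn_V {A : Type*} (h : V → A) (hh : ∀ d : WD M.c, h d.1.fst = h d.1.snd) (x y : V) :
    h x = h y := by
  have h1 : ∀ u v, G.Walk u v → h u = h v := by
    intro u v p
    induction p with
    | nil => rfl
    | @cons a b c' hab q ih =>
      rw [← ih]
      by_cases hca : M.c a = 0
      · exact hh ⟨⟨(a, b), hab⟩, hca⟩
      · have := col_snd M.c ⟨(a, b), hab⟩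
        have hcb : M.c b = 0 := by
          by_contra hcb
          exact hca (this.2 hcb)
        exact (hh ⟨⟨(b, a), hab.symm⟩, hcb⟩).symm
  obtain ⟨p⟩ := M.hconn.preconnected x y
  exact h1 x y p

theorem conn_Face {A : Type*} (h : Face M.R → A)
    (hh : ∀ d : WD M.c, h (face M.R d.1) = h (face M.R d.1.symm)) (x y : Face M.R) :
    h x = h y := by
  refine face_connected M.R M.hconn h (fun d => ?_) x y
  by_cases hd : M.c d.fst = 0
  · exact hh ⟨d, hd⟩
  · have := hh ⟨d.symm, M.c_symm d hd⟩
    simp only [Dart.symm_symm] at this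
    exact this.symm

theorem euler_le : Fintype.card (WD M.c) + 2 ≤ Fintype.card V + Fintype.card (Face M.R) := by
  have h1 := card_WD M.c
  have h2 := M.card_edges
  have h3 := M.card_V
  have h4 := M.card_face
  omega

theorem hzero {F : Type*} [Field F] (g : Face M.R → F) :
    (inc F (fun d : WD M.c => d.1.fst) (fun d : WD M.c => d.1.snd)) *ᵥ
      (fun d => g (face M.R d.1) - g (face M.R d.1.symm)) = 0 := by
  funext x
  rw [inc_WD M.c (fun d => g (face M.R d) - g (face M.R d.symm)) (fun d => by
    rw [Dart.symm_symm]; ring)]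
  have e1 : ∀ d : G.Dart, (if d.fst = x then g (face M.R d) - g (face M.R d.symm) else 0)
      = (if d.fst = x then g (face M.R d) else 0)
        - (if (M.R.rot d).fst = x then g (face M.R (M.R.rot d)) else 0) := by
    intro d
    rw [M.R.rot_fst, face_rot]
    split_ifs <;> simp
  rw [Finset.sum_congr rfl (fun d _ => e1 d), Finset.sum_sub_distrib,
    Equiv.sum_comp M.R.rot (fun d => if d.fst = x then g (face M.R d) else 0), sub_self]
  rfl

/-- white darts are pairs (white vertex, colour) -/
noncomputable def wdEquiv : M.W × ZMod 3 ≃ WD M.c where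
  toFun x := ⟨M.dt x.2 x.1.1, by rw [M.dt_fst]; exact x.1.2⟩
  invFun d := (⟨d.1.fst, d.2⟩, M.col d.1)
  left_inv x := by
    refine Prod.ext (Subtype.ext ?_) ?_
    · exact M.dt_fst _ _
    · exact M.dt_col _ _
  right_inv d := Subtype.ext (M.eq_dt rfl rfl).symm

theorem face_dt (k : ZMod 3) (w : M.W) : face M.R (M.dt k w.1) = M.p (k - 1) w := by
  unfold p; rw [sub_add_cancel]

theorem face_dt_symm (k : ZMod 3) (w : M.W) : face M.R (M.dt k w.1).symm = M.p (k + 1) w := by
  unfold p
  rw [← face_rot, M.rot_dt_white]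
  congr 2
  have : (1 : ZMod 3) + 1 = -1 := by decide
  rw [add_assoc, this, sub_eq_add_neg]


/-- EXACTNESS, dual form -/
theorem dual_exact {F : Type*} [Field F] (g : ZMod 3 → M.W → F)
    (hx : ∀ i w0, ∑ w : M.W, (if M.p i w = M.p i w0 then g (i + 1) w - g (i + 2) w else 0) = 0) :
    ∃ h : V → F, ∀ k (w : M.W), h w.1 - h (M.e k w).1 = g k w := by
  obtain ⟨h, hh⟩ := exists_primitive (F := F) (fun d : WD M.c => face M.R d.1)
    (fun d : WD M.c => face M.R d.1.symm) (fun d : WD M.c => d.1.fst)
    (fun d : WD M.c => d.1.snd) (fun h hh => M.conn_Face h hh)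
    (fun h hh => M.conn_V h hh) (zero_transpose _ _ _ _ M.hzero)
    (by have := M.euler_le; omega)
    (fun d => g (M.wdEquiv.symm d).2 (M.wdEquiv.symm d).1) (by
      funext x
      obtain ⟨w0, hw0⟩ := M.exists_p x
      rw [inc_mulVec, ← Equiv.sum_comp M.wdEquiv]
      simp only [Equiv.symm_apply_apply]
      have e1 : ∀ (w : M.W) (k : ZMod 3), face M.R (M.wdEquiv (w, k)).1 = M.p (k - 1) w :=
        fun w k => M.face_dt k w
      have e2 : ∀ (w : M.W) (k : ZMod 3), face M.R (M.wdEquiv (w, k)).1.symm = M.p (k + 1) w :=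
        fun w k => M.face_dt_symm k w
      simp only [e1, e2]
      rw [Fintype.sum_prod_type]
      refine Eq.trans (Finset.sum_congr rfl (fun w _ => ?_)) (hx (M.f x) w0)
      rw [hw0]
      generalize hi : M.f x = i
      have key : ∀ j : ZMod 3, M.p j w = x → j = i := by
        intro j h
        rw [← hi, ← h, M.f_p]
      have e3 : ∀ k, (if M.p (k - 1) w = x then g k w else 0)
          = if k = i + 1 then (if M.p i w = x then g (i + 1) w else 0) else 0 := by
        intro k
        by_cases hk : k = i + 1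
        · subst hk
          rw [if_pos rfl, add_sub_cancel_right]
        · rw [if_neg hk, if_neg]
          intro h
          have := key _ h
          exact hk (by rw [← this]; ring)
      have e4 : ∀ k, (if M.p (k + 1) w = x then g k w else 0)
          = if k = i + 2 then (if M.p i w = x then g (i + 2) w else 0) else 0 := by
        intro k
        have h3 : i + 2 + 1 = i := by
          have : (2 : ZMod 3) + 1 = 0 := by decide
          rw [add_assoc, this, add_zero]
        by_cases hk : k = i + 2
        · subst hk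
          rw [if_pos rfl, h3]
        · rw [if_neg hk, if_neg]
          intro h
          have := key _ h
          apply hk
          rw [← this]
          have h4 : (1 : ZMod 3) + 2 = 0 := by decide
          rw [add_assoc, h4, add_zero]
      rw [Finset.sum_sub_distrib, Finset.sum_congr rfl (fun k _ => e3 k),
        Finset.sum_congr rfl (fun k _ => e4 k), Finset.sum_ite_eq', Finset.sum_ite_eq',
        if_pos (Finset.mem_univ _), if_pos (Finset.mem_univ _)]
      split_ifs <;> simp)
  refine ⟨h, fun k w => ?_⟩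
  have := hh (M.wdEquiv (w, k))
  rw [Equiv.symm_apply_apply] at this
  rw [← this]
  show _ = h (M.dt k w.1).fst - h (M.dt k w.1).snd
  rw [M.dt_fst]
  rfl

omit [Fintype V] [DecidableEq V] [DecidableRel G.Adj] in
/-- a function on the vertices of a connected induced subgraph that is constant along its edges -/
theorem const_of_induce {A : Type*} {S : Set V} (hS : (G.induce S).Connected) (h : V → A)
    (hh : ∀ u v, u ∈ S → v ∈ S → G.Adj u v → h u = h v) {x y : V} (hx : x ∈ S) (hy : y ∈ S) :
    h x = h y := by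
  obtain ⟨p⟩ := hS.preconnected ⟨x, hx⟩ ⟨y, hy⟩
  have key : ∀ u v : S, (G.induce S).Walk u v → h u.1 = h v.1 := by
    intro u v p
    induction p with
    | nil => rfl
    | @cons a b c' hab q ih =>
      rw [← ih]
      exact hh a.1 b.1 a.2 b.2 hab
  exact key _ _ p

/-- two faces of a 3-connected cubic map share at most one edge -/
theorem simple_aux (h3 : IsThreeConnected G) (k : ZMod 3) {w w' : M.W}
    (h1 : M.p (k + 1) w = M.p (k + 1) w') (h2 : M.p (k + 2) w = M.p (k + 2) w') : w = w' := by
  by_contra hne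
  obtain ⟨h, hh⟩ := M.dual_exact (F := ℚ)
    (fun k' v => if k' = k then (if v = w then 1 else 0) - (if v = w' then 1 else 0) else 0) (by
      intro i w0
      have z0 : ∀ k : ZMod 3, k = k + 1 ↔ False := by decide
      have z1 : ∀ i k : ZMod 3, i + 1 = k → i = k + 2 := by decide
      have z2 : ∀ i k : ZMod 3, i + 2 = k → i = k + 1 := by decide
      have z3 : ∀ i : ZMod 3, i + 1 ≠ i + 2 := by decide
      by_cases c1 : i + 1 = k
      · have c2 : i + 2 ≠ k := fun c2 => z3 i (c1.trans c2.symm)
        simp only [if_pos c1, if_neg c2, sub_zero]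
        rw [← Finset.sum_filter, Finset.sum_sub_distrib]
        simp only [Finset.sum_ite_eq', Finset.mem_filter, Finset.mem_univ, true_and]
        have e : M.p i w = M.p i w' := by rw [z1 i k c1]; exact h2
        rw [e, sub_self]
      · by_cases c2 : i + 2 = k
        · simp only [if_neg c1, if_pos c2, zero_sub]
          rw [← Finset.sum_filter, Finset.sum_neg_distrib, Finset.sum_sub_distrib]
          simp only [Finset.sum_ite_eq', Finset.mem_filter, Finset.mem_univ, true_and]
          have e : M.p i w = M.p i w' := by rw [z2 i k c2]; exact h1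
          rw [e, sub_self, neg_zero]
        · simp only [if_neg c1, if_neg c2, sub_zero, ite_self, Finset.sum_const_zero])
  have hS := h3.2 {w.1, w'.1} Finset.card_le_two
  have hnm : ∀ v : V, v ∈ ((({w.1, w'.1} : Finset V) : Set V)ᶜ) ↔ v ≠ w.1 ∧ v ≠ w'.1 := by
    intro v; simp
  have hedge : ∀ (k' : ZMod 3) (v : M.W), v ≠ w → v ≠ w' → h v.1 = h (M.e k' v).1 := by
    intro k' v v1 v2
    have := hh k' v
    rw [if_neg v1, if_neg v2, sub_self, ite_self] at this
    exact sub_eq_zero.1 this
  have hadj : ∀ u v, u ∈ ((({w.1, w'.1} : Finset V) : Set V)ᶜ) →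
      v ∈ ((({w.1, w'.1} : Finset V) : Set V)ᶜ) → G.Adj u v → h u = h v := by
    intro u v hu hv huv
    rw [hnm] at hu hv
    obtain ⟨k', rfl⟩ := (M.adj_iff u v).1 huv
    by_cases hc : M.c u = 0
    · exact hedge k' ⟨u, hc⟩ (fun h' => hu.1 (congrArg Subtype.val h'))
        (fun h' => hu.2 (congrArg Subtype.val h'))
    · have hc' : M.c (M.nb k' u) = 0 := by
        by_contra h'
        exact hc ((M.c_nb k' u).2 h')
      have := hedge k' ⟨M.nb k' u, hc'⟩ (fun h' => hv.1 (congrArg Subtype.val h'))
        (fun h' => hv.2 (congrArg Subtype.val h'))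
      rw [M.e_val] at this
      simp only [M.nb_nb] at this
      exact this.symm
  have hB : ∀ b : M.B, b.1 ∈ ((({w.1, w'.1} : Finset V) : Set V)ᶜ) := by
    intro b
    rw [hnm]
    constructor
    · intro h'; have := b.2; rw [h', w.2] at this; exact absurd this (by decide)
    · intro h'; have := b.2; rw [h', w'.2] at this; exact absurd this (by decide)
  have hconst : h (M.e k w).1 = h (M.e (k + 1) w).1 :=
    const_of_induce hS h hadj (hB _) (hB _)
  have a1 := hh k w
  have a2 := hh (k + 1) w
  have z4 : k + 1 ≠ k := by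
    have : ∀ k : ZMod 3, k + 1 ≠ k := by decide
    exact this k
  rw [if_pos rfl, if_pos rfl, if_neg hne] at a1
  rw [if_neg z4] at a2
  rw [← hconst] at a2
  rw [a2] at a1
  norm_num at a1

/-- SIMPLICITY of the dual triangulation -/
theorem simple (h3 : IsThreeConnected G) {i j : ZMod 3} (hij : i ≠ j) {w w' : M.W}
    (h1 : M.p i w = M.p i w') (h2 : M.p j w = M.p j w') : w = w' := by
  have key : ∀ i j : ZMod 3, i ≠ j → j = i + 1 ∨ i = j + 1 := by decide
  have e2 : ∀ k : ZMod 3, k - 1 + 2 = k + 1 := by decide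
  rcases key i j hij with rfl | rfl
  · refine M.simple_aux h3 (i - 1) ?_ ?_
    · rw [sub_add_cancel]; exact h1
    · rw [e2]; exact h2
  · refine M.simple_aux h3 (j - 1) ?_ ?_
    · rw [sub_add_cancel]; exact h2
    · rw [e2]; exact h1

/-- no face has length one (in white vertices) -/
theorem pi_ne (i : ZMod 3) (w : M.W) : M.pi i w ≠ w := by
  intro h
  have h1 : M.e (i + 1) w = M.e (i + 2) w := by
    have : (M.e (i + 2)).symm (M.e (i + 1) w) = w := h
    rw [← this, Equiv.apply_symm_apply, this]
  have h2 := congrArg Subtype.val h1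
  have h3 : i + 1 ≠ i + 2 := by
    have : ∀ i : ZMod 3, i + 1 ≠ i + 2 := by decide
    exact this i
  exact M.nb_ne h3 w.1 h2

end Data

end Crest.Agent.R039.Map
end

-- ▼ part R039/Map834E

/-!
# Row 39: reduction of S0053 to a statement about three bijections

`Tri W B` : three bijections `e k : W ≃ B`. `Tri.Vert` : the vertices of the (dual) Eulerian
triangulation, i.e. the cycles of `pi i = (e (i+1)).trans (e (i+2)).symm`.
`Core` : for every finite connected simple genus-zero `Tri` there is a `0/1` function `s` on the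
vertices such that a cofactor of `K0 s` is non-zero.
`isHamiltonian_of_core : Core → S0053`.
-/

set_option autoImplicit false

namespace Crest.Agent.R039

/-- three bijections between two sets: an Eulerian triangulation with white faces `W` and black
faces `B` -/
structure Tri (W B : Type*) where
  e : ZMod 3 → W ≃ B

namespace Tri

variable {W B : Type*} (T : Tri W B)

/-- turning around the vertex of colour `i` of a white face -/
def pi (i : ZMod 3) : Equiv.Perm W := (T.e (i + 1)).trans (T.e (i + 2)).symm

/-- vertices of colour `i` -/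
abbrev VertC (i : ZMod 3) : Type _ := Quotient (Equiv.Perm.SameCycle.setoid (T.pi i))

/-- the vertices -/
abbrev Vert : Type _ := Σ i : ZMod 3, T.VertC i

/-- the vertex of colour `i` of a white face -/
def p (i : ZMod 3) (w : W) : T.Vert := ⟨i, Quotient.mk _ w⟩
/-- the vertex of colour `i` of a black face -/
def q (i : ZMod 3) (b : B) : T.Vert := ⟨i, Quotient.mk _ ((T.e (i + 1)).symm b)⟩

theorem p_eq_iff {i j : ZMod 3} {w w' : W} :
    T.p i w = T.p j w' ↔ i = j ∧ (T.pi i).SameCycle w w' := by
  unfold p
  constructor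
  · intro h
    rw [Sigma.mk.injEq] at h
    obtain ⟨rfl, h⟩ := h
    have h' := eq_of_heq h
    rw [Quotient.eq] at h'
    exact ⟨rfl, h'⟩
  · rintro ⟨rfl, h⟩
    rw [Sigma.mk.injEq]
    exact ⟨rfl, heq_of_eq (Quotient.sound h)⟩

/-- the labelled bicubic map -/
def bic : Bic W B T.Vert where
  e := T.e
  p := T.p
  q := T.q
  hpq := by
    intro c c' w h
    have key : ∀ c c' : ZMod 3, c' ≠ c → c' = c + 1 ∨ c' = c + 2 := by decide
    rcases key c c' h with rfl | rfl
    · show T.p c ((T.e (c + 1)).symm (T.e (c + 1) w)) = T.p c w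
      rw [Equiv.symm_apply_apply]
    · show T.p c ((T.e (c + 1)).symm (T.e (c + 2) w)) = T.p c w
      rw [T.p_eq_iff]
      refine ⟨rfl, ?_⟩
      refine (Equiv.Perm.sameCycle_apply_left (f := T.pi c)).1 ?_
      have : T.pi c ((T.e (c + 1)).symm (T.e (c + 2) w)) = w := by
        show (T.e (c + 2)).symm (T.e (c + 1) ((T.e (c + 1)).symm (T.e (c + 2) w))) = w
        rw [Equiv.apply_symm_apply, Equiv.symm_apply_apply]
      rw [this]

/-- connectedness -/
def Conn : Prop := ∀ S : Set W, S.Nonempty → (∀ i, ∀ w ∈ S, T.pi i w ∈ S) → S = Set.univ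

/-- genus zero -/
def Genus0 : Prop := Nat.card T.Vert = Nat.card W + 2

/-- simplicity: two vertices are joined by at most one edge -/
def Simple : Prop :=
  ∀ i j : ZMod 3, i ≠ j → ∀ w w' : W, T.p i w = T.p i w' → T.p j w = T.p j w' → w = w'

end Tri


namespace Map

open Crest.CombinatoricsR.PlanarMap SimpleGraph

namespace Data

variable {V : Type*} [Fintype V] [DecidableEq V] {G : SimpleGraph V} [DecidableRel G.Adj]
  (M : Data V G)

/-- the abstract triangulation -/
noncomputable def tri : Tri M.W M.B := ⟨M.e⟩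


theorem tri_p_iff {i j : ZMod 3} {w w' : M.W} : M.tri.p i w = M.tri.p j w' ↔ M.p i w = M.p j w' := by
  rw [Tri.p_eq_iff, M.p_eq_iff]; rfl

/-- the vertices of the abstract triangulation are the faces -/
noncomputable def vertEquiv : M.tri.Vert ≃ Face M.R := by
  refine Equiv.ofBijective (fun x => Quotient.lift (fun w => M.p x.1 w)
    (fun w w' h => M.p_eq_of_sameCycle h) x.2) ⟨?_, ?_⟩
  · rintro ⟨i, x⟩ ⟨j, y⟩ h
    obtain ⟨w, rfl⟩ := Quotient.exists_rep x
    obtain ⟨w', rfl⟩ := Quotient.exists_rep y
    exact M.tri_p_iff.2 h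
  · intro x
    obtain ⟨w, hw⟩ := M.exists_p x
    exact ⟨M.tri.p (M.f x) w, hw⟩

theorem tri_genus0 : M.tri.Genus0 := by
  show Nat.card M.tri.Vert = Nat.card M.W + 2
  rw [Nat.card_congr M.vertEquiv, Nat.card_eq_fintype_card, M.card_face, Nat.card_eq_fintype_card]

theorem tri_conn : M.tri.Conn := by
  intro S hS hcl
  -- pull back to a function on the vertices of `G`
  have hinv : ∀ i, ∀ w, M.tri.pi i w ∈ S ↔ w ∈ S := by
    intro i w
    constructor
    · intro h
      have h1 : (M.tri.pi i).SameCycle w (M.tri.pi i w) :=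
        Equiv.Perm.sameCycle_apply_right.2 (Equiv.Perm.SameCycle.refl _ _)
      obtain ⟨n, hn⟩ := h1.symm.exists_nat_pow_eq
      rw [← hn]
      clear hn
      induction n with
      | zero => exact h
      | succ n ih => rw [pow_succ', Equiv.Perm.mul_apply]; exact hcl i _ ih
    · exact hcl i w
  obtain ⟨w0, hw0⟩ := hS
  -- membership of the white neighbours of a black vertex does not depend on the colour
  have hblack : ∀ (b : M.B) (k k' : ZMod 3), (M.e k).symm b ∈ S ↔ (M.e k').symm b ∈ S := by
    have h1 : ∀ (b : M.B) (i : ZMod 3), (M.e (i + 1)).symm b ∈ S ↔ (M.e (i + 2)).symm b ∈ S := by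
      intro b i
      rw [← hinv i ((M.e (i + 1)).symm b)]
      have : M.tri.pi i ((M.e (i + 1)).symm b) = (M.e (i + 2)).symm b := by
        show (M.e (i + 2)).symm (M.e (i + 1) ((M.e (i + 1)).symm b)) = _
        rw [Equiv.apply_symm_apply]
      rw [this]
    intro b k k'
    have key : ∀ k k' : ZMod 3, k = k' ∨ (∃ i : ZMod 3, k = i + 1 ∧ k' = i + 2) ∨
        (∃ i : ZMod 3, k' = i + 1 ∧ k = i + 2) := by decide
    rcases key k k' with rfl | ⟨i, rfl, rfl⟩ | ⟨i, rfl, rfl⟩
    · rfl
    · exact h1 b i
    · exact (h1 b i).symm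
  let h : V → Prop := fun v => if hv : M.c v = 0 then (⟨v, hv⟩ : M.W) ∈ S
    else ((M.e 0).symm ⟨v, (fin2 _).1 hv⟩) ∈ S
  have hW : ∀ w : M.W, h w.1 = (w ∈ S) := by
    intro w
    show (if hv : M.c w.1 = 0 then (⟨w.1, hv⟩ : M.W) ∈ S else _) = _
    rw [dif_pos w.2]
  have hB : ∀ b : M.B, h b.1 = ((M.e 0).symm b ∈ S) := by
    intro b
    have hb : ¬ M.c b.1 = 0 := (fin2 _).2 b.2
    show (if hv : M.c b.1 = 0 then (⟨b.1, hv⟩ : M.W) ∈ S
      else ((M.e 0).symm ⟨b.1, (fin2 _).1 hv⟩) ∈ S) = _
    rw [dif_neg hb]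
  have hc : ∀ x y, h x = h y := by
    refine M.conn_V h (fun d => ?_)
    have e2 : d.1.snd = (M.e (M.col d.1) ⟨d.1.fst, d.2⟩).1 := by
      show d.1.snd = (M.dt (M.col d.1) d.1.fst).snd
      rw [← M.eq_dt rfl rfl]
    rw [e2, hB]
    refine (hW ⟨d.1.fst, d.2⟩).trans ?_
    apply propext
    rw [hblack _ 0 (M.col d.1), Equiv.symm_apply_apply]
  ext w
  refine ⟨fun _ => trivial, fun _ => ?_⟩
  have := hc w0.1 w.1
  rw [hW, hW] at this
  rw [← this]; exact hw0

theorem tri_simple (h3 : IsThreeConnected G) : M.tri.Simple := by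
  intro i j hij w w' h1 h2
  exact M.simple h3 hij (M.tri_p_iff.1 h1) (M.tri_p_iff.1 h2)

theorem nontrivial_W (h3 : IsThreeConnected G) : Nontrivial M.W := by
  have hV := M.card_V
  have h4 := h3.1
  exact Fintype.one_lt_card_iff_nontrivial.1 (by omega)

end Data

end Map


end Crest.Agent.R039
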