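import Crest.Agent.R039.TriEx995
import Crest.Agent.R039.Defs29
import Crest.Agent.R039.Pot599
import Crest.Agent.R039.Key123
import Crest.Agent.R039.Cyc282D
import Crest.Agent.R039.Map834E

-- ▼ part R039/Pair563
section

/-!
# Row 39: from the parent colouring of a rooted cycle cover to a pair of matchings

`exists_pair` : let `pc w` be the colour of the parent vertex of the white face `w`, such that every
vertex off the root face `w0` is a non-parent vertex of exactly two white faces `≠ w0` and non-parent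
vertices are off the root.  Then there are `ms, mt : W → ZMod 3` such that `ms w, mt w, pc w` are
pairwise distinct and both `w ↦ T.p (ms w) w`, `w ↦ T.p (mt w) w` are bijections from the white faces
`≠ w0` to the vertices off `w0`.
-/

set_option autoImplicit false

namespace Crest.Agent.R039.Pair

open Finset

variable {W B : Type*} [Fintype W] [Fintype B] [DecidableEq W] [DecidableEq B]

theorem third (a b : ZMod 3) (h : a ≠ b) : -(a + b) ≠ a ∧ -(a + b) ≠ b := by
  revert a b; decide


theorem exists_pair (T : Tri W B) (w0 : W) (pc : W → ZMod 3)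
    (h1 : ∀ v : T.Vert, (∀ i, T.p i w0 ≠ v) →
      (univ.filter fun w => w ≠ w0 ∧ T.p v.1 w = v ∧ pc w ≠ v.1).card = 2)
    (h2 : ∀ w, w ≠ w0 → ∀ i, i ≠ pc w → ∀ j, T.p j w0 ≠ T.p i w) :
    ∃ ms mt : W → ZMod 3,
      (∀ w, ms w ≠ pc w ∧ mt w ≠ pc w ∧ ms w ≠ mt w) ∧
      (∀ w w', w ≠ w0 → w' ≠ w0 → T.p (ms w) w = T.p (ms w') w' → w = w') ∧
      (∀ w w', w ≠ w0 → w' ≠ w0 → T.p (mt w) w = T.p (mt w') w' → w = w') ∧
      (∀ v : T.Vert, (∀ i, T.p i w0 ≠ v) → ∃ w, w ≠ w0 ∧ T.p (ms w) w = v) ∧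
      (∀ v : T.Vert, (∀ i, T.p i w0 ≠ v) → ∃ w, w ≠ w0 ∧ T.p (mt w) w = v) := by
  classical
  -- the vertices off the root
  let V' : Finset T.Vert := univ.filter fun v => ∀ i, T.p i w0 ≠ v
  have hV' : ∀ v, v ∈ V' ↔ ∀ i, T.p i w0 ≠ v := by intro v; simp [V']
  -- non-parent vertices
  let t : {w : W // w ≠ w0} → Finset T.Vert := fun w =>
    V'.filter fun v => T.p v.1 w.1 = v ∧ pc w.1 ≠ v.1
  have ht : ∀ w v, v ∈ t w ↔ (∀ i, T.p i w0 ≠ v) ∧ T.p v.1 w.1 = v ∧ pc w.1 ≠ v.1 := by
    intro w v; simp only [t, mem_filter, hV']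
  have htcard : ∀ w, (t w).card = 2 := by
    intro w
    have e : t w = ((univ : Finset (ZMod 3)).erase (pc w.1)).image (fun i => T.p i w.1) := by
      ext v
      rw [ht]
      simp only [mem_image, mem_erase, mem_univ, and_true]
      constructor
      · rintro ⟨_, h3, h4⟩
        exact ⟨v.1, h4.symm, h3⟩
      · rintro ⟨i, hi, rfl⟩
        exact ⟨fun j => h2 w.1 w.2 i hi j, rfl, fun h => hi h.symm⟩
    rw [e, card_image_of_injective, card_erase_of_mem (mem_univ _), card_univ, ZMod.card]
    intro i j hij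
    exact (T.p_eq_iff.1 hij).1
  have hdeg : ∀ v ∈ V', (univ.filter fun w : {w : W // w ≠ w0} => v ∈ t w).card = 2 := by
    intro v hv
    have hv' := (hV' v).1 hv
    rw [← h1 v hv']
    refine card_bij (fun w _ => w.1) ?_ ?_ ?_
    · intro w hw
      simp only [mem_filter, mem_univ, true_and, ht] at hw ⊢
      exact ⟨w.2, hw.2.1, hw.2.2⟩
    · intro a _ b _ h; exact Subtype.ext h
    · intro w hw
      simp only [mem_filter, mem_univ, true_and] at hw
      exact ⟨⟨w, hw.1⟩, by simp only [mem_filter, mem_univ, true_and, ht]; exact ⟨hv', hw.2.1, hw.2.2⟩,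
        rfl⟩
  -- double counting
  have hdc : ∀ s : Finset {w : W // w ≠ w0}, ∀ A : Finset T.Vert, (∀ w ∈ s, t w ⊆ A) → A ⊆ V' →
      2 * s.card ≤ 2 * A.card := by
    intro s A hsA hAV
    have e1 : ∑ w ∈ s, (t w).card = ∑ w ∈ s, (A.filter fun v => v ∈ t w).card := by
      refine sum_congr rfl (fun w hw => ?_)
      congr 1
      ext v
      simp only [mem_filter]
      exact ⟨fun h => ⟨hsA w hw h, h⟩, fun h => h.2⟩
    have e2 : ∑ w ∈ s, (A.filter fun v => v ∈ t w).card
        = ∑ v ∈ A, (s.filter fun w => v ∈ t w).card :=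
      sum_card_bipartiteAbove_eq_sum_card_bipartiteBelow (fun w v => v ∈ t w)
    have e3 : ∑ v ∈ A, (s.filter fun w => v ∈ t w).card ≤ ∑ v ∈ A, 2 := by
      refine sum_le_sum (fun v hv => ?_)
      rw [← hdeg v (hAV hv)]
      exact card_le_card (filter_subset_filter _ (subset_univ _))
    have e4 : ∑ w ∈ s, (t w).card = 2 * s.card := by
      rw [sum_congr rfl (fun w _ => htcard w), sum_const, smul_eq_mul, mul_comm]
    rw [sum_const, smul_eq_mul, mul_comm] at e3
    omega
  have hcard : V'.card = Fintype.card {w : W // w ≠ w0} := by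
    have e2 : ∑ w : {w : W // w ≠ w0}, (V'.filter fun v => v ∈ t w).card
        = ∑ v ∈ V', ((univ : Finset {w : W // w ≠ w0}).filter fun w => v ∈ t w).card :=
      sum_card_bipartiteAbove_eq_sum_card_bipartiteBelow (fun w v => v ∈ t w)
    have e1 : ∑ w : {w : W // w ≠ w0}, (V'.filter fun v => v ∈ t w).card = ∑ w, (t w).card := by
      refine sum_congr rfl (fun w _ => ?_)
      congr 1
      ext v
      simp only [mem_filter, ht, hV']
      tauto
    rw [e1, sum_congr rfl (fun w _ => htcard w), sum_congr rfl hdeg, sum_const, sum_const,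
      smul_eq_mul, smul_eq_mul, card_univ] at e2
    omega
  -- Hall
  obtain ⟨f, hf, hft⟩ := (Finset.all_card_le_biUnion_card_iff_exists_injective t).1 (by
    intro s
    have := hdc s (s.biUnion t) (fun w hw => subset_biUnion_of_mem t hw) (by
      intro v hv
      obtain ⟨w, _, hw⟩ := mem_biUnion.1 hv
      exact (mem_filter.1 hw).1)
    omega)
  have hf1 : ∀ w, T.p (f w).1 w.1 = f w := fun w => ((ht _ _).1 (hft w)).2.1
  have hf2 : ∀ w, pc w.1 ≠ (f w).1 := fun w => ((ht _ _).1 (hft w)).2.2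
  have himg : univ.image f = V' := by
    refine eq_of_subset_of_card_le ?_ ?_
    · intro v hv
      obtain ⟨w, _, rfl⟩ := mem_image.1 hv
      exact (mem_filter.1 (hft w)).1
    · rw [card_image_of_injective _ hf, card_univ, hcard]
  let ms : W → ZMod 3 := fun w => if h : w ≠ w0 then (f ⟨w, h⟩).1 else pc w + 1
  let mt : W → ZMod 3 := fun w => -(pc w + ms w)
  have hms : ∀ w : {w : W // w ≠ w0}, ms w.1 = (f w).1 := by
    intro w
    simp only [ms, dif_pos w.2]
  have hne : ∀ w, ms w ≠ pc w := by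
    intro w
    by_cases h : w ≠ w0
    · rw [hms ⟨w, h⟩]; exact (hf2 ⟨w, h⟩).symm
    · simp only [ms, dif_neg h]
      have : ∀ a : ZMod 3, a + 1 ≠ a := by decide
      exact this _
  have hne2 : ∀ w, mt w ≠ pc w ∧ mt w ≠ ms w := fun w => third _ _ (hne w).symm
  have hmsp : ∀ w : {w : W // w ≠ w0}, T.p (ms w.1) w.1 = f w := by
    intro w; rw [hms]; exact hf1 w
  have hmt_mem : ∀ w : {w : W // w ≠ w0}, T.p (mt w.1) w.1 ∈ t w := by
    intro w
    rw [ht]
    exact ⟨fun j => h2 w.1 w.2 _ (hne2 w.1).1 j, rfl, fun h => (hne2 w.1).1 h.symm⟩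
  have hmtinj : ∀ a b : {w : W // w ≠ w0}, T.p (mt a.1) a.1 = T.p (mt b.1) b.1 → a = b := by
    intro a b hab
    by_contra hcon
    set v := T.p (mt a.1) a.1 with hv
    have hva : v ∈ t a := hmt_mem a
    have hvb : v ∈ t b := by rw [hab]; exact hmt_mem b
    have hvV : v ∈ V' := (mem_filter.1 hva).1
    obtain ⟨c, _, hc⟩ := mem_image.1 (himg ▸ hvV)
    have hvc : v ∈ t c := by rw [← hc]; exact hft c
    have hca : c ≠ a := by
      rintro rfl
      have h3 : T.p (ms c.1) c.1 = T.p (mt c.1) c.1 := by rw [hmsp, hc]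
      exact (hne2 c.1).2 (T.p_eq_iff.1 h3).1.symm
    have hcb : c ≠ b := by
      rintro rfl
      have h3 : T.p (ms c.1) c.1 = T.p (mt c.1) c.1 := by rw [hmsp, hc]; exact hab
      exact (hne2 c.1).2 (T.p_eq_iff.1 h3).1.symm
    have h3 : ({a, b, c} : Finset {w : W // w ≠ w0}) ⊆ univ.filter fun w => v ∈ t w := by
      intro w hw
      simp only [mem_insert, mem_singleton] at hw
      simp only [mem_filter, mem_univ, true_and]
      rcases hw with rfl | rfl | rfl <;> assumption
    have h4 := card_le_card h3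
    rw [hdeg v hvV, card_insert_of_notMem, card_insert_of_notMem, card_singleton] at h4
    · omega
    · simp only [mem_singleton]; exact fun h => hcb h.symm
    · simp only [mem_insert, mem_singleton, not_or]; exact ⟨hcon, fun h => hca h.symm⟩
  have himg2 : univ.image (fun w : {w : W // w ≠ w0} => T.p (mt w.1) w.1) = V' := by
    refine eq_of_subset_of_card_le ?_ ?_
    · intro v hv
      obtain ⟨w, _, rfl⟩ := mem_image.1 hv
      exact (mem_filter.1 (hmt_mem w)).1
    · rw [card_image_of_injective _ (fun a b h => hmtinj a b h), card_univ, hcard]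
  refine ⟨ms, mt, fun w => ⟨hne w, (hne2 w).1, (hne2 w).2.symm⟩, ?_, ?_, ?_, ?_⟩
  · intro w w' hw hw' h
    have h' : f ⟨w, hw⟩ = f ⟨w', hw'⟩ := by rw [← hmsp, ← hmsp]; exact h
    exact congrArg Subtype.val (hf h')
  · intro w w' hw hw' h
    exact congrArg Subtype.val (hmtinj ⟨w, hw⟩ ⟨w', hw'⟩ h)
  · intro v hv
    have hvV := (hV' v).2 hv
    rw [← himg] at hvV
    obtain ⟨w, _, hw⟩ := mem_image.1 hvV
    exact ⟨w.1, w.2, by rw [hmsp]; exact hw⟩
  · intro v hv
    have hvV := (hV' v).2 hv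
    rw [← himg2] at hvV
    obtain ⟨w, _, hw⟩ := mem_image.1 hvV
    exact ⟨w.1, w.2, hw⟩

end Crest.Agent.R039.Pair
end

-- ▼ part R039/Key563
section

/-!
# Row 39, block B2: translation between covers of a triangulation and the abstract signed sum

* `om` : orientation symbol of a white face.
* `exists_valid` : a cover gives a pair (matching, permutation).
* `tree_of_det` : a matching whose matrix has non-zero determinant is of tree type.
-/

set_option autoImplicit false
set_option linter.unusedSectionVars false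

namespace Crest.Agent.R039.Key563

open Finset Matrix

variable {W B : Type*}

/-- orientation symbol: `1` if `y` follows `x` in `w`, `-1` if `x` follows `y`, `0` otherwise -/
noncomputable def om (T : Tri W B) (w : W) (x y : T.Vert) : ℤ :=
  open Classical in
  (if T.p x.1 w = x ∧ T.p (x.1 + 1) w = y then 1 else 0) -
    (if T.p x.1 w = x ∧ T.p (x.1 + 2) w = y then 1 else 0)

variable (T : Tri W B) (w0 : W)

/-- vertices off the root -/
abbrev Off : Type _ := {v : T.Vert // ∀ i, T.p i w0 ≠ v}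

/-- white faces different from the root -/
abbrev Wh (w0 : W) : Type _ := {w : W // w ≠ w0}

variable {T w0}

theorem p_inj {i j : ZMod 3} {w w' : W} (h : T.p i w = T.p j w') : i = j := (T.p_eq_iff.1 h).1

theorem om_add_one (w : W) (i : ZMod 3) : om T w (T.p i w) (T.p (i + 1) w) = 1 := by
  unfold om
  rw [if_pos ⟨rfl, rfl⟩, if_neg]
  · norm_num
  · rintro ⟨_, h⟩
    have h3 := p_inj h
    have : ∀ i : ZMod 3, i + 2 ≠ i + 1 := by decide
    exact this i h3

theorem om_add_two (w : W) (i : ZMod 3) : om T w (T.p i w) (T.p (i + 2) w) = -1 := by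
  unfold om
  rw [if_neg, if_pos ⟨rfl, rfl⟩]
  · norm_num
  · rintro ⟨_, h⟩
    have h3 := p_inj h
    have : ∀ i : ZMod 3, i + 1 ≠ i + 2 := by decide
    exact this i h3

theorem om_ne_zero {w : W} {x y : T.Vert} (h : om T w x y ≠ 0) :
    T.p x.1 w = x ∧ (T.p (x.1 + 1) w = y ∨ T.p (x.1 + 2) w = y) := by
  unfold om at h
  by_cases h1 : T.p x.1 w = x ∧ T.p (x.1 + 1) w = y
  · exact ⟨h1.1, Or.inl h1.2⟩
  · by_cases h2 : T.p x.1 w = x ∧ T.p (x.1 + 2) w = y
    · exact ⟨h2.1, Or.inr h2.2⟩
    · rw [if_neg h1, if_neg h2] at h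
      exact absurd rfl h

/-- antisymmetry -/
theorem om_antisymm (w : W) (x y : T.Vert) : om T w y x = - om T w x y := by
  have key : ∀ i j : ZMod 3, (i + 1 = j ↔ j + 2 = i) ∧ (i + 2 = j ↔ j + 1 = i) := by decide
  have e1 : ∀ x y : T.Vert, (T.p x.1 w = x ∧ T.p (x.1 + 1) w = y) ↔
      (T.p y.1 w = y ∧ T.p (y.1 + 2) w = x) := by
    intro x y
    constructor
    · rintro ⟨h1, h2⟩
      have h3 : x.1 + 1 = y.1 := by rw [← h2]; rfl
      have h4 := (key x.1 y.1).1.1 h3
      rw [h4, ← h3]
      exact ⟨h2, h1⟩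
    · rintro ⟨h1, h2⟩
      have h3 : y.1 + 2 = x.1 := by rw [← h2]; rfl
      have h4 := (key x.1 y.1).1.2 h3
      rw [h4, ← h3]
      exact ⟨h2, h1⟩
  unfold om
  simp only [e1 y x, e1 x y]
  ring



/-! ### a cover gives a valid pair -/

variable [Fintype W] [Fintype B] [DecidableEq W] [DecidableEq B]

/-- a cover gives two disjoint matchings `s` and `s ∘ π` -/
theorem exists_valid (m : W → ZMod 3) (hm : T.Cover w0 m) :
    ∃ (s : Wh w0 ≃ Off T w0) (π : Equiv.Perm (Wh w0)),
      ∀ w, om T w.1 (s w).1 (s (π w)).1 ≠ 0 := by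
  classical
  obtain ⟨hm1, hm2⟩ := hm
  obtain ⟨ms, mt, h1, h2, h3, h4, h5⟩ := Pair.exists_pair T w0 m (by
    intro v hv
    rw [← hm2 v (fun j h => hv j h.symm), Set.ncard_eq_toFinset_card']
    refine card_bij (fun w _ => (v.1, w)) ?_ ?_ ?_
    · intro w hw
      simp only [mem_filter, mem_univ, true_and] at hw
      simp only [Set.mem_toFinset, Set.mem_ofPred_eq]
      exact ⟨hw.1, fun h => hw.2.2 h.symm, hw.2.1⟩
    · intro a _ b _ h; exact congrArg Prod.snd h
    · rintro ⟨i, w⟩ hw
      simp only [Set.mem_toFinset, Set.mem_ofPred_eq] at hw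
      have hi : v.1 = i := by rw [← hw.2.2]; rfl
      refine ⟨w, ?_, ?_⟩
      · simp only [mem_filter, mem_univ, true_and]
        exact ⟨hw.1, by rw [hi]; exact hw.2.2, by rw [hi]; exact fun h => hw.2.1 h.symm⟩
      · rw [hi]) (by
    intro w hw i hi j h
    have hij := p_inj h
    subst hij
    exact hm1 w hw j hi h.symm)
  have off : ∀ (mm : W → ZMod 3), (∀ w, mm w ≠ m w) → ∀ w : Wh w0, ∀ i, T.p i w0 ≠ T.p (mm w.1) w.1 := by
    intro mm hmm w i h
    have hij := p_inj h
    rw [hij] at h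
    exact hm1 w.1 w.2 (mm w.1) (hmm w.1) h.symm
  let s : Wh w0 ≃ Off T w0 := Equiv.ofBijective
    (fun w => ⟨T.p (ms w.1) w.1, off ms (fun w => (h1 w).1) w⟩) ⟨by
      intro a b h
      exact Subtype.ext (h2 a.1 b.1 a.2 b.2 (congrArg Subtype.val h)), by
      intro v
      obtain ⟨w, hw, hv⟩ := h4 v.1 v.2
      exact ⟨⟨w, hw⟩, Subtype.ext hv⟩⟩
  let t : Wh w0 ≃ Off T w0 := Equiv.ofBijective
    (fun w => ⟨T.p (mt w.1) w.1, off mt (fun w => (h1 w).2.1) w⟩) ⟨by
      intro a b h
      exact Subtype.ext (h3 a.1 b.1 a.2 b.2 (congrArg Subtype.val h)), by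
      intro v
      obtain ⟨w, hw, hv⟩ := h5 v.1 v.2
      exact ⟨⟨w, hw⟩, Subtype.ext hv⟩⟩
  refine ⟨s, t.trans s.symm, ?_⟩
  intro w
  have e0 : s ((t.trans s.symm) w) = t w := s.apply_symm_apply (t w)
  rw [e0]
  have e1 : (s w).1 = T.p (ms w.1) w.1 := rfl
  have e2 : (t w).1 = T.p (mt w.1) w.1 := rfl
  rw [e1, e2]
  have key : ∀ a b : ZMod 3, a ≠ b → b = a + 1 ∨ b = a + 2 := by decide
  rcases key _ _ (h1 w.1).2.2 with h | h
  · rw [h, om_add_one]; norm_num
  · rw [h, om_add_two]; norm_num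

/-! ### non-zero determinant gives tree type -/

theorem sum_om (w : W) (i : ZMod 3) (x : T.Vert → ℤ) (hx : ∀ j, x (T.p j w0) = 0) :
    ∑ v : Off T w0, x v.1 * om T w (T.p i w) v.1 = x (T.p (i + 1) w) - x (T.p (i + 2) w) := by
  classical
  have e1 : ∑ v : Off T w0, x v.1 * om T w (T.p i w) v.1
      = ∑ v : T.Vert, x v * om T w (T.p i w) v := by
    rw [← Finset.sum_subtype (univ.filter fun v : T.Vert => ∀ i, T.p i w0 ≠ v) (by simp)
      (fun v => x v * om T w (T.p i w) v)]
    rw [Finset.sum_filter]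
    refine sum_congr rfl (fun v _ => ?_)
    split_ifs with h
    · rfl
    · push Not at h
      obtain ⟨j, hj⟩ := h
      rw [← hj, hx, zero_mul]
  rw [e1]
  have e2 : ∀ v : T.Vert, x v * om T w (T.p i w) v
      = (if T.p (i + 1) w = v then x v else 0) - (if T.p (i + 2) w = v then x v else 0) := by
    intro v
    unfold om
    simp only [Tri.p_fst, true_and]
    split_ifs <;> ring
  rw [sum_congr rfl (fun v _ => e2 v), sum_sub_distrib, Finset.sum_ite_eq, Finset.sum_ite_eq,
    if_pos (mem_univ _), if_pos (mem_univ _)]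

theorem tree_of_det (s : Wh w0 ≃ Off T w0)
    (h : (Matrix.of fun w' w => om T w.1 (s w).1 (s w').1 : Matrix (Wh w0) (Wh w0) ℤ).det ≠ 0) :
    ∃ m, T.Tree w0 m := by
  classical
  have hinc : ∀ w : Wh w0, T.p (s w).1.1 w.1 = (s w).1 := by
    intro w
    by_contra hcon
    apply h
    refine Matrix.det_eq_zero_of_column_eq_zero w (fun w' => ?_)
    show om T w.1 (s w).1 (s w').1 = 0
    by_contra h2
    exact hcon (om_ne_zero h2).1
  have hmw : ∀ w : Wh w0, (fun w => if hw : w ≠ w0 then (s ⟨w, hw⟩).1.1 else (0 : ZMod 3)) w.1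
      = (s w).1.1 := by
    intro w
    simp only [dif_pos w.2]
  set m : W → ZMod 3 := fun w => if hw : w ≠ w0 then (s ⟨w, hw⟩).1.1 else 0 with hmdef
  have hp : ∀ w : Wh w0, T.p (m w.1) w.1 = (s w).1 := by
    intro w
    rw [hmw]; exact hinc w
  refine ⟨m, ⟨?_, ?_⟩, ?_⟩
  · intro w hw h2
    have := (s ⟨w, hw⟩).2 (m w)
    rw [← hp ⟨w, hw⟩] at this
    exact this h2.symm
  · intro w w' hw hw' h2
    rw [hp ⟨w, hw⟩, hp ⟨w', hw'⟩] at h2
    exact congrArg Subtype.val (s.injective (Subtype.ext h2))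
  · intro x hx0 hx v
    have h3 : (fun w' : Wh w0 => x (s w').1) ᵥ*
        (Matrix.of fun w' w => om T w.1 (s w).1 (s w').1 : Matrix (Wh w0) (Wh w0) ℤ) = 0 := by
      funext w
      show ∑ w' : Wh w0, x (s w').1 * om T w.1 (s w).1 (s w').1 = 0
      rw [Equiv.sum_comp s (fun v : Off T w0 => x v.1 * om T w.1 (s w).1 v.1), ← hp w,
        sum_om w.1 (m w.1) x hx0, hx w.1 w.2, sub_self]
    have h4 := Matrix.eq_zero_of_vecMul_eq_zero h h3
    by_cases hv : ∀ i, T.p i w0 ≠ v
    · have := congrFun h4 (s.symm ⟨v, hv⟩)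
      simpa using this
    · push Not at hv
      obtain ⟨j, hj⟩ := hv
      rw [← hj]; exact hx0 j

/-- BLOCK B2 from the orbit facts -/
theorem blockSum_of
    (H : ∀ (W B : Type) [Fintype W] [Fintype B] [DecidableEq W] [DecidableEq B] (T : Tri W B),
      T.Conn → T.Genus0 → ∀ w0 : W, ∃ φ : Wh w0 → Off T w0 → ℤ,
      ∀ (s : Wh w0 ≃ Off T w0) (π : Equiv.Perm (Wh w0)),
        (∀ w, om T w.1 (s w).1 (s (π w)).1 ≠ 0) → ∀ O ∈ Key.orbs π,
        Odd O.card ∧ 0 < (-1 : ℤ) ^ ((O.card - 1) / 2) *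
          (∏ w ∈ O, om T w.1 (s w).1 (s (π w)).1) *
          ∑ w ∈ O, (φ w (s (π w)) - φ w (s w))) : BlockSum := by
  intro W B _ _ _ _ T hc hg w0 hm
  obtain ⟨m, hm⟩ := hm
  obtain ⟨φ, hφ⟩ := H W B T hc hg w0
  obtain ⟨s₀, π₀, h₀⟩ := exists_valid m hm
  obtain ⟨s, hs⟩ := Key.exists_det_ne_zero (W := Wh w0) (V := Off T w0)
    (fun w a b => om T w.1 a.1 b.1) φ (fun w a b => om_antisymm _ _ _) hφ s₀ π₀ h₀
  exact tree_of_det s hs

end Crest.Agent.R039.Key563
end

-- ▼ part R039/Cyc282E
section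

/-!
# Row 39: block B2 finished: the orbit facts in helper563's form
-/

set_option autoImplicit false
set_option linter.unusedSectionVars false

namespace Crest.Agent.R039.Cyc

open Key563

theorem orbit_facts (W B : Type) [Fintype W] [Fintype B] [DecidableEq W] [DecidableEq B]
    (T : Tri W B) (hc : T.Conn) (hg : T.Genus0) (w0 : W) :
    ∃ φ : Wh w0 → Off T w0 → ℤ, ∀ (s : Wh w0 ≃ Off T w0) (π : Equiv.Perm (Wh w0)),
      (∀ w, Key563.om T w.1 (s w).1 (s (π w)).1 ≠ 0) → ∀ O ∈ Key.orbs π,
      Odd O.card ∧ 0 < (-1 : ℤ) ^ ((O.card - 1) / 2) *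
        (∏ w ∈ O, Key563.om T w.1 (s w).1 (s (π w)).1) *
        ∑ w ∈ O, (φ w (s (π w)) - φ w (s w)) := by
  classical
  obtain ⟨phi, hphi⟩ := cover_cycle T hc hg w0
  refine ⟨fun w a => phi a.1.1 w.1, ?_⟩
  intro s π hval O hO
  obtain ⟨x0, _, rfl⟩ := Finset.mem_image.1 hO
  let ms : W → ZMod 3 := fun w => if h : w ≠ w0 then (s ⟨w, h⟩).1.1 else 0
  let mt : W → ZMod 3 := fun w => if h : w ≠ w0 then (s (π ⟨w, h⟩)).1.1 else 0
  have hms : ∀ w : Wh w0, ms w.1 = (s w).1.1 := fun w => dif_pos w.2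
  have hmt : ∀ w : Wh w0, mt w.1 = (s (π w)).1.1 := fun w => dif_pos w.2
  have hs1 : ∀ w : Wh w0, T.p (ms w.1) w.1 = (s w).1 := by
    intro w
    rw [hms]
    exact (om_ne_zero (hval w)).1
  have hcol : ∀ w : Wh w0, (s (π w)).1.1 = (s w).1.1 + 1 ∨ (s (π w)).1.1 = (s w).1.1 + 2 := by
    intro w
    rcases (om_ne_zero (hval w)).2 with h | h
    · left; rw [← h]; rfl
    · right; rw [← h]; rfl
  have ht1 : ∀ w : Wh w0, T.p (mt w.1) w.1 = (s (π w)).1 := by
    intro w
    rw [hmt]
    rcases (om_ne_zero (hval w)).2 with h | h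
    · rw [← h]; rfl
    · rw [← h]; rfl
  have hom : ∀ w : Wh w0, Key563.om T w.1 (s w).1 (s (π w)).1 = om (ms w.1) (mt w.1) := by
    intro w
    have h1 := hs1 w
    have h2 := ht1 w
    have hne2 : ∀ i : ZMod 3, i + 2 ≠ i + 1 := by decide
    rcases hcol w with h | h
    · rw [← hms w, ← hmt w] at h
      rw [← h1, ← h2, h, om_add_one]
      unfold om
      rw [if_pos rfl]
    · rw [← hms w, ← hmt w] at h
      rw [← h1, ← h2, h, om_add_two]
      unfold om
      rw [if_neg (hne2 _)]
  set O' : Finset W := (Key.orb π x0).map (Function.Embedding.subtype _) with hO'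
  have hmem : ∀ w : Wh w0, w.1 ∈ O' ↔ π.SameCycle x0 w := by
    intro w
    rw [hO', Finset.mem_map]
    constructor
    · rintro ⟨x, hx, e⟩
      have : x = w := Subtype.ext e
      rw [← this]
      exact (Finset.mem_filter.1 hx).2
    · intro h
      exact ⟨w, Finset.mem_filter.2 ⟨Finset.mem_univ _, h⟩, rfl⟩
  have hO0 : w0 ∉ O' := by
    rw [hO', Finset.mem_map]
    rintro ⟨x, _, e⟩
    exact x.2 e
  have hsub : ∀ w ∈ O', ∃ x : Wh w0, x.1 = w ∧ π.SameCycle x0 x := by
    intro w hw
    have hw0 : w ≠ w0 := fun h => hO0 (h ▸ hw)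
    exact ⟨⟨w, hw0⟩, rfl, (hmem ⟨w, hw0⟩).1 hw⟩
  obtain ⟨a, r, A, ha, hA, hcard, hprod, hsum⟩ := hphi ms mt O'
    (by
      intro w w' h h' e
      have e1 := hs1 ⟨w, h⟩
      have e2 := hs1 ⟨w', h'⟩
      have e3 : (s ⟨w, h⟩).1 = (s ⟨w', h'⟩).1 := by rw [← e1, ← e2]; exact e
      exact congrArg Subtype.val (s.injective (Subtype.ext e3)))
    (by
      intro v hv
      refine ⟨(s.symm ⟨v, hv⟩).1, (s.symm ⟨v, hv⟩).2, ?_⟩
      rw [hs1, Equiv.apply_symm_apply])
    (by
      intro w hw w' hw' e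
      obtain ⟨x, rfl, _⟩ := hsub w hw
      obtain ⟨x', rfl, _⟩ := hsub w' hw'
      rw [ht1, ht1] at e
      rw [π.injective (s.injective (Subtype.ext e))])
    ⟨x0.1, (hmem x0).2 (Equiv.Perm.SameCycle.refl _ _)⟩
    hO0
    (by
      intro w hw
      obtain ⟨x, rfl, _⟩ := hsub w hw
      rw [hms, hmt]
      have k1 : ∀ i : ZMod 3, i ≠ i + 1 := by decide
      have k2 : ∀ i : ZMod 3, i ≠ i + 2 := by decide
      rcases hcol x with h | h <;> rw [h]
      · exact k1 _
      · exact k2 _)
    (by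
      intro w hw
      obtain ⟨x, rfl, hx⟩ := hsub w hw
      refine ⟨(π x).1, (hmem _).2 (Equiv.Perm.sameCycle_apply_right.2 hx), ?_⟩
      rw [ht1, hs1])
    (by
      intro h hh
      have step : ∀ x : Wh w0, π.SameCycle x0 x → h x.1 = h (π x).1 := by
        intro x hx
        refine hh x.1 ((hmem x).2 hx) (π x).1
          ((hmem _).2 (Equiv.Perm.sameCycle_apply_right.2 hx)) ?_
        rw [ht1, hs1]
      have key : ∀ x : Wh w0, π.SameCycle x0 x → h x.1 = h x0.1 := by
        intro x hx
        obtain ⟨n, hn⟩ := hx.exists_nat_pow_eq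
        rw [← hn]
        clear hn hx
        induction n with
        | zero => rfl
        | succ n ih =>
          rw [pow_succ', Equiv.Perm.mul_apply,
            ← step _ (Equiv.Perm.sameCycle_pow_right.2 (Equiv.Perm.SameCycle.refl _ _))]
          exact ih
      intro w hw w' hw'
      obtain ⟨x, rfl, hx⟩ := hsub w hw
      obtain ⟨x', rfl, hx'⟩ := hsub w' hw'
      rw [key x hx, key x' hx'])
  have hcard' : (Key.orb π x0).card = 2 * r + 3 := by
    rw [← hcard, hO', Finset.card_map]
  have hprod' : ∏ w ∈ Key.orb π x0, Key563.om T w.1 (s w).1 (s (π w)).1 = a * (-1) ^ (r + 1) := by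
    rw [← hprod, hO', Finset.prod_map]
    exact Finset.prod_congr rfl (fun w _ => hom w)
  have hsum' : ∑ w ∈ Key.orb π x0, (phi (s (π w)).1.1 w.1 - phi (s w).1.1 w.1) = a * A := by
    rw [← hsum, hO', Finset.sum_map]
    refine Finset.sum_congr rfl (fun w _ => ?_)
    show _ = phi (mt w.1) w.1 - phi (ms w.1) w.1
    rw [hms, hmt]
  refine ⟨⟨r + 1, by rw [hcard']; ring⟩, ?_⟩
  rw [hprod', hsum', hcard']
  have e1 : (2 * r + 3 - 1) / 2 = r + 1 := by omega
  rw [e1]
  have e2 : (-1 : ℤ) ^ (r + 1) * (a * (-1) ^ (r + 1)) * (a * A) =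
      ((-1 : ℤ) ^ (r + 1) * (-1) ^ (r + 1)) * (a * a) * A := by ring
  have e3 : (-1 : ℤ) ^ (r + 1) * (-1) ^ (r + 1) = 1 := by
    rw [← mul_pow]; norm_num
  have e4 : a * a = 1 := by rcases ha with rfl | rfl <;> norm_num
  rw [e2, e3, e4]
  have : (1 : ℤ) ≤ A := by exact_mod_cast hA
  linarith

/-- BLOCK B2 -/
theorem blockSum : BlockSum := blockSum_of orbit_facts

end Crest.Agent.R039.Cyc
end

-- ▼ part R039/Crit365
section

/-!
# Row 39: Euler's inequality for a connected region of a triangulation (helper365)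

`Crit.euler_le`: for a connected set `R` of faces, not everything,
`V(R) + F(R) ≤ E(R) + 1`.
-/

set_option autoImplicit false

namespace Crest.Agent.R039.Crit

open Matrix Crest.Agent.R039.Map

section lin

variable {D X Y F : Type*} [Fintype D] [Fintype X] [Fintype Y] [DecidableEq X] [Field F]

theorem card_add_card_le (s t : D → X)
    (hX : ∀ h : X → F, (∀ d, h (s d) = h (t d)) → ∀ x y, h x = h y)
    (δ : (Y → F) →ₗ[F] (D → F)) (hδ : Function.Injective δ)
    (hzero : ∀ f, (inc F s t) *ᵥ (δ f) = 0) :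
    Fintype.card X + Fintype.card Y ≤ Fintype.card D + 1 := by
  have r1 := card_le_rank_inc (F := F) s t hX
  have h2 := LinearMap.finrank_range_add_finrank_ker ((inc F s t).mulVecLin)
  rw [Module.finrank_fintype_fun_eq_card] at h2
  have h3 : (inc F s t).rank = Module.finrank F (LinearMap.range ((inc F s t).mulVecLin)) := rfl
  have hle : LinearMap.range δ ≤ LinearMap.ker ((inc F s t).mulVecLin) := by
    rintro _ ⟨f, rfl⟩
    rw [LinearMap.mem_ker, Matrix.mulVecLin_apply]
    exact hzero f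
  have h4 := Submodule.finrank_mono hle
  rw [LinearMap.finrank_range_of_inj hδ, Module.finrank_fintype_fun_eq_card] at h4
  omega

end lin

variable {W B : Type*} (T : Tri W B)

/-- the vertex of colour `k` of a white face is the vertex of colour `k` of the adjacent black
faces across the edges of the other colours -/
theorem q_e {i c : ZMod 3} (h : i ≠ c) (w : W) : T.q i (T.e c w) = T.p i w :=
  T.bic.hpq i c w h.symm

theorem p_pi (i : ZMod 3) (w : W) : T.p i (T.pi i w) = T.p i w := by
  rw [T.p_eq_iff]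
  exact ⟨rfl, Equiv.Perm.sameCycle_apply_left.2 (Equiv.Perm.SameCycle.refl _ _)⟩

theorem e_pi (i : ZMod 3) (w : W) : T.e (i + 2) (T.pi i w) = T.e (i + 1) w := by
  show T.e (i + 2) ((T.e (i + 2)).symm (T.e (i + 1) w)) = _
  rw [Equiv.apply_symm_apply]

/-- a vertex touches the region `(RW, RB)` -/
def Touch (RW : Set W) (RB : Set B) (v : T.Vert) : Prop :=
  (∃ i, ∃ w ∈ RW, T.p i w = v) ∨ (∃ i, ∃ b ∈ RB, T.q i b = v)

/-- an edge touches the region -/
def ETouch (RW : Set W) (RB : Set B) (d : ZMod 3 × W) : Prop :=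
  d.2 ∈ RW ∨ T.e d.1 d.2 ∈ RB

/-- a region is connected (across edges) -/
def RConn (RW : Set W) (RB : Set B) : Prop :=
  ∀ (h : W → ℚ) (g : B → ℚ), (∀ c, ∀ w ∈ RW, T.e c w ∈ RB → h w = g (T.e c w)) →
    ∃ a, (∀ w ∈ RW, h w = a) ∧ (∀ b ∈ RB, g b = a)

theorem const_of_conn {A : Type*} (hc : T.Conn) (h : W → A) (g : B → A)
    (hh : ∀ c w, h w = g (T.e c w)) (w0 : W) : (∀ w, h w = h w0) ∧ ∀ b, g b = h w0 := by
  have h1 : ∀ w, h w = h w0 := by
    have := hc {w | h w = h w0} ⟨w0, rfl⟩ (fun i w hw => by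
      show h (T.pi i w) = h w0
      rw [hh (i + 2), e_pi, ← hh]
      exact hw)
    intro w
    have hw : w ∈ {w | h w = h w0} := by rw [this]; trivial
    exact hw
  refine ⟨h1, fun b => ?_⟩
  rw [← h1 ((T.e 0).symm b), hh 0, Equiv.apply_symm_apply]

/-- the boundary of a boundary is zero -/
theorem bdry_zero [Fintype W] {F : Type*} [Field F] [DecidableEq T.Vert] (g : W → F) (f : B → F) (x : T.Vert) :
    ∑ d : ZMod 3 × W, ((if T.p (d.1 + 1) d.2 = x then g d.2 - f (T.e d.1 d.2) else 0)
      - (if T.p (d.1 + 2) d.2 = x then g d.2 - f (T.e d.1 d.2) else 0)) = 0 := by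
  rw [Finset.sum_sub_distrib, Fintype.sum_prod_type, Fintype.sum_prod_type]
  have e1 : ∑ c : ZMod 3, ∑ w : W, (if T.p (c + 1) w = x then g w - f (T.e c w) else 0)
      = ∑ i : ZMod 3, ∑ w : W, (if T.p i w = x then g w - f (T.e (i + 2) w) else 0) := by
    rw [← Equiv.sum_comp (Equiv.addRight (1 : ZMod 3))
      (fun i => ∑ w : W, (if T.p i w = x then g w - f (T.e (i + 2) w) else 0))]
    refine Finset.sum_congr rfl (fun c _ => Finset.sum_congr rfl (fun w _ => ?_))
    have : ∀ c : ZMod 3, c + 1 + 2 = c := by decide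
    show _ = if T.p (c + 1) w = x then g w - f (T.e (c + 1 + 2) w) else 0
    rw [this]
  have e2 : ∑ c : ZMod 3, ∑ w : W, (if T.p (c + 2) w = x then g w - f (T.e c w) else 0)
      = ∑ i : ZMod 3, ∑ w : W, (if T.p i w = x then g w - f (T.e (i + 1) w) else 0) := by
    rw [← Equiv.sum_comp (Equiv.addRight (2 : ZMod 3))
      (fun i => ∑ w : W, (if T.p i w = x then g w - f (T.e (i + 1) w) else 0))]
    refine Finset.sum_congr rfl (fun c _ => Finset.sum_congr rfl (fun w _ => ?_))
    have : ∀ c : ZMod 3, c + 2 + 1 = c := by decide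
    show _ = if T.p (c + 2) w = x then g w - f (T.e (c + 2 + 1) w) else 0
    rw [this]
  rw [e1, e2, sub_eq_zero]
  refine Finset.sum_congr rfl (fun i _ => ?_)
  have e3 : ∀ k : ZMod 3, ∑ w : W, (if T.p i w = x then g w - f (T.e k w) else 0)
      = ∑ w : W, (if T.p i w = x then g w else 0) - ∑ w : W, (if T.p i w = x then f (T.e k w) else 0) := by
    intro k
    rw [← Finset.sum_sub_distrib]
    refine Finset.sum_congr rfl (fun w _ => ?_)
    split_ifs <;> simp
  rw [e3, e3]
  congr 1
  rw [← Equiv.sum_comp (T.pi i) (fun w => if T.p i w = x then f (T.e (i + 2) w) else 0)]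
  refine Finset.sum_congr rfl (fun w _ => ?_)
  rw [p_pi, e_pi]

/-- EULER'S INEQUALITY for a connected region -/
theorem euler_le [Finite W] [Finite B] (hc : T.Conn) (RW : Set W) (RB : Set B)
    (hne : (∃ w, w ∉ RW) ∨ (∃ b, b ∉ RB)) (hR : RConn T RW RB) :
    Nat.card {v : T.Vert // Touch T RW RB v} + (Nat.card RW + Nat.card RB)
      ≤ Nat.card {d : ZMod 3 × W // ETouch T RW RB d} + 1 := by
  classical
  have : Fintype W := Fintype.ofFinite _
  have : Fintype B := Fintype.ofFinite _
  rcases isEmpty_or_nonempty W with hW | ⟨⟨w0⟩⟩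
  · have hB : IsEmpty B := (T.e 0).symm.isEmpty
    rcases hne with ⟨w, _⟩ | ⟨b, _⟩
    · exact (hW.false w).elim
    · exact (hB.false b).elim
  let Y := {y : W ⊕ B // Sum.elim (· ∈ RW) (· ∈ RB) y}
  let X := {v : T.Vert // Touch T RW RB v}
  let D := {d : ZMod 3 × W // ETouch T RW RB d}
  have : Fintype X := Fintype.ofFinite _
  have : Fintype Y := Fintype.ofFinite _
  have : Fintype D := Fintype.ofFinite _
  have : Fintype RW := Fintype.ofFinite _
  have : Fintype RB := Fintype.ofFinite _
  have htp : ∀ d : D, ∀ k, k ≠ d.1.1 → Touch T RW RB (T.p k d.1.2) := by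
    intro d k hk
    rcases d.2 with h | h
    · exact Or.inl ⟨k, d.1.2, h, rfl⟩
    · exact Or.inr ⟨k, T.e d.1.1 d.1.2, h, q_e T hk _⟩
  have n1 : ∀ c : ZMod 3, c + 1 ≠ c := by decide
  have n2 : ∀ c : ZMod 3, c + 2 ≠ c := by decide
  let s : D → X := fun d => ⟨T.p (d.1.1 + 1) d.1.2, htp d _ (n1 _)⟩
  let t : D → X := fun d => ⟨T.p (d.1.1 + 2) d.1.2, htp d _ (n2 _)⟩
  -- extension by zero
  let ext : (Y → ℚ) →ₗ[ℚ] (W ⊕ B → ℚ) :=
    { toFun := fun f y => if hy : Sum.elim (· ∈ RW) (· ∈ RB) y then f ⟨y, hy⟩ else 0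
      map_add' := by
        intro f g; funext y
        by_cases hy : Sum.elim (· ∈ RW) (· ∈ RB) y <;> simp [hy]
      map_smul' := by
        intro r f; funext y
        by_cases hy : Sum.elim (· ∈ RW) (· ∈ RB) y <;> simp [hy] }
  have hext : ∀ f (y : Y), ext f y.1 = f y := fun f y => dif_pos y.2
  have hext0 : ∀ f (y : W ⊕ B), ¬ Sum.elim (· ∈ RW) (· ∈ RB) y → ext f y = 0 :=
    fun f y hy => dif_neg hy
  let δ : (Y → ℚ) →ₗ[ℚ] (D → ℚ) :=
    { toFun := fun f d => ext f (Sum.inl d.1.2) - ext f (Sum.inr (T.e d.1.1 d.1.2))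
      map_add' := by
        intro f g; funext d
        show ext (f + g) _ - ext (f + g) _ = (ext f _ - ext f _) + (ext g _ - ext g _)
        rw [map_add, Pi.add_apply, Pi.add_apply]; ring
      map_smul' := by
        intro r f; funext d
        show ext (r • f) _ - ext (r • f) _ = r * (ext f _ - ext f _)
        rw [map_smul, Pi.smul_apply, Pi.smul_apply, smul_eq_mul, smul_eq_mul]; ring }
  have hX : ∀ h : X → ℚ, (∀ d, h (s d) = h (t d)) → ∀ x y, h x = h y := by
    intro h hh
    let u : T.Vert → ℚ := fun v => if hv : Touch T RW RB v then h ⟨v, hv⟩ else 0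
    have hu : ∀ x : X, u x.1 = h x := fun x => dif_pos x.2
    have hs : ∀ c w, ETouch T RW RB (c, w) → u (T.p (c + 1) w) = u (T.p (c + 2) w) := by
      intro c w hd
      have := hh ⟨(c, w), hd⟩
      rw [← hu, ← hu] at this
      exact this
    have key : ∀ A : ZMod 3 → ℚ, (∀ c, A (c + 1) = A (c + 2)) → ∀ i, A i = A 0 := by
      intro A hA i
      have h0 := hA 0
      have h1 := hA 1
      have h2 := hA 2
      have a1 : (1 : ZMod 3) + 1 = 2 := by decide
      have a2 : (1 : ZMod 3) + 2 = 0 := by decide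
      have a3 : (2 : ZMod 3) + 1 = 0 := by decide
      have a4 : (2 : ZMod 3) + 2 = 1 := by decide
      rw [zero_add, zero_add] at h0
      rw [a1, a2] at h1
      rw [a3, a4] at h2
      have : ∀ i : ZMod 3, i = 0 ∨ i = 1 ∨ i = 2 := by decide
      rcases this i with rfl | rfl | rfl
      · rfl
      · exact h2.symm
      · exact h1
    have hw : ∀ w ∈ RW, ∀ i, u (T.p i w) = u (T.p 0 w) := fun w hw =>
      key (fun i => u (T.p i w)) (fun c => hs c w (Or.inl hw))
    have hb : ∀ b ∈ RB, ∀ i, u (T.q i b) = u (T.q 0 b) := by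
      intro b hb
      refine key (fun i => u (T.q i b)) (fun c => ?_)
      have h1 : T.e c ((T.e c).symm b) = b := Equiv.apply_symm_apply _ _
      have := hs c ((T.e c).symm b) (Or.inr (by show T.e c ((T.e c).symm b) ∈ RB; rw [h1]; exact hb))
      rw [← q_e T (n1 c), ← q_e T (n2 c), h1] at this
      exact this
    obtain ⟨a, ha1, ha2⟩ := hR (fun w => u (T.p 0 w)) (fun b => u (T.q 0 b)) (by
      intro c w hw' hb'
      show u (T.p 0 w) = u (T.q 0 (T.e c w))
      rw [← hw w hw' (c + 1), ← hb _ hb' (c + 1), q_e T (n1 c)])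
    have hall : ∀ x : X, h x = a := by
      rintro ⟨v, hv⟩
      rw [← hu]
      rcases hv with ⟨i, w, hw', rfl⟩ | ⟨i, b, hb', rfl⟩
      · exact (hw w hw' i).trans (ha1 w hw')
      · exact (hb b hb' i).trans (ha2 b hb')
    intro x y
    rw [hall, hall]
  have hδ : Function.Injective δ := by
    rw [← LinearMap.ker_eq_bot, LinearMap.ker_eq_bot']
    intro f hf
    have h1 : ∀ c w, ext f (Sum.inl w) = ext f (Sum.inr (T.e c w)) := by
      intro c w
      by_cases hd : ETouch T RW RB (c, w)
      · exact sub_eq_zero.1 (congrFun hf ⟨(c, w), hd⟩)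
      · have hd' := not_or.1 hd
        rw [hext0 f (Sum.inl w) hd'.1, hext0 f (Sum.inr (T.e c w)) hd'.2]
    have h2 := const_of_conn T hc (fun w => ext f (Sum.inl w)) (fun b => ext f (Sum.inr b)) h1 w0
    have h3 : ext f (Sum.inl w0) = 0 := by
      rcases hne with ⟨w, hw⟩ | ⟨b, hb⟩
      · rw [← h2.1 w]; exact hext0 f (Sum.inl w) hw
      · rw [← h2.2 b]; exact hext0 f (Sum.inr b) hb
    funext y
    rw [← hext f y]
    show ext f y.1 = 0
    rcases y.1 with w | b
    · exact (h2.1 w).trans h3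
    · exact (h2.2 b).trans h3
  have hzero : ∀ f, (inc ℚ s t) *ᵥ (δ f) = 0 := by
    intro f
    funext x
    rw [inc_mulVec]
    refine Eq.trans ?_ (bdry_zero T (fun w => ext f (Sum.inl w)) (fun b => ext f (Sum.inr b)) x.1)
    have hsub : ∀ G : ZMod 3 × W → ℚ, (∀ d, ¬ ETouch T RW RB d → G d = 0) →
        ∑ d : ZMod 3 × W, G d = ∑ d : D, G d.1 := by
      intro G hG
      rw [← Finset.sum_subtype (Finset.univ.filter (fun d => ETouch T RW RB d)) (by simp)]
      rw [Finset.sum_filter_of_ne]
      intro d _ hd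
      by_contra hcon
      exact hd (hG d hcon)
    rw [hsub]
    · refine Finset.sum_congr rfl (fun d _ => ?_)
      have i1 : (s d = x) ↔ (T.p (d.1.1 + 1) d.1.2 = x.1) := Subtype.ext_iff
      have i2 : (t d = x) ↔ (T.p (d.1.1 + 2) d.1.2 = x.1) := Subtype.ext_iff
      simp only [i1, i2]
      rfl
    · intro d hd
      have hd' := not_or.1 hd
      rw [hext0 f (Sum.inl d.2) hd'.1, hext0 f (Sum.inr (T.e d.1 d.2)) hd'.2]
      simp
  have hmain := card_add_card_le (F := ℚ) s t hX δ hδ hzero
  have hcY : Fintype.card Y = Nat.card RW + Nat.card RB := by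
    rw [← Nat.card_eq_fintype_card]
    have e : Y ≃ RW ⊕ RB := Equiv.subtypeSum
    rw [Nat.card_congr e, Nat.card_sum]
  rw [← hcY, Nat.card_eq_fintype_card, Nat.card_eq_fintype_card]
  exact hmain

end Crest.Agent.R039.Crit
end

-- ▼ part R039/Crit365B
section

/-!
# Row 39: the criterion (helper365)

A rooted colouring of the vertices in which every white face `w ≠ w0` has a bichromatic edge
opposite to `mu w` gives a perfect matching with connected complement (a Hamiltonian cycle).
-/

set_option autoImplicit false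

namespace Crest.Agent.R039.Crit

variable {W B : Type*} (T : Tri W B)

/-- the mono edge of a non-constant 0/1 triangle -/
theorem exists_mono (f : ZMod 3 → ZMod 2) : ∃ k, f (k + 1) = f (k + 2) := by
  revert f; decide

theorem mono_unique (f : ZMod 3 → ZMod 2) (k : ZMod 3) (hk : f (k + 1) ≠ f (k + 2))
    {a b : ZMod 3} (ha : f (a + 1) = f (a + 2)) (hb : f (b + 1) = f (b + 2)) : a = b := by
  revert f k a b; decide

theorem mono_unique0 (f : ZMod 3 → ZMod 2) (k : ZMod 3) (hk : f (k + 1) = f (k + 2))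
    (hk' : f k ≠ f (k + 1)) {a : ZMod 3} (ha : f (a + 1) = f (a + 2)) : a = k := by
  revert f k a; decide

theorem card_B {W B : Type*} (T : Tri W B) : Nat.card B = Nat.card W :=
  (Nat.card_congr (T.e 0)).symm

theorem card_split {α : Type*} [Finite α] (P Q : α → Prop) :
    Nat.card {a // P a ∧ Q a} + Nat.card {a // P a ∧ ¬ Q a} = Nat.card {a // P a} := by
  classical
  have := Fintype.ofFinite α
  rw [Nat.card_eq_fintype_card, Nat.card_eq_fintype_card, Nat.card_eq_fintype_card,
    Fintype.card_subtype, Fintype.card_subtype, Fintype.card_subtype]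
  have h1 := Finset.card_filter_add_card_filter_not (s := Finset.univ.filter P) Q
  rw [Finset.filter_filter, Finset.filter_filter] at h1
  exact h1

theorem card_compl {α : Type*} [Finite α] (P : α → Prop) :
    Nat.card {a // P a} + Nat.card {a // ¬ P a} = Nat.card α := by
  classical
  have := Fintype.ofFinite α
  rw [Nat.card_eq_fintype_card, Nat.card_eq_fintype_card, Nat.card_eq_fintype_card,
    Fintype.card_subtype_compl, Nat.add_sub_cancel' (Fintype.card_subtype_le _)]

theorem card_snd (P : W → Prop) :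
    Nat.card {d : ZMod 3 × W // P d.2} = 3 * Nat.card {w // P w} := by
  have e : {d : ZMod 3 × W // P d.2} ≃ ZMod 3 × {w // P w} :=
    { toFun := fun d => (d.1.1, ⟨d.1.2, d.2⟩)
      invFun := fun d => ⟨(d.1, d.2.1), d.2.2⟩
      left_inv := fun d => rfl
      right_inv := fun d => rfl }
  rw [Nat.card_congr e, Nat.card_prod]
  simp

theorem card_snd' (P : B → Prop) :
    Nat.card {d : ZMod 3 × W // P (T.e d.1 d.2)} = 3 * Nat.card {b // P b} := by
  have e : {d : ZMod 3 × W // P (T.e d.1 d.2)} ≃ ZMod 3 × {b // P b} :=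
    { toFun := fun d => (d.1.1, ⟨T.e d.1.1 d.1.2, d.2⟩)
      invFun := fun d => ⟨(d.1, (T.e d.1).symm d.2.1), by
        show P (T.e d.1 ((T.e d.1).symm d.2.1))
        rw [Equiv.apply_symm_apply]; exact d.2.2⟩
      left_inv := fun d => by
        refine Subtype.ext (Prod.ext rfl ?_)
        exact Equiv.symm_apply_apply _ _
      right_inv := fun d => by
        refine Prod.ext rfl (Subtype.ext ?_)
        exact Equiv.apply_symm_apply _ _ }
  rw [Nat.card_congr e, Nat.card_prod]
  simp

/-- edges with a prescribed colour -/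
theorem card_edge (n : W → ZMod 3) (P : ZMod 3 × W → Prop) (hP : ∀ d, P d → d.1 = n d.2) :
    Nat.card {d : ZMod 3 × W // P d} = Nat.card {w // P (n w, w)} := by
  refine Nat.card_congr
    { toFun := fun d => ⟨d.1.2, by
        have := hP d.1 d.2
        rw [← this]; exact d.2⟩
      invFun := fun w => ⟨(n w.1, w.1), w.2⟩
      left_inv := fun d => by
        refine Subtype.ext (Prod.ext ?_ rfl)
        exact (hP d.1 d.2).symm
      right_inv := fun w => rfl }

/-- the vertices on `w0` -/
theorem card_root (w0 : W) : Nat.card {v : T.Vert // ∃ j, v = T.p j w0} = 3 := by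
  have e : ZMod 3 ≃ {v : T.Vert // ∃ j, v = T.p j w0} := by
    refine Equiv.ofBijective (fun j => ⟨T.p j w0, j, rfl⟩) ⟨?_, ?_⟩
    · intro i j h
      have h1 := congrArg (fun z => z.1.1) h
      exact h1
    · rintro ⟨v, j, rfl⟩
      exact ⟨j, rfl⟩
  rw [← Nat.card_congr e]
  simp

/-- `mu` is onto the vertices off `w0` -/
theorem exists_mu [Finite W] [Finite B] (hg : T.Genus0) (w0 : W) (m : W → ZMod 3)
    (hroot : ∀ w, w ≠ w0 → T.p (m w) w ≠ T.p (m w) w0)
    (hinj : ∀ w w', w ≠ w0 → w' ≠ w0 → T.p (m w) w = T.p (m w') w' → w = w')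
    (v : T.Vert) (hv : ∀ j, v ≠ T.p j w0) : ∃ w, w ≠ w0 ∧ T.p (m w) w = v := by
  classical
  have := Fintype.ofFinite W
  have := Fintype.ofFinite B
  have := Fintype.ofFinite T.Vert
  let f : {w : W // w ≠ w0} → {v : T.Vert // ¬ ∃ j, v = T.p j w0} := fun w =>
    ⟨T.p (m w.1) w.1, by
      rintro ⟨j, hj⟩
      have h1 : m w.1 = j := congrArg (fun z => z.1) hj
      rw [← h1] at hj
      exact hroot w.1 w.2 hj⟩
  have hf : Function.Injective f := by
    intro a b h
    exact Subtype.ext (hinj _ _ a.2 b.2 (congrArg Subtype.val h))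
  have h1 : Fintype.card {w : W // w ≠ w0} = Fintype.card W - 1 := by
    have := Fintype.card_subtype_compl (fun w : W => w = w0)
    rw [Fintype.card_subtype_eq] at this
    exact this
  have h2 : Fintype.card {v : T.Vert // ¬ ∃ j, v = T.p j w0} = Fintype.card T.Vert - 3 := by
    rw [Fintype.card_subtype_compl, ← Nat.card_eq_fintype_card (α := {v : T.Vert // ∃ j, v = T.p j w0}),
      card_root]
  have h3 : Fintype.card T.Vert = Fintype.card W + 2 := by
    rw [← Nat.card_eq_fintype_card, ← Nat.card_eq_fintype_card]; exact hg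
  have h4 : 0 < Fintype.card W := Fintype.card_pos_iff.2 ⟨w0⟩
  have hbij : Function.Bijective f := by
    rw [Fintype.bijective_iff_injective_and_card]
    exact ⟨hf, by omega⟩
  obtain ⟨w, hw⟩ := hbij.2 ⟨v, by rintro ⟨j, hj⟩; exact hv j hj⟩
  exact ⟨w.1, w.2, congrArg Subtype.val hw⟩

/-- closed sets of the complement of the matching `n` -/
def Closed (n : W → ZMod 3) (S : Set W) : Prop :=
  ∀ w ∈ S, ∀ w' c c', c ≠ n w → c' ≠ n w' → T.e c w = T.e c' w' → w' ∈ S

theorem Closed.compl {n : W → ZMod 3} {S : Set W} (h : Closed T n S) : Closed T n Sᶜ := by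
  intro w hw w' c c' hc hc' he hw'
  exact hw (h w' hw' w c' c hc' hc he.symm)

/-- COUNTING: the region of `w0` is everything -/
theorem count [Finite W] [Finite B] (hc : T.Conn) (hg : T.Genus0) (w0 : W) (m n : W → ZMod 3)
    (hmu : ∀ v : T.Vert, (∀ j, v ≠ T.p j w0) → ∃ w, w ≠ w0 ∧ T.p (m w) w = v)
    (hmn : ∀ w, w ≠ w0 → m w ≠ n w)
    (hbij : Function.Bijective (fun w => T.e (n w) w))
    (RW : Set W) (hw0 : w0 ∈ RW) (hcl : Closed T n RW)
    (hmin : ∀ S : Set W, w0 ∈ S → Closed T n S → RW ⊆ S) : RW = Set.univ := by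
  classical
  have := Fintype.ofFinite W
  have := Fintype.ofFinite B
  have := Fintype.ofFinite T.Vert
  by_contra hne
  obtain ⟨w1, hw1⟩ : ∃ w, w ∉ RW := by
    by_contra hcon
    push Not at hcon
    exact hne (Set.eq_univ_of_forall hcon)
  let RB : Set B := {b | ∃ w ∈ RW, ∃ c, c ≠ n w ∧ T.e c w = b}
  have hconn : RConn T RW RB := by
    intro h g hh
    refine ⟨h w0, ?_⟩
    have h1 : ∀ w ∈ RW, h w = h w0 := by
      have hsub := hmin {w | w ∈ RW ∧ h w = h w0} ⟨hw0, rfl⟩ (by
        rintro w ⟨hw, hw'⟩ w' c c' hcc hcc' he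
        have hw2 : w' ∈ RW := hcl w hw w' c c' hcc hcc' he
        refine ⟨hw2, ?_⟩
        have hb : T.e c w ∈ RB := ⟨w, hw, c, hcc, rfl⟩
        rw [← hw', hh c w hw hb, he, ← hh c' w' hw2 (by rw [← he]; exact hb)])
      intro w hw
      exact (hsub hw).2
    refine ⟨h1, ?_⟩
    rintro b hb
    obtain ⟨w, hw, c, hcc, rfl⟩ := hb
    rw [← hh c w hw ⟨w, hw, c, hcc, rfl⟩]
    exact h1 w hw
  have hE := euler_le T hc RW RB (Or.inl ⟨w1, hw1⟩) hconn
  -- boundary edges are mono
  have hm1 : ∀ c w, w ∈ RW → T.e c w ∉ RB → c = n w := by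
    intro c w hw hb
    by_contra hcon
    exact hb ⟨w, hw, c, hcon, rfl⟩
  have hm2 : ∀ c w, w ∉ RW → T.e c w ∈ RB → c = n w := by
    intro c w hw hb
    by_contra hcon
    obtain ⟨w', hw', c', hcc', he⟩ := hb
    exact hw (hcl w' hw' w c' c hcc' hcon he)
  -- numbers
  let NW := Nat.card W
  have hNB : Nat.card B = Nat.card W := card_B T
  have hV : Nat.card T.Vert = Nat.card W + 2 := hg
  -- edges
  have c1 := card_compl (fun d : ZMod 3 × W => ETouch T RW RB d)
  have c2 : Nat.card {d : ZMod 3 × W // ¬ ETouch T RW RB d}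
      = Nat.card {d : ZMod 3 × W // d.2 ∉ RW ∧ ¬ T.e d.1 d.2 ∈ RB} :=
    Nat.card_congr (Equiv.subtypeEquivRight (fun d => not_or))
  have c3 := card_split (fun d : ZMod 3 × W => d.2 ∉ RW) (fun d => T.e d.1 d.2 ∈ RB)
  have c4 : Nat.card {d : ZMod 3 × W // d.2 ∉ RW} = 3 * Nat.card {w // w ∉ RW} :=
    card_snd (fun w => w ∉ RW)
  have c5 := card_split (fun d : ZMod 3 × W => ¬ T.e d.1 d.2 ∈ RB) (fun d => d.2 ∈ RW)
  have c6 : Nat.card {d : ZMod 3 × W // ¬ T.e d.1 d.2 ∈ RB} = 3 * Nat.card {b // b ∉ RB} :=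
    card_snd' T (fun b => b ∉ RB)
  have c7 : Nat.card {d : ZMod 3 × W // ¬ T.e d.1 d.2 ∈ RB ∧ ¬ d.2 ∈ RW}
      = Nat.card {d : ZMod 3 × W // d.2 ∉ RW ∧ ¬ T.e d.1 d.2 ∈ RB} :=
    Nat.card_congr (Equiv.subtypeEquivRight (fun d => and_comm))
  have c8 := card_edge n (fun d : ZMod 3 × W => d.2 ∉ RW ∧ T.e d.1 d.2 ∈ RB)
    (fun d hd => hm2 d.1 d.2 hd.1 hd.2)
  have c9 := card_edge n (fun d : ZMod 3 × W => ¬ T.e d.1 d.2 ∈ RB ∧ d.2 ∈ RW)
    (fun d hd => hm1 d.1 d.2 hd.2 hd.1)
  have c10 := card_split (fun w : W => w ∉ RW) (fun w => T.e (n w) w ∈ RB)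
  have c11 := card_split (fun w : W => ¬ T.e (n w) w ∈ RB) (fun w => w ∈ RW)
  have c12 : Nat.card {w : W // ¬ T.e (n w) w ∈ RB} = Nat.card {b // b ∉ RB} := by
    refine Nat.card_congr ((Equiv.ofBijective _ hbij).subtypeEquiv (fun w => ?_))
    exact Iff.rfl
  have c13 : Nat.card {w : W // ¬ T.e (n w) w ∈ RB ∧ ¬ w ∈ RW}
      = Nat.card {w : W // w ∉ RW ∧ ¬ T.e (n w) w ∈ RB} :=
    Nat.card_congr (Equiv.subtypeEquivRight (fun d => and_comm))
  have c14 := card_compl (fun w : W => w ∈ RW)
  have c15 := card_compl (fun b : B => b ∈ RB)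
  have c16 := card_compl (fun v : T.Vert => Touch T RW RB v)
  have c17 : Nat.card (ZMod 3 × W) = 3 * Nat.card W := by
    rw [Nat.card_prod]; simp
  -- the vertices off the region
  have hoff : ∀ v : {v : T.Vert // ¬ Touch T RW RB v}, ∃ w, w ≠ w0 ∧ T.p (m w) w = v.1 := by
    rintro ⟨v, hv⟩
    refine hmu v (fun j hj => ?_)
    exact hv (Or.inl ⟨j, w0, hw0, hj.symm⟩)
  choose g hg1 hg2 using hoff
  have c18 : Nat.card {v : T.Vert // ¬ Touch T RW RB v}
      ≤ Nat.card {w : W // w ∉ RW ∧ ¬ T.e (n w) w ∈ RB} := by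
    refine Nat.card_le_card_of_injective (fun v => ⟨g v, ?_, ?_⟩) ?_
    · intro hw
      exact v.2 (Or.inl ⟨m (g v), g v, hw, hg2 v⟩)
    · intro hb
      refine v.2 (Or.inr ⟨m (g v), _, hb, ?_⟩)
      rw [q_e T (hmn _ (hg1 v)), hg2]
    · intro v v' h
      have h1 : g v = g v' := congrArg Subtype.val h
      refine Subtype.ext ?_
      rw [← hg2 v, ← hg2 v', h1]
  have c19 : Nat.card RW = Nat.card {w // w ∈ RW} := rfl
  have c20 : Nat.card RB = Nat.card {b // b ∈ RB} := rfl
  simp only [] at c1 c3 c5 c8 c9 c10 c11 c14 c15 c16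
  omega

/-- THE CRITERION -/
theorem crit [Finite W] [Finite B] (hc : T.Conn) (hg : T.Genus0) (w0 : W) (m : W → ZMod 3)
    (hroot : ∀ w, w ≠ w0 → T.p (m w) w ≠ T.p (m w) w0)
    (hinj : ∀ w w', w ≠ w0 → w' ≠ w0 → T.p (m w) w = T.p (m w') w' → w = w')
    (x : T.Vert → ZMod 2) (hx : ∀ w, w ≠ w0 → x (T.p (m w + 1) w) ≠ x (T.p (m w + 2) w))
    (c0 : ZMod 3) (h0 : x (T.p (c0 + 1) w0) = x (T.p (c0 + 2) w0))
    (h0' : x (T.p c0 w0) ≠ x (T.p (c0 + 1) w0)) :
    ∃ n : W → ZMod 3, (Function.Bijective (fun w => T.e (n w) w) ∧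
      ∀ S : Set W, S.Nonempty → (∀ w ∈ S, ∀ w' c c', c ≠ n w → c' ≠ n w' →
        T.e c w = T.e c' w' → w' ∈ S) → S = Set.univ) ∧ n w0 = c0 := by
  classical
  have := Fintype.ofFinite W
  have := Fintype.ofFinite B
  have hex : ∀ w, ∃ k, x (T.p (k + 1) w) = x (T.p (k + 2) w) := fun w =>
    exists_mono (fun i => x (T.p i w))
  choose n hn using hex
  have huniq : ∀ w a, x (T.p (a + 1) w) = x (T.p (a + 2) w) → a = n w := by
    intro w a ha
    by_cases hw : w = w0
    · subst hw
      have h1 := mono_unique0 (fun i => x (T.p i w)) c0 h0 h0' ha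
      have h2 := mono_unique0 (fun i => x (T.p i w)) c0 h0 h0' (hn w)
      rw [h1, h2]
    · exact mono_unique (fun i => x (T.p i w)) (m w) (hx w hw) ha (hn w)
  have n1 : ∀ c : ZMod 3, c + 1 ≠ c := by decide
  have n2 : ∀ c : ZMod 3, c + 2 ≠ c := by decide
  have hsurj : Function.Surjective (fun w => T.e (n w) w) := by
    intro b
    obtain ⟨c, hcc⟩ := exists_mono (fun i => x (T.q i b))
    refine ⟨(T.e c).symm b, ?_⟩
    have h1 : T.e c ((T.e c).symm b) = b := Equiv.apply_symm_apply _ _
    have h2 : c = n ((T.e c).symm b) := by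
      apply huniq
      rw [← q_e T (n1 c), ← q_e T (n2 c), h1]
      exact hcc
    show T.e (n ((T.e c).symm b)) ((T.e c).symm b) = b
    rw [← h2, h1]
  have hbij : Function.Bijective (fun w => T.e (n w) w) := by
    rw [Fintype.bijective_iff_surjective_and_card]
    exact ⟨hsurj, Fintype.card_congr (T.e 0)⟩
  have hmn : ∀ w, w ≠ w0 → m w ≠ n w := by
    intro w hw h
    apply hx w hw
    rw [h]; exact hn w
  have hmu := exists_mu T hg w0 m hroot hinj
  -- the region of `w0`
  let RW : Set W := {w | ∀ S : Set W, w0 ∈ S → Closed T n S → w ∈ S}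
  have hw0 : w0 ∈ RW := fun S h _ => h
  have hmin : ∀ S : Set W, w0 ∈ S → Closed T n S → RW ⊆ S := fun S h h' w hw => hw S h h'
  have hcl : Closed T n RW := by
    intro w hw w' c c' hcc hcc' he S hS hS'
    exact hS' w (hw S hS hS') w' c c' hcc hcc' he
  have hall := count T hc hg w0 m n hmu hmn hbij RW hw0 hcl hmin
  refine ⟨n, ⟨hbij, ?_⟩, (huniq w0 c0 h0).symm⟩
  intro S hS hSc
  by_cases h : w0 ∈ S
  · have := hmin S h hSc
    rw [hall] at this
    exact Set.univ_subset_iff.1 this
  · have h1 := hmin Sᶜ h (Closed.compl T hSc)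
    rw [hall] at h1
    have h2 := Set.univ_subset_iff.1 h1
    rw [Set.compl_univ_iff] at h2
    rw [h2] at hS
    exact absurd hS Set.not_nonempty_empty

end Crest.Agent.R039.Crit
end

-- ▼ part R039/Col31
section

/-!
# Row 39: non-zero determinant of the signed incidence matrix => 2-colouring with prescribed roots

`exists_colour` (abstract): if a graph (edges `E`, ends `a w`, `b w`) has as many edges as non-root
vertices and only the zero integer function vanishes on the roots and is constant along edges, then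
every prescription of `ZMod 2` values on the roots extends to a colouring with all edges bichromatic.

`GM T w0 m` : the signed incidence matrix of `Γ_m`, both index sets being the white faces `≠ w0`
(row `w'` stands for the vertex `T.p (m w') w'`).
`exists_colour_of_det` : `det (GM T w0 m) ≠ 0` gives the colouring.
-/

set_option autoImplicit false

namespace Crest.Agent.R039.Col31

open Matrix

section abstract_part

variable {X E : Type*}

/-- extension by zero -/
noncomputable def ext0 (R : X → Prop) : ({v : X // ¬ R v} → ZMod 2) →ₗ[ZMod 2] (X → ZMod 2) := by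
  classical
  exact
  { toFun := fun y v => if h : R v then 0 else y ⟨v, h⟩
    map_add' := by
      intro y z; funext v
      by_cases h : R v
      · simp [h]
      · simp [h]
    map_smul' := by
      intro c y; funext v
      by_cases h : R v
      · simp [h]
      · simp [h] }

theorem ext0_of_root (R : X → Prop) (y : {v : X // ¬ R v} → ZMod 2) {v : X} (h : R v) :
    ext0 R y v = 0 := by
  classical
  show (if h : R v then (0 : ZMod 2) else y ⟨v, h⟩) = 0
  rw [dif_pos h]

theorem ext0_of_not (R : X → Prop) (y : {v : X // ¬ R v} → ZMod 2) {v : X} (h : ¬ R v) :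
    ext0 R y v = y ⟨v, h⟩ := by
  classical
  show (if h : R v then (0 : ZMod 2) else y ⟨v, h⟩) = _
  rw [dif_neg h]

/-- the mod-2 edge map -/
noncomputable def edge2 (R : X → Prop) (a b : E → X) :
    ({v : X // ¬ R v} → ZMod 2) →ₗ[ZMod 2] (E → ZMod 2) where
  toFun y w := ext0 R y (a w) + ext0 R y (b w)
  map_add' := by
    intro y z; funext w
    simp only [map_add, Pi.add_apply]; ring
  map_smul' := by
    intro c y; funext w
    simp only [map_smul, Pi.smul_apply, smul_eq_mul, RingHom.id_apply]; ring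

/-- the integer lift of an element of `ZMod 2` -/
def lift2 (x : ZMod 2) : ℤ := if x = 0 then 0 else 1

theorem lift2_inj {x y : ZMod 2} (h : lift2 x = lift2 y) : x = y := by
  revert h; revert x y; decide


/-- THE ABSTRACT STATEMENT -/
theorem exists_colour [Finite X] [Finite E] (R : X → Prop) (a b : E → X)
    (hcard : Nat.card {v : X // ¬ R v} = Nat.card E)
    (hker : ∀ y : X → ℤ, (∀ v, R v → y v = 0) → (∀ w, y (a w) = y (b w)) → ∀ v, y v = 0)
    (x0 : X → ZMod 2) :
    ∃ x : X → ZMod 2, (∀ v, R v → x v = x0 v) ∧ ∀ w, x (a w) ≠ x (b w) := by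
  classical
  have := Fintype.ofFinite X
  have := Fintype.ofFinite E
  have hinj : Function.Injective (edge2 R a b) := by
    rw [injective_iff_map_eq_zero]
    intro y hy
    have h1 : ∀ w, lift2 (ext0 R y (a w)) = lift2 (ext0 R y (b w)) := by
      intro w
      have h2 : ext0 R y (a w) + ext0 R y (b w) = 0 := congrFun hy w
      have h3 : ∀ p q : ZMod 2, p + q = 0 → p = q := by decide
      rw [h3 _ _ h2]
    have h2 := hker (fun v => lift2 (ext0 R y v)) (fun v hv => by
      show lift2 (ext0 R y v) = 0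
      rw [ext0_of_root R y hv]; rfl) h1
    funext v
    have h3 := h2 v.1
    have h4 : lift2 (ext0 R y v.1) = lift2 0 := h3
    have h5 := lift2_inj h4
    rw [ext0_of_not R y v.2] at h5
    exact h5
  have hfr : Module.finrank (ZMod 2) ({v : X // ¬ R v} → ZMod 2)
      = Module.finrank (ZMod 2) (E → ZMod 2) := by
    rw [Module.finrank_fintype_fun_eq_card, Module.finrank_fintype_fun_eq_card,
      ← Nat.card_eq_fintype_card, ← Nat.card_eq_fintype_card, hcard]
  have hsurj : Function.Surjective (edge2 R a b) :=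
    (LinearMap.injective_iff_surjective_of_finrank_eq_finrank hfr).1 hinj
  let x1 : X → ZMod 2 := fun v => if R v then x0 v else 0
  obtain ⟨y, hy⟩ := hsurj (fun w => 1 + x1 (a w) + x1 (b w))
  refine ⟨fun v => ext0 R y v + x1 v, ?_, ?_⟩
  · intro v hv
    show ext0 R y v + x1 v = x0 v
    rw [ext0_of_root R y hv, zero_add]
    exact if_pos hv
  · intro w h
    have h1 : ext0 R y (a w) + ext0 R y (b w) = 1 + x1 (a w) + x1 (b w) := congrFun hy w
    have h2 : ext0 R y (a w) + x1 (a w) = ext0 R y (b w) + x1 (b w) := h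
    revert h1 h2
    generalize ext0 R y (a w) = p
    generalize ext0 R y (b w) = q
    generalize x1 (a w) = r
    generalize x1 (b w) = t
    revert p q r t
    decide


end abstract_part

section tri

variable {W B : Type*} (T : Tri W B)

/-- a vertex of the white face `w` -/
def On (w : W) (v : T.Vert) : Prop := ∃ i, T.p i w = v


theorem p_col_inj {i j : ZMod 3} {w w' : W} (h : T.p i w = T.p j w') : i = j :=
  (T.p_eq_iff.1 h).1


/-- number of vertices off a white face -/
theorem card_off [Finite W] (hg : T.Genus0) (w0 : W) :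
    Nat.card {v : T.Vert // ¬ On T w0 v} + 1 = Nat.card W := by
  classical
  have hfin : Finite T.Vert := by unfold Tri.Vert Tri.VertC; infer_instance
  have := Fintype.ofFinite T.Vert
  have := Fintype.ofFinite W
  have h1 : Nat.card T.Vert = Nat.card W + 2 := hg
  have h2 : Nat.card {v : T.Vert // On T w0 v} = 3 := by
    have e : ZMod 3 ≃ {v : T.Vert // On T w0 v} := by
      refine Equiv.ofBijective (fun i => ⟨T.p i w0, i, rfl⟩) ⟨?_, ?_⟩
      · intro i j h
        exact p_col_inj T (congrArg Subtype.val h)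
      · rintro ⟨v, i, rfl⟩
        exact ⟨i, rfl⟩
    rw [← Nat.card_congr e, Nat.card_zmod]
  have h3 := Nat.card_congr (Equiv.sumCompl (On T w0))
  rw [Nat.card_sum] at h3
  omega




/-- COLOURING FROM THE KERNEL FORM (`Tri.Tree` of the row plan) -/
theorem exists_colour_of_ker [Finite W] (hg : T.Genus0) (w0 : W) (m : W → ZMod 3)
    (hker : ∀ x : T.Vert → ℤ, (∀ j, x (T.p j w0) = 0) →
      (∀ w, w ≠ w0 → x (T.p (m w + 1) w) = x (T.p (m w + 2) w)) → ∀ v, x v = 0)
    (x0 : T.Vert → ZMod 2) :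
    ∃ x : T.Vert → ZMod 2, (∀ i, x (T.p i w0) = x0 (T.p i w0)) ∧
      ∀ w, w ≠ w0 → x (T.p (m w + 1) w) ≠ x (T.p (m w + 2) w) := by
  classical
  have hfin : Finite T.Vert := by unfold Tri.Vert Tri.VertC; infer_instance
  have := Fintype.ofFinite W
  obtain ⟨x, hx1, hx2⟩ := exists_colour (X := T.Vert) (E := {w : W // w ≠ w0})
    (On T w0) (fun w => T.p (m w.1 + 1) w.1) (fun w => T.p (m w.1 + 2) w.1)
    (by
      have h1 := card_off T hg w0
      have h2 : Fintype.card {w : W // w ≠ w0} = Fintype.card W - 1 := by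
        have h3 := Fintype.card_subtype_compl (fun w : W => w = w0)
        rw [Fintype.card_subtype_eq] at h3
        exact h3
      rw [Nat.card_eq_fintype_card (α := {w : W // w ≠ w0}), h2]
      rw [Nat.card_eq_fintype_card (α := W)] at h1
      omega)
    (fun y hy0 hy => hker y (fun j => hy0 _ ⟨j, rfl⟩) (fun w hw => hy ⟨w, hw⟩)) x0
  exact ⟨x, fun i => hx1 _ ⟨i, rfl⟩, fun w hw => hx2 ⟨w, hw⟩⟩

/-- prescribed monochromatic edge of the root face, kernel form -/
theorem exists_colour_root_of_ker [Finite W] (hg : T.Genus0) (w0 : W) (m : W → ZMod 3)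
    (hker : ∀ x : T.Vert → ℤ, (∀ j, x (T.p j w0) = 0) →
      (∀ w, w ≠ w0 → x (T.p (m w + 1) w) = x (T.p (m w + 2) w)) → ∀ v, x v = 0) (k : ZMod 3) :
    ∃ x : T.Vert → ZMod 2, x (T.p (k + 1) w0) = x (T.p (k + 2) w0) ∧
      x (T.p k w0) ≠ x (T.p (k + 1) w0) ∧
      ∀ w, w ≠ w0 → x (T.p (m w + 1) w) ≠ x (T.p (m w + 2) w) := by
  obtain ⟨x, h1, h2⟩ := exists_colour_of_ker T hg w0 m hker
    (fun v => if v.1 = k then 1 else 0)
  have e1 : ∀ k : ZMod 3, k + 1 ≠ k := by decide
  have e2 : ∀ k : ZMod 3, k + 2 ≠ k := by decide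
  have f0 : x (T.p k w0) = 1 := by rw [h1]; exact if_pos rfl
  have f1 : x (T.p (k + 1) w0) = 0 := by rw [h1]; exact if_neg (e1 k)
  have f2 : x (T.p (k + 2) w0) = 0 := by rw [h1]; exact if_neg (e2 k)
  refine ⟨x, by rw [f1, f2], by rw [f0, f1]; decide, h2⟩


end tri

end Crest.Agent.R039.Col31
end

-- ▼ part R039/Crit365C
section

/-!
# Row 39: BLOCK B3 (helper365, with helper31's colouring)
-/

set_option autoImplicit false

namespace Crest.Agent.R039.Crit

theorem blockCrit : BlockCrit := by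
  intro W B _ _ _ _ T hc hg w0 m hT c0
  obtain ⟨x, h0, h0', hx⟩ := Col31.exists_colour_root_of_ker T hg w0 m hT.2 c0
  exact crit T hc hg w0 m hT.1.1 hT.1.2 x hx c0 h0 h0'

end Crest.Agent.R039.Crit
end

-- ▼ part R039/Genus300
section

/-!
# Row 39: Euler's inequality for connected `Tri`, and `Genus0` from dual exactness
-/

set_option autoImplicit false
set_option linter.unusedSectionVars false

namespace Crest.Agent.R039

open Crest.Agent.R039.Map
open scoped Matrix

namespace Rank300

section rank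

variable {D X Y F : Type*} [Fintype D] [Fintype X] [Fintype Y] [DecidableEq X] [DecidableEq Y]
  [Field F]

/-- the rank of an incidence matrix is at most `|X| - 1` -/
theorem rank_inc_lt [Nonempty X] (s t : D → X) : (inc F s t).rank + 1 ≤ Fintype.card X := by
  have h1 : (inc F s t)ᵀ.rank = (inc F s t).rank := Matrix.rank_transpose _
  have h2 := LinearMap.finrank_range_add_finrank_ker ((inc F s t)ᵀ.mulVecLin)
  rw [Module.finrank_fintype_fun_eq_card] at h2
  have h4 : (inc F s t)ᵀ.rank = Module.finrank F (LinearMap.range ((inc F s t)ᵀ.mulVecLin)) := rfl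
  have h3 : 1 ≤ Module.finrank F (LinearMap.ker ((inc F s t)ᵀ.mulVecLin)) := by
    have hmem : (fun _ : X => (1 : F)) ∈ LinearMap.ker ((inc F s t)ᵀ.mulVecLin) := by
      rw [LinearMap.mem_ker, Matrix.mulVecLin_apply, inc_transpose_mulVec]
      funext d; simp
    have hne : (⟨fun _ : X => (1 : F), hmem⟩ : LinearMap.ker ((inc F s t)ᵀ.mulVecLin)) ≠ 0 := by
      intro h
      have h' := congrArg Subtype.val h
      obtain ⟨x⟩ := (inferInstance : Nonempty X)
      have h'' := congrFun h' x
      exact one_ne_zero h''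
    have : Nontrivial (LinearMap.ker ((inc F s t)ᵀ.mulVecLin)) := ⟨⟨_, _, hne⟩⟩
    exact Module.finrank_pos
  omega

/-- EULER'S INEQUALITY: `|X| + |Y| ≤ |D| + 2` -/
theorem euler_le (F : Type*) [Field F] (s t : D → X) (l r : D → Y)
    (hX : ∀ h : X → F, (∀ d, h (s d) = h (t d)) → ∀ x y, h x = h y)
    (hY : ∀ h : Y → F, (∀ d, h (l d) = h (r d)) → ∀ x y, h x = h y)
    (hzero : ∀ f : Y → F, (inc F s t) *ᵥ (fun d => f (l d) - f (r d)) = 0) :
    Fintype.card X + Fintype.card Y ≤ Fintype.card D + 2 := by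
  have r1 := card_le_rank_inc (F := F) s t hX
  have r2 := card_le_rank_inc (F := F) l r hY
  have h2 := LinearMap.finrank_range_add_finrank_ker ((inc F s t).mulVecLin)
  rw [Module.finrank_fintype_fun_eq_card] at h2
  have h3 : (inc F s t).rank = Module.finrank F (LinearMap.range ((inc F s t).mulVecLin)) := rfl
  have h4 : (inc F l r)ᵀ.rank = (inc F l r).rank := Matrix.rank_transpose _
  have h5 : (inc F l r)ᵀ.rank = Module.finrank F (LinearMap.range ((inc F l r)ᵀ.mulVecLin)) := rfl
  have hle : LinearMap.range ((inc F l r)ᵀ.mulVecLin) ≤ LinearMap.ker ((inc F s t).mulVecLin) := by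
    rintro _ ⟨f, rfl⟩
    rw [LinearMap.mem_ker, Matrix.mulVecLin_apply, Matrix.mulVecLin_apply, inc_transpose_mulVec]
    exact hzero f
  have h6 := Submodule.finrank_mono hle
  omega

/-- the other inequality from exactness -/
theorem euler_ge (F : Type*) [Field F] [Nonempty X] [Nonempty Y] (s t : D → X) (l r : D → Y)
    (hex : ∀ g : D → F, (inc F s t) *ᵥ g = 0 → ∃ f : Y → F, ∀ d, f (l d) - f (r d) = g d) :
    Fintype.card D + 2 ≤ Fintype.card X + Fintype.card Y := by
  have r1 := rank_inc_lt (F := F) s t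
  have r2 := rank_inc_lt (F := F) l r
  have h2 := LinearMap.finrank_range_add_finrank_ker ((inc F s t).mulVecLin)
  rw [Module.finrank_fintype_fun_eq_card] at h2
  have h3 : (inc F s t).rank = Module.finrank F (LinearMap.range ((inc F s t).mulVecLin)) := rfl
  have h4 : (inc F l r)ᵀ.rank = (inc F l r).rank := Matrix.rank_transpose _
  have h5 : (inc F l r)ᵀ.rank = Module.finrank F (LinearMap.range ((inc F l r)ᵀ.mulVecLin)) := rfl
  have hle : LinearMap.ker ((inc F s t).mulVecLin) ≤ LinearMap.range ((inc F l r)ᵀ.mulVecLin) := by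
    intro g hg
    rw [LinearMap.mem_ker, Matrix.mulVecLin_apply] at hg
    obtain ⟨f, hf⟩ := hex g hg
    refine ⟨f, ?_⟩
    rw [Matrix.mulVecLin_apply, inc_transpose_mulVec]
    exact funext hf
  have h6 := Submodule.finrank_mono hle
  omega

end rank

end Rank300

namespace Tri

variable {W B : Type*} (T : Tri W B)
variable [Fintype W] [Fintype B] [DecidableEq W] [DecidableEq B]

open Rank300

/-- Euler's inequality: the genus is non-negative -/
theorem card_vert_le (hT : T.Conn) : Fintype.card T.Vert ≤ Fintype.card W + 2 := by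
  have hcB := T.card_B
  have h := euler_le ℚ (fun d : W × ZMod 3 => T.p (d.2 - 1) d.1)
    (fun d : W × ZMod 3 => T.p (d.2 + 1) d.1)
    (fun d : W × ZMod 3 => (Sum.inl d.1 : W ⊕ B))
    (fun d : W × ZMod 3 => (Sum.inr (T.e d.2 d.1) : W ⊕ B))
    (fun h hh => T.conn_vert hT h (fun k w => hh (w, k)))
    (fun h hh => T.conn_face hT h (fun k w => hh (w, k)))
    (fun f => T.inc_delta f)
  rw [Fintype.card_prod, Fintype.card_sum, hcB, ZMod.card] at h
  omega

/-- `Genus0` from the equality of numbers -/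
theorem genus0_of_card (h : Fintype.card T.Vert = Fintype.card W + 2) : T.Genus0 := by
  show Nat.card T.Vert = Nat.card W + 2
  rw [Nat.card_eq_fintype_card, Nat.card_eq_fintype_card]; exact h

theorem genus0_of_ge (hT : T.Conn) (h : Fintype.card W + 2 ≤ Fintype.card T.Vert) : T.Genus0 :=
  T.genus0_of_card (le_antisymm (T.card_vert_le hT) h)

/-- GENUS ZERO FROM DUAL EXACTNESS -/
theorem genus0_of_dualExact (hT : T.Conn) [Nonempty W]
    (hex : ∀ g : ZMod 3 → W → ℚ,
      (∀ v : T.Vert, ∑ w : W, (if T.p v.1 w = v then g (v.1 + 1) w - g (v.1 + 2) w else 0) = 0) →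
      ∃ h : W ⊕ B → ℚ, ∀ k w, h (Sum.inl w) - h (Sum.inr (T.e k w)) = g k w) : T.Genus0 := by
  have hcB := T.card_B
  obtain ⟨w0⟩ := (inferInstance : Nonempty W)
  have : Nonempty T.Vert := ⟨T.p 0 w0⟩
  have : Nonempty (W ⊕ B) := ⟨Sum.inl w0⟩
  have h := euler_ge ℚ (fun d : W × ZMod 3 => T.p (d.2 - 1) d.1)
    (fun d : W × ZMod 3 => T.p (d.2 + 1) d.1)
    (fun d : W × ZMod 3 => (Sum.inl d.1 : W ⊕ B))
    (fun d : W × ZMod 3 => (Sum.inr (T.e d.2 d.1) : W ⊕ B))
    (by
      intro g hg
      obtain ⟨f, hf⟩ := hex (fun k w => g (w, k)) (fun v => by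
        rw [← T.inc_apply (fun k w => g (w, k)) v]
        exact congrFun hg v)
      exact ⟨f, fun d => hf d.2 d.1⟩)
  rw [Fintype.card_prod, Fintype.card_sum, hcB, ZMod.card] at h
  exact T.genus0_of_ge hT (by omega)


end Tri

end Crest.Agent.R039
end

-- ▼ part R039/Sum409A
section

/-!
# Row 39, block B4 (part A): cuts in a `Tri`, exchange of the colours, dual exactness
-/

set_option autoImplicit false
set_option linter.unusedSectionVars false

namespace Crest.Agent.R039.Sum3

open Crest.Agent.R039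

variable {W B : Type*}

/-- exchange of white and black -/
def op (T : Tri W B) : Tri B W := ⟨fun k => (T.e k).symm⟩

@[simp] theorem op_e (T : Tri W B) (k : ZMod 3) (b : B) : (op T).e k b = (T.e k).symm b := rfl
@[simp] theorem op_e_symm (T : Tri W B) (k : ZMod 3) (w : W) :
    ((op T).e k).symm w = T.e k w := rfl

/-- connectedness with two predicates -/
def CC (T : Tri W B) : Prop :=
  ∀ (Y : W → Prop) (Z : B → Prop), (∀ k v, Y v ↔ Z (T.e k v)) → ∀ v v', Y v → Y v'

theorem CC.of_conn {T : Tri W B} (h : T.Conn) : CC T := by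
  intro Y Z hYZ v v' hv
  have := h {v | Y v} ⟨v, hv⟩ (by
    intro i w hw
    show Y (T.pi i w)
    rw [hYZ (i + 2), Tri.pi_apply, Equiv.apply_symm_apply, ← hYZ]
    exact hw)
  have h2 : v' ∈ (Set.univ : Set W) := trivial
  rw [← this] at h2
  exact h2

theorem CC.conn [Finite W] {T : Tri W B} (h : CC T) : T.Conn := by
  intro S hS hcl
  have hinv : ∀ i w, T.pi i w ∈ S ↔ w ∈ S := by
    intro i w
    refine ⟨fun hw => ?_, hcl i w⟩
    have h1 : (T.pi i).SameCycle (T.pi i w) w :=
      Equiv.Perm.sameCycle_apply_left.2 (Equiv.Perm.SameCycle.refl _ _)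
    obtain ⟨n, hn⟩ := h1.exists_nat_pow_eq
    rw [← hn]
    clear hn
    induction n with
    | zero => exact hw
    | succ n ih => rw [pow_succ', Equiv.Perm.mul_apply]; exact hcl i _ ih
  have key : ∀ k v, v ∈ S ↔ (T.e 0).symm (T.e k v) ∈ S := by
    intro k v
    have hk : ∀ k : ZMod 3, k = 0 ∨ k = 1 ∨ k = 2 := by decide
    rcases hk k with rfl | rfl | rfl
    · rw [Equiv.symm_apply_apply]
    · have h1 : T.pi 2 ((T.e 0).symm (T.e 1 v)) = v := by
        rw [Tri.pi_apply]
        have a1 : (2 : ZMod 3) + 2 = 1 := by decide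
        have a2 : (2 : ZMod 3) + 1 = 0 := by decide
        rw [a1, a2, Equiv.apply_symm_apply, Equiv.symm_apply_apply]
      rw [← hinv 2 ((T.e 0).symm (T.e 1 v)), h1]
    · have h1 : T.pi 1 v = (T.e 0).symm (T.e 2 v) := by
        rw [Tri.pi_apply]
        have a1 : (1 : ZMod 3) + 2 = 0 := by decide
        have a2 : (1 : ZMod 3) + 1 = 2 := by decide
        rw [a1, a2]
      rw [← h1, hinv]
  obtain ⟨v, hv⟩ := hS
  ext v'
  refine ⟨fun _ => trivial, fun _ => ?_⟩
  exact h (fun v => v ∈ S) (fun b => (T.e 0).symm b ∈ S) key v v' hv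

theorem CC.op {T : Tri W B} (h : CC T) : CC (op T) := by
  intro Y Z hYZ b b' hb
  have h1 := h Z Y (fun k v => by
    rw [hYZ k (T.e k v)]
    show Z v ↔ Z ((T.e k).symm (T.e k v))
    rw [Equiv.symm_apply_apply])
  have h2 : ∀ b, Y b ↔ Z ((T.e 0).symm b) := fun b => hYZ 0 b
  rw [h2] at hb ⊢
  exact h1 _ _ hb

/-- dual exactness with test functions -/
def DEx [Fintype W] (T : Tri W B) : Prop :=
  ∀ g : ZMod 3 → W → ℚ, (∀ i, ∀ φ : W → ℚ, (∀ w, φ (T.pi i w) = φ w) →
      ∑ w, φ w * (g (i + 1) w - g (i + 2) w) = 0) →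
    ∃ (F : W → ℚ) (H : B → ℚ), ∀ k w, g k w = F w - H (T.e k w)

theorem DEx.of_genus0 [Fintype W] [Fintype B] {T : Tri W B} (hc : T.Conn) (hg : T.Genus0) :
    DEx T := by
  classical
  intro g hx
  obtain ⟨h, hh⟩ := T.dual_exact hc hg g (fun v => by
    have := hx v.1 (fun w => if T.p v.1 w = v then 1 else 0) (fun w => by rw [Tri.p_pi])
    simpa only [ite_mul, one_mul, zero_mul] using this)
  exact ⟨fun w => h (Sum.inl w), fun b => h (Sum.inr b), fun k w => (hh k w).symm⟩

theorem DEx.genus0 [Fintype W] [Fintype B] [Nonempty W] {T : Tri W B} (hc : T.Conn)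
    (hd : DEx T) : T.Genus0 := by
  classical
  refine T.genus0_of_dualExact hc (fun g hg => ?_)
  obtain ⟨F, H, hFH⟩ := hd g (fun i φ hφ => by
    -- `φ` is a function of the vertex
    have h1 : ∀ w w', T.p i w = T.p i w' → φ w = φ w' := by
      intro w w' h
      rw [Tri.p_eq_iff] at h
      obtain ⟨n, hn⟩ := h.2.exists_nat_pow_eq
      rw [← hn]
      clear hn
      induction n with
      | zero => rfl
      | succ n ih => rw [pow_succ', Equiv.Perm.mul_apply, hφ]; exact ih
    have h2 : ∀ w, φ w * (g (i + 1) w - g (i + 2) w) = ∑ x : T.VertC i,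
        (if T.p i w = (⟨i, x⟩ : T.Vert) then φ x.out * (g (i + 1) w - g (i + 2) w) else 0) := by
      intro w
      rw [Finset.sum_eq_single (Quotient.mk _ w)]
      · rw [if_pos (show T.p i w = (⟨i, Quotient.mk _ w⟩ : T.Vert) from rfl)]
        congr 1
        apply h1
        rw [Tri.p_eq_iff]
        refine ⟨rfl, ?_⟩
        exact (Quotient.exact (Quotient.out_eq (Quotient.mk (Equiv.Perm.SameCycle.setoid (T.pi i)) w))).symm
      · intro x _ hx
        rw [if_neg]
        intro h
        apply hx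
        have h' : (⟨i, Quotient.mk _ w⟩ : T.Vert) = ⟨i, x⟩ := h
        rw [Sigma.mk.injEq] at h'
        exact (eq_of_heq h'.2).symm
      · intro h; exact absurd (Finset.mem_univ _) h
    rw [Finset.sum_congr rfl (fun w _ => h2 w), Finset.sum_comm]
    refine Finset.sum_eq_zero (fun x _ => ?_)
    have h3 := hg ⟨i, x⟩
    have h4 : ∑ w : W, (if T.p i w = (⟨i, x⟩ : T.Vert) then
        φ x.out * (g (i + 1) w - g (i + 2) w) else 0) = φ x.out *
        ∑ w : W, (if T.p i w = (⟨i, x⟩ : T.Vert) then g (i + 1) w - g (i + 2) w else 0) := by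
      rw [Finset.mul_sum]
      refine Finset.sum_congr rfl (fun w _ => ?_)
      rw [mul_ite, mul_zero]
    rw [h4]
    have h5 : ∑ w : W, (if T.p i w = (⟨i, x⟩ : T.Vert) then g (i + 1) w - g (i + 2) w else 0)
      = 0 := h3
    rw [h5, mul_zero])
  refine ⟨fun x => Sum.elim F H x, fun k w => ?_⟩
  simp only [Sum.elim_inl, Sum.elim_inr]
  exact (hFH k w).symm

theorem DEx.op [Fintype W] [Fintype B] {T : Tri W B} (hd : DEx T) : DEx (op T) := by
  intro g hg
  obtain ⟨F, H, hFH⟩ := hd (fun k w => - g k (T.e k w)) (fun i φ hφ => by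
    have h1 := hg i (fun b => φ ((T.e (i + 1)).symm b)) (fun b => by
      show φ ((T.e (i + 1)).symm (T.e (i + 2) ((T.e (i + 1)).symm b))) = _
      rw [← hφ ((T.e (i + 1)).symm (T.e (i + 2) ((T.e (i + 1)).symm b))), Tri.pi_apply,
        Equiv.apply_symm_apply, Equiv.symm_apply_apply])
    have h2 : ∀ b, φ ((T.e (i + 1)).symm b) = φ ((T.e (i + 2)).symm b) := by
      intro b
      rw [← hφ ((T.e (i + 1)).symm b), Tri.pi_apply, Equiv.apply_symm_apply]
    have h3 : ∑ b, φ ((T.e (i + 1)).symm b) * g (i + 1) b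
        = ∑ w, φ w * g (i + 1) (T.e (i + 1) w) := by
      rw [← Equiv.sum_comp (T.e (i + 1))]
      refine Finset.sum_congr rfl (fun w _ => ?_)
      rw [Equiv.symm_apply_apply]
    have h4 : ∑ b, φ ((T.e (i + 1)).symm b) * g (i + 2) b
        = ∑ w, φ w * g (i + 2) (T.e (i + 2) w) := by
      rw [← Equiv.sum_comp (T.e (i + 2))]
      refine Finset.sum_congr rfl (fun w _ => ?_)
      rw [h2, Equiv.symm_apply_apply]
    simp only [mul_sub, Finset.sum_sub_distrib] at h1
    rw [h3, h4] at h1
    simp only [mul_sub, Finset.sum_sub_distrib, mul_neg, Finset.sum_neg_distrib]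
    linarith)
  refine ⟨H, F, fun k b => ?_⟩
  have := hFH k ((T.e k).symm b)
  simp only [Equiv.apply_symm_apply] at this
  show g k b = H b - F ((T.e k).symm b)
  linarith

/-! ### cuts -/

open Classical in
/-- the boundary of a set of faces -/
noncomputable def bd [Fintype W] (T : Tri W B) (P : W → Prop) (Q : B → Prop) :
    Finset (ZMod 3 × W) := Finset.univ.filter (fun x => ¬ (P x.2 ↔ Q (T.e x.1 x.2)))

theorem mem_bd [Fintype W] {T : Tri W B} {P : W → Prop} {Q : B → Prop} {x : ZMod 3 × W} :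
    x ∈ bd T P Q ↔ ¬ (P x.2 ↔ Q (T.e x.1 x.2)) := by
  unfold bd
  simp

/-- three-edge-connectedness -/
def Cut3 [Fintype W] (T : Tri W B) : Prop :=
  ∀ (P : W → Prop) (Q : B → Prop), (bd T P Q).card ≤ 2 →
    ((∀ v, P v) ∧ (∀ b, Q b)) ∨ ((∀ v, ¬ P v) ∧ (∀ b, ¬ Q b))

theorem bd_op_card [Fintype W] [Fintype B] (T : Tri W B) (P : W → Prop) (Q : B → Prop) :
    (bd (op T) Q P).card = (bd T P Q).card := by
  classical
  refine Finset.card_bij' (fun x _ => (x.1, (T.e x.1).symm x.2)) (fun x _ => (x.1, T.e x.1 x.2))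
    ?_ ?_ ?_ ?_
  · intro x hx
    rw [mem_bd] at hx ⊢
    intro h
    apply hx
    simp only [Equiv.apply_symm_apply] at h
    exact h.symm
  · intro x hx
    rw [mem_bd] at hx ⊢
    intro h
    apply hx
    simp only [op_e, Equiv.symm_apply_apply] at h
    exact h.symm
  · intro x _; simp
  · intro x _; simp

theorem Cut3.op [Fintype W] [Fintype B] {T : Tri W B} (h : Cut3 T) : Cut3 (op T) := by
  intro Q P hc
  rw [bd_op_card] at hc
  rcases h P Q hc with h | h
  · exact Or.inl ⟨h.2, h.1⟩
  · exact Or.inr ⟨h.2, h.1⟩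

/-- a cut with three edges, all of them with their white end inside -/
structure Cut (T : Tri W B) (P : W → Prop) (Q : B → Prop) (w : ZMod 3 → W) : Prop where
  hP : ∀ k, P (w k)
  hQ : ∀ k, ¬ Q (T.e k (w k))
  hcut : ∀ k v, v ≠ w k → (P v ↔ Q (T.e k v))

theorem Cut.op {T : Tri W B} {P : W → Prop} {Q : B → Prop} {w : ZMod 3 → W}
    (h : Cut T P Q w) : Cut (op T) (fun b => ¬ Q b) (fun v => ¬ P v) (fun k => T.e k (w k)) where
  hP := h.hQ
  hQ := by
    intro k
    show ¬ ¬ P ((T.e k).symm (T.e k (w k)))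
    rw [Equiv.symm_apply_apply, not_not]
    exact h.hP k
  hcut := by
    intro k b hb
    have h1 : (T.e k).symm b ≠ w k := by
      intro h'
      apply hb
      rw [← h', Equiv.apply_symm_apply]
    have h2 := h.hcut k _ h1
    rw [Equiv.apply_symm_apply] at h2
    show ¬ Q b ↔ ¬ P ((T.e k).symm b)
    rw [h2]

section count

variable [Fintype W] [Fintype B] (T : Tri W B) (P : W → Prop) (Q : B → Prop)

open Classical in
/-- outgoing edges of colour `k` -/
noncomputable def ca (k : ZMod 3) : Finset W := Finset.univ.filter (fun v => P v ∧ ¬ Q (T.e k v))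

open Classical in
/-- incoming edges of colour `k` -/
noncomputable def cb (k : ZMod 3) : Finset W := Finset.univ.filter (fun v => ¬ P v ∧ Q (T.e k v))

theorem card_bd : (bd T P Q).card = ∑ k, ((ca T P Q k).card + (cb T P Q k).card) := by
  classical
  unfold bd ca cb
  simp only [Finset.card_filter]
  rw [Fintype.sum_prod_type]
  refine Finset.sum_congr rfl (fun k _ => ?_)
  rw [← Finset.sum_add_distrib]
  refine Finset.sum_congr rfl (fun v _ => ?_)
  by_cases h1 : P v <;> by_cases h2 : Q (T.e k v) <;> simp [h1, h2]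

open Classical in
theorem balance (k : ZMod 3) :
    (Finset.univ.filter (fun v => P v)).card + (cb T P Q k).card
      = (Finset.univ.filter (fun b => Q b)).card + (ca T P Q k).card := by
  unfold ca cb
  simp only [Finset.card_filter]
  rw [← Equiv.sum_comp (T.e k), ← Finset.sum_add_distrib, ← Finset.sum_add_distrib]
  refine Finset.sum_congr rfl (fun v _ => ?_)
  by_cases h1 : P v <;> by_cases h2 : Q (T.e k v) <;> simp [h1, h2]

open Classical in
/-- `∑ φ (1_P - 1_Q ∘ e_k)` does not depend on the colour for a test function at a vertex -/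
theorem kappa (i : ZMod 3) (φ : W → ℚ) (hφ : ∀ w, φ (T.pi i w) = φ w) :
    ∑ w, φ w * ((if P w then 1 else 0) - (if Q (T.e (i + 1) w) then 1 else 0))
      = ∑ w, φ w * ((if P w then 1 else 0) - (if Q (T.e (i + 2) w) then 1 else 0)) := by
  have h1 : ∑ w, φ w * (if Q (T.e (i + 2) w) then (1 : ℚ) else 0)
      = ∑ w, φ w * (if Q (T.e (i + 1) w) then (1 : ℚ) else 0) := by
    rw [← Equiv.sum_comp (T.pi i)]
    refine Finset.sum_congr rfl (fun w _ => ?_)
    rw [hφ, Tri.pi_apply, Equiv.apply_symm_apply]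
  simp only [mul_sub, Finset.sum_sub_distrib]
  rw [h1]

end count

section cut

variable {T : Tri W B} {P : W → Prop} {Q : B → Prop} {w : ZMod 3 → W}

open Classical in
theorem Cut.kappa_eq [Fintype W] (h : Cut T P Q w) (φ : W → ℚ) (k : ZMod 3) :
    ∑ v, φ v * ((if P v then 1 else 0) - (if Q (T.e k v) then 1 else 0)) = φ (w k) := by
  rw [Finset.sum_eq_single (w k)]
  · rw [if_pos (h.hP k), if_neg (h.hQ k)]; ring
  · intro v _ hv
    have := h.hcut k v hv
    by_cases h1 : P v
    · rw [if_pos h1, if_pos (this.1 h1)]; ring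
    · rw [if_neg h1, if_neg (fun h2 => h1 (this.2 h2))]; ring
  · intro h'; exact absurd (Finset.mem_univ _) h'

theorem Cut.phi_eq [Fintype W] [Fintype B] (h : Cut T P Q w) (i : ZMod 3) (φ : W → ℚ)
    (hφ : ∀ w, φ (T.pi i w) = φ w) : φ (w (i + 1)) = φ (w (i + 2)) := by
  classical
  rw [← h.kappa_eq φ (i + 1), ← h.kappa_eq φ (i + 2)]
  exact kappa T P Q i φ hφ

/-- the structure of a cut with at most three edges -/
theorem cut_struct [Fintype W] [Fintype B] (hc : Cut3 T) (P : W → Prop) (Q : B → Prop)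
    (h3 : (bd T P Q).card ≤ 3) :
    (((∀ v, P v) ∧ (∀ b, Q b)) ∨ ((∀ v, ¬ P v) ∧ (∀ b, ¬ Q b))) ∨
    (∃ w, Cut T P Q w) ∨ (∃ w, Cut T (fun v => ¬ P v) (fun b => ¬ Q b) w) := by
  classical
  have hb := fun k => balance T P Q k
  have hcard := card_bd T P Q
  rw [Bic.sum_zmod3] at hcard
  have hb0 := hb 0
  have hb1 := hb 1
  have hb2 := hb 2
  set p := (Finset.univ.filter (fun v => P v)).card with hp
  set q := (Finset.univ.filter (fun b => Q b)).card with hq
  have h012 : ∀ k : ZMod 3, k = 0 ∨ k = 1 ∨ k = 2 := by decide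
  rcases lt_trichotomy p q with hlt | heq | hgt
  · -- all boundary edges are incoming
    right; right
    have h1 : ∀ k, (cb T P Q k).card = 1 ∧ (ca T P Q k).card = 0 := by
      intro k
      rcases h012 k with rfl | rfl | rfl <;> omega
    have h2 : ∀ k, ∃ v, cb T P Q k = {v} := fun k => Finset.card_eq_one.1 (h1 k).1
    choose w hw using h2
    have h4 : ∀ k v, (¬ P v ∧ Q (T.e k v)) ↔ v = w k := by
      intro k v
      have : v ∈ cb T P Q k ↔ v ∈ ({w k} : Finset W) := by rw [hw]
      rw [Finset.mem_singleton] at this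
      rw [← this]; simp [cb]
    have h5 : ∀ k v, ¬ (P v ∧ ¬ Q (T.e k v)) := by
      intro k v hv
      have h6 := Finset.card_eq_zero.1 (h1 k).2
      have : v ∈ ca T P Q k := by simp [ca, hv]
      rw [h6] at this
      exact absurd this (Finset.notMem_empty _)
    refine ⟨w, ⟨fun k => ((h4 k (w k)).2 rfl).1, fun k => ?_, fun k v hv => ?_⟩⟩
    · rw [not_not]; exact ((h4 k (w k)).2 rfl).2
    · have h7 := h5 k v
      have h8 : ¬ (¬ P v ∧ Q (T.e k v)) := fun h => hv ((h4 k v).1 h)
      tauto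
  · left
    apply hc
    omega
  · right; left
    have h1 : ∀ k, (ca T P Q k).card = 1 ∧ (cb T P Q k).card = 0 := by
      intro k
      rcases h012 k with rfl | rfl | rfl <;> omega
    have h2 : ∀ k, ∃ v, ca T P Q k = {v} := fun k => Finset.card_eq_one.1 (h1 k).1
    choose w hw using h2
    have h4 : ∀ k v, (P v ∧ ¬ Q (T.e k v)) ↔ v = w k := by
      intro k v
      have : v ∈ ca T P Q k ↔ v ∈ ({w k} : Finset W) := by rw [hw]
      rw [Finset.mem_singleton] at this
      rw [← this]; simp [ca]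
    have h5 : ∀ k v, ¬ (¬ P v ∧ Q (T.e k v)) := by
      intro k v hv
      have h6 := Finset.card_eq_zero.1 (h1 k).2
      have : v ∈ cb T P Q k := by simp [cb, hv]
      rw [h6] at this
      exact absurd this (Finset.notMem_empty _)
    refine ⟨w, ⟨fun k => ((h4 k (w k)).2 rfl).1, fun k => ((h4 k (w k)).2 rfl).2,
      fun k v hv => ?_⟩⟩
    have h7 := h5 k v
    have h8 : ¬ (P v ∧ ¬ Q (T.e k v)) := fun h => hv ((h4 k v).1 h)
    tauto

end cut

/-! ### simplicity and three-edge-connectedness -/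

/-- simple ⇒ three-edge-connected -/
theorem Cut3.of_simple [Fintype W] [Fintype B] {T : Tri W B} (hc : T.Conn) (hs : T.Simple) :
    Cut3 T := by
  classical
  intro P Q h2
  have hb := fun k => balance T P Q k
  have hcard := card_bd T P Q
  rw [Bic.sum_zmod3] at hcard
  have hb0 := hb 0
  have hb1 := hb 1
  have hb2 := hb 2
  set p := (Finset.univ.filter (fun v => P v)).card with hp
  set q := (Finset.univ.filter (fun b => Q b)).card with hq
  have h012 : ∀ k : ZMod 3, k = 0 ∨ k = 1 ∨ k = 2 := by decide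
  have hpq : p = q := by omega
  have hab : ∀ k, (ca T P Q k).card = (cb T P Q k).card := by
    intro k; have := hb k; omega
  have hmem : ∀ k v, v ∈ ca T P Q k ↔ (P v ∧ ¬ Q (T.e k v)) := by
    intro k v; simp [ca]
  have hmem' : ∀ k v, v ∈ cb T P Q k ↔ (¬ P v ∧ Q (T.e k v)) := by
    intro k v; simp [cb]
  by_cases h0 : ∀ k, (ca T P Q k).card = 0
  · -- no boundary
    have h1 : ∀ k v, P v ↔ Q (T.e k v) := by
      intro k v
      have e1 := Finset.card_eq_zero.1 (h0 k)
      have e2 := Finset.card_eq_zero.1 ((hab k).symm.trans (h0 k))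
      have e3 : ¬ (P v ∧ ¬ Q (T.e k v)) := by rw [← hmem, e1]; exact Finset.notMem_empty _
      have e4 : ¬ (¬ P v ∧ Q (T.e k v)) := by rw [← hmem', e2]; exact Finset.notMem_empty _
      tauto
    have h3 := CC.of_conn hc P Q h1
    have h4 : ∀ b, Q b ↔ P ((T.e 0).symm b) := by
      intro b; rw [h1 0, Equiv.apply_symm_apply]
    by_cases h5 : ∃ v, P v
    · obtain ⟨v, hv⟩ := h5
      exact Or.inl ⟨fun v' => h3 v v' hv, fun b => (h4 b).2 (h3 v _ hv)⟩
    · have h6 : ∀ v, ¬ P v := fun v hv => h5 ⟨v, hv⟩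
      exact Or.inr ⟨h6, fun b hb => h6 _ ((h4 b).1 hb)⟩
  · -- exactly one colour
    exfalso
    obtain ⟨k, hk⟩ : ∃ k, (ca T P Q k).card ≠ 0 := by
      by_contra h; push Not at h; exact h0 h
    have h1 : (ca T P Q k).card = 1 ∧ (ca T P Q (k + 1)).card = 0 ∧
        (ca T P Q (k + 2)).card = 0 := by
      have a0 := hab 0
      have a1 := hab 1
      have a2 := hab 2
      have e1 : (0 : ZMod 3) + 1 = 1 := by decide
      have e2 : (0 : ZMod 3) + 2 = 2 := by decide
      have e3 : (1 : ZMod 3) + 1 = 2 := by decide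
      have e4 : (1 : ZMod 3) + 2 = 0 := by decide
      have e5 : (2 : ZMod 3) + 1 = 0 := by decide
      have e6 : (2 : ZMod 3) + 2 = 1 := by decide
      rcases h012 k with rfl | rfl | rfl
      · rw [e1, e2]; omega
      · rw [e3, e4]; omega
      · rw [e5, e6]; omega
    obtain ⟨u, hu⟩ := Finset.card_eq_one.1 h1.1
    obtain ⟨v, hv⟩ := Finset.card_eq_one.1 ((hab k).symm.trans h1.1)
    have hu' : ∀ x, (P x ∧ ¬ Q (T.e k x)) ↔ x = u := by
      intro x; rw [← hmem, hu, Finset.mem_singleton]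
    have hv' : ∀ x, (¬ P x ∧ Q (T.e k x)) ↔ x = v := by
      intro x; rw [← hmem', hv, Finset.mem_singleton]
    have hne : u ≠ v := by
      intro h
      have a := (hu' u).2 rfl
      have b := (hv' u).2 h
      exact b.1 a.1
    have hk0 : ∀ φ : W → ℚ, ∑ w, φ w * ((if P w then 1 else 0) - (if Q (T.e k w) then 1 else 0))
        = φ u - φ v := by
      intro φ
      have e : ∀ w, φ w * ((if P w then 1 else 0) - (if Q (T.e k w) then 1 else 0))
          = (if w = u then φ w else 0) - (if w = v then φ w else 0) := by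
        intro w
        by_cases c1 : w = u
        · have a := (hu' w).2 c1
          have c2 : ¬ w = v := fun c2 => hne (c1.symm.trans c2)
          rw [if_pos a.1, if_neg a.2, if_pos c1, if_neg c2]; ring
        · by_cases c2 : w = v
          · have a := (hv' w).2 c2
            rw [if_neg a.1, if_pos a.2, if_neg c1, if_pos c2]; ring
          · have a : ¬ (P w ∧ ¬ Q (T.e k w)) := fun h => c1 ((hu' w).1 h)
            have b : ¬ (¬ P w ∧ Q (T.e k w)) := fun h => c2 ((hv' w).1 h)
            rw [if_neg c1, if_neg c2]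
            by_cases c3 : P w
            · have c4 : Q (T.e k w) := by tauto
              rw [if_pos c3, if_pos c4]; ring
            · have c4 : ¬ Q (T.e k w) := by tauto
              rw [if_neg c3, if_neg c4]; ring
      rw [Finset.sum_congr rfl (fun w _ => e w), Finset.sum_sub_distrib, Finset.sum_ite_eq',
        Finset.sum_ite_eq', if_pos (Finset.mem_univ _), if_pos (Finset.mem_univ _)]
    have hk1 : ∀ j, (ca T P Q j).card = 0 → ∀ φ : W → ℚ,
        ∑ w, φ w * ((if P w then 1 else 0) - (if Q (T.e j w) then 1 else 0)) = 0 := by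
      intro j hj φ
      refine Finset.sum_eq_zero (fun x _ => ?_)
      have e1 := Finset.card_eq_zero.1 hj
      have e2 := Finset.card_eq_zero.1 ((hab j).symm.trans hj)
      have e3 : ¬ (P x ∧ ¬ Q (T.e j x)) := by rw [← hmem, e1]; exact Finset.notMem_empty _
      have e4 : ¬ (¬ P x ∧ Q (T.e j x)) := by rw [← hmem', e2]; exact Finset.notMem_empty _
      by_cases c3 : P x
      · have c4 : Q (T.e j x) := by tauto
        rw [if_pos c3, if_pos c4]; ring
      · have c4 : ¬ Q (T.e j x) := by tauto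
        rw [if_neg c3, if_neg c4]; ring
    have key : ∀ i : ZMod 3, (i + 1 = k ∧ (ca T P Q (i + 2)).card = 0) ∨
        (i + 2 = k ∧ (ca T P Q (i + 1)).card = 0) → T.p i u = T.p i v := by
      intro i hi
      have h5 := kappa T P Q i (fun w => if T.p i w = T.p i u then 1 else 0)
        (fun w => by rw [Tri.p_pi])
      rcases hi with ⟨hi, hj⟩ | ⟨hi, hj⟩
      · rw [hk1 _ hj, hi, hk0] at h5
        by_contra hcon
        rw [if_pos rfl, if_neg (fun h => hcon h.symm)] at h5
        norm_num at h5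
      · rw [hk1 _ hj, hi, hk0] at h5
        by_contra hcon
        rw [if_pos rfl, if_neg (fun h => hcon h.symm)] at h5
        norm_num at h5
    have f1 : ∀ k : ZMod 3, k + 2 + 1 = k := by decide
    have f2 : ∀ k : ZMod 3, k + 2 + 2 = k + 1 := by decide
    have f3 : ∀ k : ZMod 3, k + 1 + 2 = k := by decide
    have f4 : ∀ k : ZMod 3, k + 1 + 1 = k + 2 := by decide
    have g1 := key (k + 2) (Or.inl ⟨f1 k, by rw [f2]; exact h1.2.1⟩)
    have g2 := key (k + 1) (Or.inr ⟨f3 k, by rw [f4]; exact h1.2.2⟩)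
    have f5 : ∀ k : ZMod 3, k + 2 ≠ k + 1 := by decide
    exact hne (hs (k + 2) (k + 1) (f5 k) u v g1 g2)

/-- three-edge-connected and dual exact ⇒ simple -/
theorem Cut3.simple [Fintype W] {T : Tri W B} (hd : DEx T) (hc : Cut3 T) : T.Simple := by
  classical
  intro i j hij w w' hi hj
  by_contra hne
  obtain ⟨k, hk⟩ : ∃ k : ZMod 3, k ≠ i ∧ k ≠ j := by
    have : ∀ i j : ZMod 3, ∃ k, k ≠ i ∧ k ≠ j := by decide
    exact this i j
  have hall : ∀ l : ZMod 3, l ≠ k → T.p l w = T.p l w' := by
    intro l hl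
    have : ∀ i j k l : ZMod 3, i ≠ j → k ≠ i → k ≠ j → l ≠ k → l = i ∨ l = j := by decide
    rcases this i j k l hij hk.1 hk.2 hl with rfl | rfl
    · exact hi
    · exact hj
  have hinv : ∀ l (φ : W → ℚ), (∀ w, φ (T.pi l w) = φ w) → l ≠ k → φ w = φ w' := by
    intro l φ hφ hl
    have h := hall l hl
    rw [Tri.p_eq_iff] at h
    obtain ⟨n, hn⟩ := h.2.exists_nat_pow_eq
    rw [← hn]
    clear hn
    induction n with
    | zero => rfl
    | succ n ih => rw [pow_succ', Equiv.Perm.mul_apply, hφ]; exact ih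
  obtain ⟨F, H, hFH⟩ := hd (fun k' v => if k' = k then
      ((if v = w then 1 else 0) - (if v = w' then 1 else 0)) else 0) (fun l φ hφ => by
    have e1 : ∑ v, φ v * ((if v = w then (1 : ℚ) else 0) - (if v = w' then 1 else 0))
        = φ w - φ w' := by
      simp only [mul_sub, mul_ite, mul_one, mul_zero, Finset.sum_sub_distrib, Finset.sum_ite_eq',
        Finset.mem_univ, if_true]
    have c : ∀ l k : ZMod 3, (l = k ∧ l + 1 ≠ k ∧ l + 2 ≠ k) ∨ (l ≠ k ∧ l + 1 = k ∧ l + 2 ≠ k) ∨
        (l ≠ k ∧ l + 1 ≠ k ∧ l + 2 = k) := by decide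
    rcases c l k with ⟨_, h2, h3⟩ | ⟨h1, h2, h3⟩ | ⟨h1, h2, h3⟩
    · refine Finset.sum_eq_zero (fun v _ => ?_)
      rw [if_neg h2, if_neg h3]; ring
    · have e2 : ∀ v, φ v * ((if l + 1 = k then
          ((if v = w then (1 : ℚ) else 0) - (if v = w' then 1 else 0)) else 0) -
          (if l + 2 = k then ((if v = w then 1 else 0) - (if v = w' then 1 else 0)) else 0))
          = φ v * ((if v = w then (1 : ℚ) else 0) - (if v = w' then 1 else 0)) := by
        intro v; rw [if_pos h2, if_neg h3, sub_zero]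
      rw [Finset.sum_congr rfl (fun v _ => e2 v), e1, hinv l φ hφ h1, sub_self]
    · have e2 : ∀ v, φ v * ((if l + 1 = k then
          ((if v = w then (1 : ℚ) else 0) - (if v = w' then 1 else 0)) else 0) -
          (if l + 2 = k then ((if v = w then 1 else 0) - (if v = w' then 1 else 0)) else 0))
          = -(φ v * ((if v = w then (1 : ℚ) else 0) - (if v = w' then 1 else 0))) := by
        intro v; rw [if_neg h2, if_pos h3, zero_sub, mul_neg]
      rw [Finset.sum_congr rfl (fun v _ => e2 v), Finset.sum_neg_distrib, e1, hinv l φ hφ h1,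
        sub_self, neg_zero])
  -- the level set of `F w`
  have h2 : (bd T (fun v => F v = F w) (fun b => H b = F w)).card ≤ 2 := by
    have hsub : bd T (fun v => F v = F w) (fun b => H b = F w) ⊆ {(k, w), (k, w')} := by
      intro x hx
      rw [mem_bd] at hx
      rw [Finset.mem_insert, Finset.mem_singleton]
      by_contra hcon
      push Not at hcon
      apply hx
      have h3 := hFH x.1 x.2
      have h4 : (if x.1 = k then
          ((if x.2 = w then (1 : ℚ) else 0) - (if x.2 = w' then 1 else 0)) else 0) = 0 := by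
        by_cases hxk : x.1 = k
        · rw [if_pos hxk, if_neg, if_neg, sub_zero]
          · intro h; exact hcon.2 (Prod.ext hxk h)
          · intro h; exact hcon.1 (Prod.ext hxk h)
        · rw [if_neg hxk]
      have h5 : F x.2 = H (T.e x.1 x.2) := by
        have h6 : (0 : ℚ) = F x.2 - H (T.e x.1 x.2) := h4.symm.trans h3
        linarith
      show F x.2 = F w ↔ H (T.e x.1 x.2) = F w
      rw [h5]
    exact (Finset.card_le_card hsub).trans Finset.card_le_two
  have h6 := hFH k w
  simp only [if_true, if_neg hne, sub_zero] at h6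
  rcases hc _ _ h2 with h | h
  · have h7 : H (T.e k w) = F w := h.2 (T.e k w)
    rw [h7] at h6
    norm_num at h6
  · exact h.1 w rfl

end Crest.Agent.R039.Sum3
end

-- ▼ part R039/Sum409B
section

/-!
# Row 39, block B4 (part B): the inner triangulation of a three-edge cut
-/

set_option autoImplicit false
set_option linter.unusedSectionVars false

namespace Crest.Agent.R039.Sum3

open Crest.Agent.R039

variable {W B : Type*} {T : Tri W B} {P : W → Prop} {Q : B → Prop} {w : ZMod 3 → W}

theorem Cut.symm_mem (h : Cut T P Q w) (k : ZMod 3) {b : B} (hb : Q b) : P ((T.e k).symm b) := by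
  have h1 : (T.e k).symm b ≠ w k := by
    intro h'
    apply h.hQ k
    rw [← h', Equiv.apply_symm_apply]
    exact hb
  rw [h.hcut k _ h1, Equiv.apply_symm_apply]
  exact hb

theorem Cut.eq_w (h : Cut T P Q w) (k : ZMod 3) {v : W} (hv : P v) (hq : ¬ Q (T.e k v)) :
    v = w k := by
  by_contra hne
  exact hq ((h.hcut k v hne).1 hv)

theorem Cut.not_out (h : Cut T P Q w) (k : ZMod 3) {v : W} (hv : ¬ P v) : ¬ Q (T.e k v) := by
  have hne : v ≠ w k := by
    intro h'; apply hv; rw [h']; exact h.hP k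
  exact fun hq => hv ((h.hcut k v hne).2 hq)

open Classical in
/-- the part of the cut that contains the three white ends; the outside is one black face -/
noncomputable def inn (h : Cut T P Q w) : Tri {v // P v} (Option {b // Q b}) where
  e k :=
    { toFun := fun v => if hq : Q (T.e k v.1) then some ⟨T.e k v.1, hq⟩ else none
      invFun := fun o => match o with
        | none => ⟨w k, h.hP k⟩
        | some b => ⟨(T.e k).symm b.1, h.symm_mem k b.2⟩
      left_inv := by
        intro v
        by_cases hq : Q (T.e k v.1)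
        · simp only [dif_pos hq, Equiv.symm_apply_apply]
        · simp only [dif_neg hq]
          exact Subtype.ext (h.eq_w k v.2 hq).symm
      right_inv := by
        intro o
        cases o with
        | none => simp only [dif_neg (h.hQ k)]
        | some b =>
          have hb : Q (T.e k ((T.e k).symm b.1)) := by rw [Equiv.apply_symm_apply]; exact b.2
          show (if hq : Q (T.e k ((T.e k).symm b.1)) then
            some (⟨T.e k ((T.e k).symm b.1), hq⟩ : {b // Q b}) else none) = some b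
          rw [dif_pos hb]
          congr 1
          exact Subtype.ext (Equiv.apply_symm_apply _ _) }

open Classical in
theorem inn_some (h : Cut T P Q w) (k : ZMod 3) (v : {v // P v}) (hq : Q (T.e k v.1)) :
    (inn h).e k v = some ⟨T.e k v.1, hq⟩ := by
  show (if hq : Q (T.e k v.1) then some (⟨T.e k v.1, hq⟩ : {b // Q b}) else none) = _
  rw [dif_pos hq]

open Classical in
theorem inn_none (h : Cut T P Q w) (k : ZMod 3) (v : {v // P v}) (hq : ¬ Q (T.e k v.1)) :
    (inn h).e k v = none := by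
  show (if hq : Q (T.e k v.1) then some (⟨T.e k v.1, hq⟩ : {b // Q b}) else none) = _
  rw [dif_neg hq]

theorem inn_w (h : Cut T P Q w) (k : ZMod 3) : (inn h).e k ⟨w k, h.hP k⟩ = none :=
  inn_none h k _ (h.hQ k)

theorem inn_eq_none_iff (h : Cut T P Q w) (k : ZMod 3) (v : {v // P v}) :
    (inn h).e k v = none ↔ v.1 = w k := by
  constructor
  · intro h1
    by_contra hne
    have hq := (h.hcut k v.1 hne).1 v.2
    rw [inn_some h k v hq] at h1
    exact Option.some_ne_none _ h1
  · intro h1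
    apply inn_none
    rw [h1]; exact h.hQ k

theorem inn_symm_none (h : Cut T P Q w) (k : ZMod 3) :
    ((inn h).e k).symm none = ⟨w k, h.hP k⟩ := by
  rw [Equiv.symm_apply_eq, inn_w]

theorem inn_symm_some (h : Cut T P Q w) (k : ZMod 3) (b : {b // Q b}) :
    ((inn h).e k).symm (some b) = ⟨(T.e k).symm b.1, h.symm_mem k b.2⟩ := by
  rw [Equiv.symm_apply_eq]
  have hb : Q (T.e k ((T.e k).symm b.1)) := by rw [Equiv.apply_symm_apply]; exact b.2
  rw [inn_some h k _ hb]
  congr 1
  exact Subtype.ext (Equiv.apply_symm_apply _ _).symm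

open Classical in
/-- extension of a pair of functions on the inner triangulation to the whole -/
noncomputable def extW {A : Type*} (Y : {v // P v} → A) (c : A) : W → A :=
  fun v => if h : P v then Y ⟨v, h⟩ else c

open Classical in
/-- extension to the black faces -/
noncomputable def extB {A : Type*} (Z : Option {b // Q b} → A) : B → A :=
  fun b => if h : Q b then Z (some ⟨b, h⟩) else Z none

theorem extW_of_mem {A : Type*} (Y : {v // P v} → A) (c : A) {v : W} (h : P v) :
    extW Y c v = Y ⟨v, h⟩ := dif_pos h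

theorem extW_of_not_mem {A : Type*} (Y : {v // P v} → A) (c : A) {v : W} (h : ¬ P v) :
    extW Y c v = c := dif_neg h

theorem extB_of_mem {A : Type*} (Z : Option {b // Q b} → A) {b : B} (h : Q b) :
    extB Z b = Z (some ⟨b, h⟩) := dif_pos h

theorem extB_of_not_mem {A : Type*} (Z : Option {b // Q b} → A) {b : B} (h : ¬ Q b) :
    extB Z b = Z none := dif_neg h

theorem extB_e (h : Cut T P Q w) {A : Type*} (Z : Option {b // Q b} → A) (k : ZMod 3)
    (v : {v // P v}) : extB Z (T.e k v.1) = Z ((inn h).e k v) := by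
  by_cases hq : Q (T.e k v.1)
  · rw [extB_of_mem Z hq, inn_some h k v hq]
  · rw [extB_of_not_mem Z hq, inn_none h k v hq]

theorem extB_out (h : Cut T P Q w) {A : Type*} (Z : Option {b // Q b} → A) (k : ZMod 3)
    {v : W} (hv : ¬ P v) : extB Z (T.e k v) = Z none :=
  extB_of_not_mem Z (h.not_out k hv)

/-- connectedness of the inner triangulation -/
theorem CC.inn (hc : CC T) (h : Cut T P Q w) : CC (inn h) := by
  intro Y Z hYZ v v' hv
  have h1 := hc (extW Y (Z none)) (extB Z) (fun k u => by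
    by_cases hu : P u
    · rw [extW_of_mem Y _ hu, hYZ k ⟨u, hu⟩, ← extB_e h Z k ⟨u, hu⟩]
    · rw [extW_of_not_mem Y _ hu, extB_out h Z k hu])
  have h2 := h1 v.1 v'.1
  rw [extW_of_mem Y _ v.2, extW_of_mem Y _ v'.2] at h2
  exact h2 hv

/-- three-edge-connectedness of the inner triangulation -/
theorem Cut3.inn [Fintype W] [Fintype {v // P v}] (hc : Cut3 T) (h : Cut T P Q w) :
    Cut3 (inn h) := by
  classical
  intro Y Z hYZ
  have hcard : (bd T (extW Y (Z none)) (extB Z)).card ≤ 2 := by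
    refine le_trans ?_ hYZ
    refine Finset.card_le_card_of_injOn
      (fun x => if hx : P x.2 then (x.1, ⟨x.2, hx⟩) else (x.1, ⟨w 0, h.hP 0⟩)) ?_ ?_
    · intro x hx
      rw [Finset.mem_coe, mem_bd] at hx
      by_cases hu : P x.2
      · rw [extW_of_mem Y _ hu, extB_e h Z x.1 ⟨x.2, hu⟩] at hx
        simp only [dif_pos hu]
        rw [Finset.mem_coe, mem_bd]
        exact hx
      · rw [extW_of_not_mem Y _ hu, extB_out h Z x.1 hu] at hx
        exact absurd Iff.rfl hx
    · intro x hx y hy hxy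
      rw [Finset.mem_coe, mem_bd] at hx hy
      have hP : ∀ x : ZMod 3 × W, ¬ (extW Y (Z none) x.2 ↔ extB Z (T.e x.1 x.2)) → P x.2 := by
        intro x hx
        by_contra hu
        rw [extW_of_not_mem Y _ hu, extB_out h Z x.1 hu] at hx
        exact hx Iff.rfl
      have h1 := hP x hx
      have h2 := hP y hy
      simp only [dif_pos h1, dif_pos h2, Prod.mk.injEq, Subtype.mk.injEq] at hxy
      exact Prod.ext hxy.1 hxy.2
  have hout := h.hQ 0
  rcases hc _ _ hcard with ⟨h1, h2⟩ | ⟨h1, h2⟩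
  · left
    refine ⟨fun v => ?_, fun o => ?_⟩
    · have := h1 v.1
      rw [extW_of_mem Y _ v.2] at this
      exact this
    · cases o with
      | none =>
        have := h2 (T.e 0 (w 0))
        rw [extB_of_not_mem Z hout] at this
        exact this
      | some b =>
        have := h2 b.1
        rw [extB_of_mem Z b.2] at this
        exact this
  · right
    refine ⟨fun v => ?_, fun o => ?_⟩
    · have := h1 v.1
      rw [extW_of_mem Y _ v.2] at this
      exact this
    · cases o with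
      | none =>
        have := h2 (T.e 0 (w 0))
        rw [extB_of_not_mem Z hout] at this
        exact this
      | some b =>
        have := h2 b.1
        rw [extB_of_mem Z b.2] at this
        exact this

/-- a test function at a vertex of `T` restricts to a test function of the inner triangulation -/
theorem inn_inv [Fintype W] [Fintype B] (h : Cut T P Q w) (i : ZMod 3) (φ : W → ℚ)
    (hφ : ∀ w, φ (T.pi i w) = φ w) (v : {v // P v}) : φ ((inn h).pi i v).1 = φ v.1 := by
  rw [Tri.pi_apply]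
  by_cases hq : Q (T.e (i + 1) v.1)
  · rw [inn_some h _ v hq, inn_symm_some]
    exact hφ v.1
  · rw [inn_none h _ v hq, inn_symm_none]
    have h1 := h.eq_w _ v.2 hq
    rw [h1]
    exact (h.phi_eq i φ hφ).symm

/-- a function that is constant along the edges of the outside is constant on the outside -/
theorem out_const [Fintype W] [Fintype B] (hc : Cut3 T) (h : Cut T P Q w) (F : W → ℚ) (H : B → ℚ)
    (hFH : ∀ k v, ¬ P v → F v = H (T.e k v)) :
    ∀ b, ¬ Q b → H b = H (T.e 0 (w 0)) := by
  classical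
  set c := H (T.e 0 (w 0)) with hcdef
  have hP0 : P (w 0) := h.hP 0
  -- all three boundary values are `c`
  have hb : ∀ k, H (T.e k (w k)) = c := by
    by_contra hcon
    push Not at hcon
    obtain ⟨k, hk⟩ := hcon
    have hsub : bd T (fun v => ¬ P v ∧ F v = c) (fun b => ¬ Q b ∧ H b = c) ⊆
        (Finset.univ.erase k).image (fun j => (j, w j)) := by
      intro x hx
      rw [mem_bd] at hx
      rw [Finset.mem_image]
      refine ⟨x.1, ?_, ?_⟩
      · rw [Finset.mem_erase]
        refine ⟨?_, Finset.mem_univ _⟩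
        rintro rfl
        apply hx
        by_cases hu : P x.2
        · constructor
          · intro h1; exact absurd hu h1.1
          · rintro ⟨h1, h2⟩
            have h3 := h.eq_w _ hu h1
            rw [h3] at h2
            exact absurd h2 hk
        · have h1 := h.not_out x.1 hu
          rw [hFH x.1 x.2 hu]
          exact ⟨fun h2 => ⟨h1, h2.2⟩, fun h2 => ⟨hu, h2.2⟩⟩
      · refine Prod.ext rfl ?_
        show w x.1 = x.2
        by_contra hne
        apply hx
        have h4 := h.hcut x.1 x.2 (fun h' => hne h'.symm)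
        by_cases hu : P x.2
        · exact ⟨fun h2 => absurd hu h2.1, fun h2 => absurd (h4.1 hu) h2.1⟩
        · have h1 := h.not_out x.1 hu
          rw [hFH x.1 x.2 hu]
          exact ⟨fun h2 => ⟨h1, h2.2⟩, fun h2 => ⟨hu, h2.2⟩⟩
    have hcard : (bd T (fun v => ¬ P v ∧ F v = c) (fun b => ¬ Q b ∧ H b = c)).card ≤ 2 := by
      refine (Finset.card_le_card hsub).trans (Finset.card_image_le.trans ?_)
      rw [Finset.card_erase_of_mem (Finset.mem_univ _), Finset.card_univ, ZMod.card]
    rcases hc _ _ hcard with h1 | h1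
    · exact (h1.1 (w 0)).1 hP0
    · exact h1.2 (T.e 0 (w 0)) ⟨h.hQ 0, rfl⟩
  -- the rest
  have hcard : (bd T (fun v => ¬ P v ∧ F v ≠ c) (fun b => ¬ Q b ∧ H b ≠ c)).card ≤ 2 := by
    have hemp : bd T (fun v => ¬ P v ∧ F v ≠ c) (fun b => ¬ Q b ∧ H b ≠ c) = ∅ := by
      apply Finset.eq_empty_of_forall_notMem
      intro x hx
      rw [mem_bd] at hx
      apply hx
      by_cases hu : P x.2
      · constructor
        · intro h1; exact absurd hu h1.1
        · rintro ⟨h1, h2⟩
          have h3 := h.eq_w _ hu h1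
          rw [h3] at h2
          exact absurd (hb x.1) h2
      · have h1 := h.not_out x.1 hu
        rw [hFH x.1 x.2 hu]
        exact ⟨fun h2 => ⟨h1, h2.2⟩, fun h2 => ⟨hu, h2.2⟩⟩
    rw [hemp]; simp
  rcases hc _ _ hcard with h1 | h1
  · exact absurd hP0 (h1.1 (w 0)).1
  · intro b hq
    by_contra hne
    exact h1.2 b ⟨hq, hne⟩

/-- dual exactness of the inner triangulation -/
theorem DEx.inn [Fintype W] [Fintype B] [Fintype {v // P v}] (hd : DEx T) (hc : Cut3 T)
    (h : Cut T P Q w) : DEx (inn h) := by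
  classical
  intro g hg
  obtain ⟨F, H, hFH⟩ := hd (fun k => extW (g k) 0) (fun i φ hφ => by
    have h1 := hg i (fun v => φ v.1) (fun v => inn_inv h i φ hφ v)
    have h2 : ∑ v : W, φ v * (extW (g (i + 1)) 0 v - extW (g (i + 2)) 0 v)
        = ∑ v : {v // P v}, φ v.1 * (g (i + 1) v - g (i + 2) v) := by
      have h3 : ∑ v : {v // P v}, φ v.1 * (g (i + 1) v - g (i + 2) v)
          = ∑ v : {v // P v}, φ v.1 * (extW (g (i + 1)) 0 v.1 - extW (g (i + 2)) 0 v.1) := by
        refine Finset.sum_congr rfl (fun v _ => ?_)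
        rw [extW_of_mem _ _ v.2, extW_of_mem _ _ v.2]
      rw [h3]
      have h4 : ∑ v ∈ Finset.univ.filter (fun v => P v),
          φ v * (extW (g (i + 1)) 0 v - extW (g (i + 2)) 0 v)
          = ∑ v : {v // P v}, φ v.1 * (extW (g (i + 1)) 0 v.1 - extW (g (i + 2)) 0 v.1) :=
        Finset.sum_subtype _ (by simp) _
      have h5 : ∑ v ∈ Finset.univ.filter (fun v => P v),
          φ v * (extW (g (i + 1)) 0 v - extW (g (i + 2)) 0 v)
          = ∑ v : W, φ v * (extW (g (i + 1)) 0 v - extW (g (i + 2)) 0 v) := by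
        rw [Finset.sum_filter]
        refine Finset.sum_congr rfl (fun v _ => ?_)
        by_cases hv : P v
        · rw [if_pos hv]
        · rw [if_neg hv, extW_of_not_mem _ _ hv, extW_of_not_mem _ _ hv]; ring
      rw [← h5, h4]
    rw [h2, h1])
  have hout := out_const hc h F H (fun k v hv => by
    have := hFH k v
    simp only [extW_of_not_mem _ _ hv] at this
    linarith)
  refine ⟨fun v => F v.1, fun o => match o with
    | none => H (T.e 0 (w 0))
    | some b => H b.1, fun k v => ?_⟩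
  have h1 := hFH k v.1
  simp only [extW_of_mem _ _ v.2] at h1
  by_cases hq : Q (T.e k v.1)
  · rw [inn_some h k v hq]
    exact h1
  · rw [inn_none h k v hq]
    show g k v = F v.1 - H (T.e 0 (w 0))
    rw [← hout _ hq]
    exact h1

end Crest.Agent.R039.Sum3
end

-- ▼ part R039/Sum409

/-!
# Row 39, block B4: gluing along three-edge cuts and the induction
-/

set_option autoImplicit false
set_option linter.unusedSectionVars false

namespace Crest.Agent.R039.Sum3

open Crest.Agent.R039

section ham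

variable {W B : Type*} {T : Tri W B}

/-- symmetric form of `Ham` -/
def HamY (T : Tri W B) (m : W → ZMod 3) : Prop :=
  Function.Bijective (fun w => T.e (m w) w) ∧
    ∀ (Y : W → Prop) (Z : B → Prop), (∀ v k, k ≠ m v → (Y v ↔ Z (T.e k v))) →
      ∀ v v', Y v → Y v'

theorem hamY_iff {m : W → ZMod 3} : HamY T m ↔ T.Ham m := by
  constructor
  · rintro ⟨h1, h2⟩
    refine ⟨h1, fun S hS hcl => ?_⟩
    obtain ⟨v, hv⟩ := hS
    ext v'
    refine ⟨fun _ => trivial, fun _ => ?_⟩
    refine h2 (fun u => u ∈ S) (fun b => ∃ u ∈ S, ∃ c, c ≠ m u ∧ T.e c u = b) ?_ v v' hv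
    intro u k hk
    constructor
    · intro hu; exact ⟨u, hu, k, hk, rfl⟩
    · rintro ⟨u', hu', c, hc, he⟩
      exact hcl u' hu' u c k hc hk he
  · rintro ⟨h1, h2⟩
    refine ⟨h1, fun Y Z hYZ v v' hv => ?_⟩
    have := h2 {u | Y u} ⟨v, hv⟩ (by
      intro u hu u' c c' hc hc' he
      show Y u'
      rw [hYZ u' c' hc', ← he, ← hYZ u c hc]
      exact hu)
    have h3 : v' ∈ (Set.univ : Set W) := trivial
    rw [← this] at h3
    exact h3

theorem ham_op {m : W → ZMod 3} (hm : HamY T m) :
    ∃ m' : B → ZMod 3, HamY (op T) m' ∧ ∀ w, m' (T.e (m w) w) = m w := by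
  obtain ⟨h1, h2⟩ := hm
  let σ : W ≃ B := Equiv.ofBijective _ h1
  have hσ : ∀ w, σ w = T.e (m w) w := fun _ => rfl
  have hm' : ∀ w, m (σ.symm (T.e (m w) w)) = m w := by
    intro w; rw [← hσ, Equiv.symm_apply_apply]
  have hk : ∀ b k, k = m (σ.symm b) ↔ k = m ((T.e k).symm b) := by
    intro b k
    obtain ⟨u, rfl⟩ := σ.surjective b
    rw [Equiv.symm_apply_apply, hσ]
    constructor
    · intro h; rw [← h, Equiv.symm_apply_apply]; exact h
    · intro h
      -- both `u` and `v := (e k)⁻¹ (σ u)` are matched to `σ u`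
      have h3 : σ ((T.e k).symm (T.e (m u) u)) = σ u := by
        rw [hσ, ← h, Equiv.apply_symm_apply, hσ]
      have h4 := σ.injective h3
      rw [h4] at h
      exact h
  refine ⟨fun b => m (σ.symm b), ⟨?_, ?_⟩, hm'⟩
  · have : (fun b => (op T).e (m (σ.symm b)) b) = σ.symm := by
      funext b
      obtain ⟨u, rfl⟩ := σ.surjective b
      rw [Equiv.symm_apply_apply, hσ]
      show (T.e (m u)).symm (T.e (m u) u) = u
      rw [Equiv.symm_apply_apply]
    rw [this]
    exact σ.symm.bijective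
  · intro Y Z hYZ
    have h3 := h2 Z Y (fun v k hkv => by
      have h4 := hYZ (T.e k v) k (by
        intro h5
        rw [hk, Equiv.symm_apply_apply] at h5
        exact hkv h5)
      rw [h4]
      show Z v ↔ Z ((T.e k).symm (T.e k v))
      rw [Equiv.symm_apply_apply])
    have hne : ∀ c : ZMod 3, c + 1 ≠ c := by decide
    have h4 : ∀ b, Y b ↔ Z ((T.e (m (σ.symm b) + 1)).symm b) := fun b => hYZ b _ (hne _)
    intro b b' hb
    rw [h4] at hb ⊢
    exact h3 _ _ hb

theorem star_op (h : T.Star) : (op T).Star := by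
  intro b0 c0
  obtain ⟨m, hm, hc⟩ := h ((T.e c0).symm b0) c0
  obtain ⟨m', hm', he⟩ := ham_op (hamY_iff.2 hm)
  refine ⟨m', hamY_iff.1 hm', ?_⟩
  have := he ((T.e c0).symm b0)
  rw [hc, Equiv.apply_symm_apply] at this
  exact this

end ham

section glue

variable {W B : Type*} {T : Tri W B} {P : W → Prop} {Q : B → Prop} {w : ZMod 3 → W}

theorem out_some (h : Cut T P Q w) (k : ZMod 3) (v : {v // ¬ P v}) :
    ((op (inn h.op)).e k (some v)).1 = T.e k v.1 := by
  show (((inn h.op).e k).symm (some v)).1 = _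
  rw [inn_symm_some]
  rfl

theorem out_none (h : Cut T P Q w) (k : ZMod 3) :
    ((op (inn h.op)).e k none).1 = T.e k (w k) := by
  show (((inn h.op).e k).symm none).1 = _
  rw [inn_symm_none]

/-- the two edges of the 2-factor in the cut have the same value -/
theorem parity [Fintype W] [Fintype B] (h : Cut T P Q w) (m1 : {v // P v} → ZMod 3)
    (hb : Function.Bijective (fun v => (inn h).e (m1 v) v)) (j : ZMod 3)
    (hj : m1 ⟨w j, h.hP j⟩ = j) (Y : {v // P v} → Prop) (Z : B → Prop)
    (hYZ : ∀ v k, k ≠ m1 v → (Y v ↔ Z (T.e k v.1))) :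
    Z (T.e (j + 1) (w (j + 1))) ↔ Z (T.e (j + 2) (w (j + 2))) := by
  classical
  -- indicators
  set yi : {v // P v} → ZMod 2 := fun v => if Y v then 1 else 0 with hyi
  set zi : B → ZMod 2 := fun b => if Z b then 1 else 0 with hzi
  set ζ : ZMod 3 → Option {b // Q b} → ZMod 2 := fun k o => match o with
    | none => zi (T.e k (w k))
    | some b => zi b.1 with hζ
  have huniq : ∀ v : {v // P v}, ¬ Q (T.e (m1 v) v.1) → m1 v = j := by
    intro v hv
    have e1 : (inn h).e (m1 v) v = none := inn_none h _ v hv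
    have e2 : (inn h).e (m1 ⟨w j, h.hP j⟩) ⟨w j, h.hP j⟩ = none := by rw [hj]; exact inn_w h j
    have e3 := hb.1 (e1.trans e2.symm)
    rw [e3]; exact hj
  have s1 : ∀ k, ∑ v : {v // P v}, zi (T.e k v.1)
      = zi (T.e k (w k)) + ∑ b : {b // Q b}, zi b.1 := by
    intro k
    have e1 : ∀ v : {v // P v}, zi (T.e k v.1) = ζ k ((inn h).e k v) := by
      intro v
      by_cases hq : Q (T.e k v.1)
      · rw [inn_some h k v hq]
      · rw [inn_none h k v hq, h.eq_w k v.2 hq]
    rw [Finset.sum_congr rfl (fun v _ => e1 v), Equiv.sum_comp ((inn h).e k) (ζ k),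
      Fintype.sum_option]
  have s2 : ∑ v : {v // P v}, zi (T.e (m1 v) v.1)
      = zi (T.e j (w j)) + ∑ b : {b // Q b}, zi b.1 := by
    have e1 : ∀ v : {v // P v}, zi (T.e (m1 v) v.1) = ζ j ((inn h).e (m1 v) v) := by
      intro v
      by_cases hq : Q (T.e (m1 v) v.1)
      · rw [inn_some h _ v hq]
      · have e2 := huniq v hq
        rw [inn_none h _ v hq]
        show zi (T.e (m1 v) v.1) = zi (T.e j (w j))
        rw [h.eq_w _ v.2 hq, e2]
    have e3 := Function.Bijective.sum_comp hb (ζ j)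
    rw [Finset.sum_congr rfl (fun v _ => e1 v), e3, Fintype.sum_option]
  have s3 : ∀ v : {v // P v}, ∑ k : ZMod 3, zi (T.e k v.1) = zi (T.e (m1 v) v.1) := by
    intro v
    have e1 : ∀ k, k ≠ m1 v → zi (T.e k v.1) = yi v := by
      intro k hk
      have := hYZ v k hk
      rw [hyi, hzi]
      by_cases hy : Y v
      · simp only [if_pos hy, if_pos (this.1 hy)]
      · simp only [if_neg hy, if_neg (fun h' => hy (this.2 h'))]
    have e2 : ∀ c k : ZMod 3, k = c ∨ k = c + 1 ∨ k = c + 2 := by decide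
    have e3 : ∀ (f : ZMod 3 → ZMod 2) (c : ZMod 3), ∑ k, f k = f c + f (c + 1) + f (c + 2) := by
      intro f c
      rw [Bic.sum_zmod3]
      have e4 : ∀ c : ZMod 3, c = 0 ∨ c = 1 ∨ c = 2 := by decide
      rcases e4 c with rfl | rfl | rfl
      · have a1 : (0 : ZMod 3) + 1 = 1 := by decide
        have a2 : (0 : ZMod 3) + 2 = 2 := by decide
        rw [a1, a2]
      · have a1 : (1 : ZMod 3) + 1 = 2 := by decide
        have a2 : (1 : ZMod 3) + 2 = 0 := by decide
        rw [a1, a2]; ring
      · have a1 : (2 : ZMod 3) + 1 = 0 := by decide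
        have a2 : (2 : ZMod 3) + 2 = 1 := by decide
        rw [a1, a2]; ring
    have n1 : ∀ c : ZMod 3, c + 1 ≠ c := by decide
    have n2 : ∀ c : ZMod 3, c + 2 ≠ c := by decide
    rw [e3 _ (m1 v), e1 _ (n1 _), e1 _ (n2 _), add_assoc, CharTwo.add_self_eq_zero, add_zero]
  have s4 : ∑ k : ZMod 3, (zi (T.e k (w k)) + ∑ b : {b // Q b}, zi b.1)
      = zi (T.e j (w j)) + ∑ b : {b // Q b}, zi b.1 := by
    rw [← s2, ← Finset.sum_congr rfl (fun v _ => s3 v), Finset.sum_comm]
    exact Finset.sum_congr rfl (fun k _ => (s1 k).symm)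
  have s5 : zi (T.e (j + 1) (w (j + 1))) = zi (T.e (j + 2) (w (j + 2))) := by
    have e4 : ∀ c : ZMod 3, c = 0 ∨ c = 1 ∨ c = 2 := by decide
    rw [Bic.sum_zmod3] at s4
    generalize (∑ b : {b // Q b}, zi b.1) = S at s4
    have key : ∀ a b c S : ZMod 2, (a + S + (b + S) + (c + S) = a + S → b = c) ∧
        (a + S + (b + S) + (c + S) = b + S → c = a) ∧
        (a + S + (b + S) + (c + S) = c + S → a = b) := by decide
    rcases e4 j with rfl | rfl | rfl
    · have a1 : (0 : ZMod 3) + 1 = 1 := by decide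
      have a2 : (0 : ZMod 3) + 2 = 2 := by decide
      rw [a1, a2]
      exact (key _ _ _ _).1 s4
    · have a1 : (1 : ZMod 3) + 1 = 2 := by decide
      have a2 : (1 : ZMod 3) + 2 = 0 := by decide
      rw [a1, a2]
      exact (key _ _ _ _).2.1 s4
    · have a1 : (2 : ZMod 3) + 1 = 0 := by decide
      have a2 : (2 : ZMod 3) + 2 = 1 := by decide
      rw [a1, a2]
      exact (key _ _ _ _).2.2 s4
  rw [hzi] at s5
  by_cases c1 : Z (T.e (j + 1) (w (j + 1))) <;> by_cases c2 : Z (T.e (j + 2) (w (j + 2)))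
  · exact ⟨fun _ => c2, fun _ => c1⟩
  · simp only [if_pos c1, if_neg c2] at s5
    exact absurd s5 one_ne_zero
  · simp only [if_neg c1, if_pos c2] at s5
    exact absurd s5.symm one_ne_zero
  · exact ⟨fun h => absurd h c1, fun h => absurd h c2⟩

open Classical in
/-- gluing two Hamiltonian 2-factors -/
theorem glue [Fintype W] [Fintype B] (h : Cut T P Q w) (m1 : {v // P v} → ZMod 3)
    (m2 : Option {v // ¬ P v} → ZMod 3) (h1 : HamY (inn h) m1) (h2 : HamY (op (inn h.op)) m2)
    (j : ZMod 3) (hj : m1 ⟨w j, h.hP j⟩ = j) (hj2 : m2 none = j) :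
    HamY T (fun v => if hv : P v then m1 ⟨v, hv⟩ else m2 (some ⟨v, hv⟩)) := by
  set m : W → ZMod 3 := fun v => if hv : P v then m1 ⟨v, hv⟩ else m2 (some ⟨v, hv⟩) with hm
  have hm1 : ∀ v : {v // P v}, m v.1 = m1 v := fun v => dif_pos v.2
  have hm2 : ∀ v : {v // ¬ P v}, m v.1 = m2 (some v) := fun v => dif_neg v.2
  have hne1 : ∀ c : ZMod 3, c + 1 ≠ c := by decide
  have hcol : ∀ c k : ZMod 3, k ≠ c → k = c + 1 ∨ k = c + 2 := by decide
  -- uniqueness of the matched cut edge
  have huniq : ∀ v : {v // P v}, ¬ Q (T.e (m1 v) v.1) → v.1 = w j ∧ m1 v = j := by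
    intro v hv
    have e1 : (inn h).e (m1 v) v = none := inn_none h _ v hv
    have e2 : (inn h).e (m1 ⟨w j, h.hP j⟩) ⟨w j, h.hP j⟩ = none := by rw [hj]; exact inn_w h j
    have e3 := h1.1.1 (e1.trans e2.symm)
    rw [e3]; exact ⟨rfl, hj⟩
  refine ⟨?_, ?_⟩
  · -- the matching
    have hinj : Function.Injective (fun v => T.e (m v) v) := by
      intro v v' hvv'
      have hvv : T.e (m v) v = T.e (m v') v' := hvv'
      by_cases hv : P v <;> by_cases hv' : P v'
      · have a1 := hm1 ⟨v, hv⟩
        have a2 := hm1 ⟨v', hv'⟩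
        simp only at a1 a2
        rw [a1, a2] at hvv
        by_cases hq : Q (T.e (m1 ⟨v, hv⟩) v)
        · have hq' : Q (T.e (m1 ⟨v', hv'⟩) v') := by rw [← hvv]; exact hq
          have e1 : (inn h).e (m1 ⟨v, hv⟩) ⟨v, hv⟩ = (inn h).e (m1 ⟨v', hv'⟩) ⟨v', hv'⟩ := by
            rw [inn_some h _ ⟨v, hv⟩ hq, inn_some h _ ⟨v', hv'⟩ hq']
            congr 1
            exact Subtype.ext hvv
          exact congrArg Subtype.val (h1.1.1 e1)
        · have hq' : ¬ Q (T.e (m1 ⟨v', hv'⟩) v') := by rw [← hvv]; exact hq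
          exact (huniq ⟨v, hv⟩ hq).1.trans (huniq ⟨v', hv'⟩ hq').1.symm
      · exfalso
        have a1 := hm1 ⟨v, hv⟩
        have a2 := hm2 ⟨v', hv'⟩
        simp only at a1 a2
        rw [a1, a2] at hvv
        have hq' : ¬ Q (T.e (m2 (some ⟨v', hv'⟩)) v') := h.not_out _ hv'
        have hq : ¬ Q (T.e (m1 ⟨v, hv⟩) v) := by rw [hvv]; exact hq'
        obtain ⟨c1, c2⟩ := huniq ⟨v, hv⟩ hq
        simp only at c1
        rw [c2, c1] at hvv
        have e1 : (op (inn h.op)).e (m2 none) none
            = (op (inn h.op)).e (m2 (some ⟨v', hv'⟩)) (some ⟨v', hv'⟩) := by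
          apply Subtype.ext
          rw [out_none h, out_some h, hj2]
          exact hvv
        exact Option.some_ne_none _ (h2.1.1 e1).symm
      · exfalso
        have a1 := hm1 ⟨v', hv'⟩
        have a2 := hm2 ⟨v, hv⟩
        simp only at a1 a2
        rw [a1, a2] at hvv
        have hq' : ¬ Q (T.e (m2 (some ⟨v, hv⟩)) v) := h.not_out _ hv
        have hq : ¬ Q (T.e (m1 ⟨v', hv'⟩) v') := by rw [← hvv]; exact hq'
        obtain ⟨c1, c2⟩ := huniq ⟨v', hv'⟩ hq
        simp only at c1
        rw [c2, c1] at hvv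
        have e1 : (op (inn h.op)).e (m2 none) none
            = (op (inn h.op)).e (m2 (some ⟨v, hv⟩)) (some ⟨v, hv⟩) := by
          apply Subtype.ext
          rw [out_none h, out_some h, hj2]
          exact hvv.symm
        exact Option.some_ne_none _ (h2.1.1 e1).symm
      · have a1 := hm2 ⟨v, hv⟩
        have a2 := hm2 ⟨v', hv'⟩
        simp only at a1 a2
        rw [a1, a2] at hvv
        have e1 : (op (inn h.op)).e (m2 (some ⟨v, hv⟩)) (some ⟨v, hv⟩)
            = (op (inn h.op)).e (m2 (some ⟨v', hv'⟩)) (some ⟨v', hv'⟩) := by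
          apply Subtype.ext
          rw [out_some h, out_some h]
          exact hvv
        have e2 := Option.some_injective _ (h2.1.1 e1)
        exact congrArg Subtype.val e2
    exact (Fintype.bijective_iff_injective_and_card _).2 ⟨hinj, Fintype.card_congr (T.e 0)⟩
  · intro Y Z hYZ
    have hc1 : ∀ (v : {v // P v}) k, k ≠ m1 v → (Y v.1 ↔ Z (T.e k v.1)) := by
      intro v k hk
      exact hYZ v.1 k (by rw [hm1]; exact hk)
    have hpar := parity h m1 h1.1 j hj (fun v => Y v.1) Z hc1
    set c : Prop := Z (T.e (j + 1) (w (j + 1))) with hcdef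
    have hZc : ∀ k, k ≠ j → (Z (T.e k (w k)) ↔ c) := by
      intro k hk
      rcases hcol j k hk with rfl | rfl
      · exact Iff.rfl
      · exact hpar.symm
    -- the cut edges of colour `≠ j` belong to the 2-factor
    have hfac : ∀ k, k ≠ j → k ≠ m1 ⟨w k, h.hP k⟩ := by
      intro k hk hk'
      have := huniq ⟨w k, h.hP k⟩ (by rw [← hk']; exact h.hQ k)
      exact hk (hk'.trans this.2)
    have hYc : ∀ k, k ≠ j → (Y (w k) ↔ c) := by
      intro k hk
      rw [hc1 ⟨w k, h.hP k⟩ k (hfac k hk)]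
      exact hZc k hk
    have hin := h1.2 (fun v => Y v.1) (fun o => match o with
      | none => c
      | some b => Z b.1) (by
        intro v k hk
        by_cases hq : Q (T.e k v.1)
        · rw [inn_some h k v hq]
          exact hc1 v k hk
        · rw [inn_none h k v hq]
          have e1 := h.eq_w k v.2 hq
          have hkj : k ≠ j := by
            rintro rfl
            apply hk
            have : v = ⟨w k, h.hP k⟩ := Subtype.ext e1
            rw [this, hj]
          show Y v.1 ↔ c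
          rw [e1]
          exact hYc k hkj)
    have hout := h2.2 (fun o => match o with
      | none => c
      | some v => Y v.1) (fun b => Z b.1) (by
        intro o k hk
        cases o with
        | none =>
          rw [hj2] at hk
          rw [out_none h]
          exact (hZc k hk).symm
        | some v =>
          rw [out_some h]
          exact hYZ v.1 k (by rw [hm2]; exact hk))
    have hallP : ∀ v, P v → (Y v ↔ c) := by
      intro v hv
      rw [← hYc (j + 1) (hne1 j)]
      exact ⟨fun hy => hin ⟨v, hv⟩ ⟨w (j + 1), h.hP _⟩ hy,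
        fun hy => hin ⟨w (j + 1), h.hP _⟩ ⟨v, hv⟩ hy⟩
    have hallN : ∀ v, ¬ P v → (Y v ↔ c) := by
      intro v hv
      exact ⟨fun hy => hout (some ⟨v, hv⟩) none hy, fun hy => hout none (some ⟨v, hv⟩) hy⟩
    have hall : ∀ v, (Y v ↔ c) := by
      intro v
      by_cases hv : P v
      · exact hallP v hv
      · exact hallN v hv
    intro v v' hv
    rw [hall] at hv ⊢
    exact hv

theorem star_glue [Fintype W] [Fintype B] (h : Cut T P Q w) (s1 : (inn h).Star)
    (s2 : (inn h.op).Star) : T.Star := by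
  classical
  have s2' := star_op s2
  intro w0 c0
  by_cases hw : P w0
  · obtain ⟨m1, hm1, hc⟩ := s1 ⟨w0, hw⟩ c0
    have hm1' := hamY_iff.2 hm1
    obtain ⟨v, hv⟩ := hm1'.1.2 none
    have hv' := (inn_eq_none_iff h _ v).1 hv
    obtain ⟨m2, hm2, hc2⟩ := s2' none (m1 v)
    have hvj : m1 ⟨w (m1 v), h.hP _⟩ = m1 v := by
      congr 1
      exact Subtype.ext hv'.symm
    refine ⟨_, hamY_iff.1 (glue h m1 m2 hm1' (hamY_iff.2 hm2) (m1 v) hvj hc2), ?_⟩
    rw [dif_pos hw]; exact hc
  · obtain ⟨m2, hm2, hc⟩ := s2' (some ⟨w0, hw⟩) c0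
    obtain ⟨m1, hm1, hc1⟩ := s1 ⟨w (m2 none), h.hP _⟩ (m2 none)
    refine ⟨_, hamY_iff.1 (glue h m1 m2 (hamY_iff.2 hm1) (hamY_iff.2 hm2) (m2 none) hc1 rfl), ?_⟩
    rw [dif_neg hw]; exact hc

end glue

section induct

theorem star_induct (base : ∀ (W B : Type) [Fintype W] [Fintype B] [DecidableEq W]
    [DecidableEq B] (T : Tri W B), T.Conn → T.Genus0 → T.Simple → Nontrivial W → T.Cyc → T.Star)
    (n : ℕ) : ∀ (W B : Type) [Fintype W] [Fintype B] [DecidableEq W] [DecidableEq B]
      (T : Tri W B), Fintype.card W ≤ n → CC T → DEx T → Cut3 T → Nontrivial W → T.Star := by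
  induction n with
  | zero =>
    intro W B _ _ _ _ T hn _ _ _ hnt
    have := Fintype.one_lt_card_iff_nontrivial.2 hnt
    omega
  | succ n ih =>
    intro W B _ _ _ _ T hn hcc hd hc3 hnt
    classical
    have step : ∀ (P : W → Prop) (Q : B → Prop) (w : ZMod 3 → W) (h : Cut T P Q w),
        (∃ b, Q b) → (∃ v, ¬ P v) → T.Star := by
      intro P Q w h hb hv
      obtain ⟨b, hb⟩ := hb
      obtain ⟨v, hv⟩ := hv
      have hcard : Fintype.card W = Fintype.card B := Fintype.card_congr (T.e 0)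
      refine star_glue h ?_ ?_
      · refine ih _ _ (inn h) ?_ (CC.inn hcc h) (DEx.inn hd hc3 h) (Cut3.inn hc3 h) ?_
        · have := Fintype.card_subtype_lt (p := P) hv
          omega
        · refine ⟨⟨⟨(T.e 0).symm b, h.symm_mem 0 hb⟩, ⟨w 0, h.hP 0⟩, fun he => ?_⟩⟩
          have he' := congrArg Subtype.val he
          simp only at he'
          apply h.hQ 0
          rw [← he', Equiv.apply_symm_apply]
          exact hb
      · refine ih _ _ (inn h.op) ?_ (CC.inn hcc.op h.op) (DEx.inn hd.op hc3.op h.op)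
          (Cut3.inn hc3.op h.op) ?_
        · have := Fintype.card_subtype_lt (p := fun b => ¬ Q b) (x := b) (by simpa using hb)
          omega
        · refine ⟨⟨⟨T.e 0 v, h.not_out 0 hv⟩, ⟨T.e 0 (w 0), h.hQ 0⟩, fun he => ?_⟩⟩
          have he' := congrArg Subtype.val he
          simp only at he'
          apply hv
          rw [(T.e 0).injective he']
          exact h.hP 0
    by_cases hcyc : T.Cyc
    · have hconn := hcc.conn
      have : Nonempty W := hnt.to_nonempty
      exact base W B T hconn (hd.genus0 hconn) (hc3.simple hd) hnt hcyc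
    · unfold Tri.Cyc at hcyc
      push Not at hcyc
      obtain ⟨S, hS, h1, h2⟩ := hcyc
      have hbd : (bd T (fun v => (Sum.inl v : W ⊕ B) ∈ S) (fun b => (Sum.inr b : W ⊕ B) ∈ S)).card
          ≤ 3 := by
        refine le_trans (le_of_eq ?_) hS
        congr 1
        ext x
        rw [mem_bd]
        simp only [Finset.mem_filter, Finset.mem_univ, true_and]
        tauto
      -- a cut whose inside `S'` has at least two elements and whose outside has at least two
      have hfin : ∀ (S : Finset (W ⊕ B)) (P : W → Prop) (Q : B → Prop) (w : ZMod 3 → W),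
          (∀ v, P v ↔ (Sum.inl v : W ⊕ B) ∈ S) → (∀ b, Q b ↔ (Sum.inr b : W ⊕ B) ∈ S) →
          1 < S.card → 1 < Sᶜ.card → Cut T P Q w → T.Star := by
        intro S P Q w hP hQ h1 h2 h
        refine step P Q w h ?_ ?_
        · by_contra hcon
          push Not at hcon
          have : S ⊆ {Sum.inl (w 0)} := by
            intro x hx
            rw [Finset.mem_singleton]
            rcases x with v | b
            · congr 1
              exact h.eq_w 0 ((hP v).2 hx) (hcon _)
            · exact absurd ((hQ b).2 hx) (hcon b)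
          have := Finset.card_le_card this
          rw [Finset.card_singleton] at this
          omega
        · by_contra hcon
          push Not at hcon
          have : Sᶜ ⊆ {Sum.inr (T.e 0 (w 0))} := by
            intro x hx
            rw [Finset.mem_compl] at hx
            rw [Finset.mem_singleton]
            rcases x with v | b
            · exact absurd ((hP v).1 (hcon v)) hx
            · have hq : ¬ Q b := fun hq => hx ((hQ b).1 hq)
              have e1 := h.eq_w 0 (hcon ((T.e 0).symm b)) (by rwa [Equiv.apply_symm_apply])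
              rw [← e1, Equiv.apply_symm_apply]
          have := Finset.card_le_card this
          rw [Finset.card_singleton] at this
          omega
      rcases cut_struct hc3 _ _ hbd with h3 | ⟨w, h3⟩ | ⟨w, h3⟩
      · exfalso
        rcases h3 with ⟨a1, a2⟩ | ⟨a1, a2⟩
        · have : Sᶜ = ∅ := by
            rw [Finset.compl_eq_empty_iff, Finset.eq_univ_iff_forall]
            rintro (v | b)
            · exact a1 v
            · exact a2 b
          rw [this] at h2
          simp at h2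
        · have : S = ∅ := by
            apply Finset.eq_empty_of_forall_notMem
            rintro (v | b)
            · exact a1 v
            · exact a2 b
          rw [this] at h1
          simp at h1
      · exact hfin S _ _ w (fun v => Iff.rfl) (fun b => Iff.rfl) h1 h2 h3
      · refine hfin Sᶜ _ _ w (fun v => ?_) (fun b => ?_) h2 ?_ h3
        · rw [Finset.mem_compl]
        · rw [Finset.mem_compl]
        · rw [compl_compl]; exact h1

end induct

end Crest.Agent.R039.Sum3

namespace Crest.Agent.R039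

/-- BLOCK B4 -/
theorem blockSum3 : BlockSum3 := by
  intro base W B _ _ _ _ T hc hg hs hn
  exact Sum3.star_induct base (Fintype.card W) W B T le_rfl (Sum3.CC.of_conn hc)
    (Sum3.DEx.of_genus0 hc hg) (Sum3.Cut3.of_simple hc hs) hn

end Crest.Agent.R039
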